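import Mathlib

/-! Counting hierarchy and the existential theory of the reals: definitions. -/

namespace Vale.Agent.P337

open Turing

/-- `f` is computed in polynomial time by a multi-stack Turing machine with finite alphabets. -/
def PolyFn (f : List Bool → List Bool) : Prop :=
  ∃ M : TM2ComputableInPolyTime (id : List Bool → List Bool) (id : List Bool → List Bool) f,
    ∀ k, Finite (M.tm.Γ k)

/-- The class P. -/
def ClassP : Set (Set (List Bool)) :=
  {L | ∃ f, PolyFn f ∧ ∀ x, x ∈ L ↔ f x = [true]}

/-- Pairing of binary strings. -/
def pair (x y : List Bool) : List Bool := (x.flatMap fun b => [true, b]) ++ false :: y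

open Classical in
/-- The first `k` oracle answers: each query is computed by `q` from `w` and the earlier answers. -/
noncomputable def answers (A : Set (List Bool)) (q : List Bool → List Bool) (w : List Bool) :
    ℕ → List Bool
  | 0 => []
  | k + 1 => answers A q w k ++ [decide (q (pair w (answers A q w k)) ∈ A)]

/-- The oracle machine `(q, acc)` asking `k` queries accepts `w`. -/
def Accepts (A : Set (List Bool)) (q acc : List Bool → List Bool) (k : ℕ) (w : List Bool) : Prop :=
  acc (pair w (answers A q w k)) = [true]

/-- The class PP relative to the oracle `A`. -/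
def PPrel (A : Set (List Bool)) : Set (Set (List Bool)) :=
  {L | ∃ (q acc : List Bool → List Bool) (c m : Polynomial ℕ), PolyFn q ∧ PolyFn acc ∧
    ∀ x, x ∈ L ↔ 2 ^ c.eval x.length < 2 * Nat.card {r : Fin (c.eval x.length) → Bool //
      Accepts A q acc (m.eval x.length) (pair x (List.ofFn r))}}

/-- The levels of the counting hierarchy. -/
def Level : ℕ → Set (Set (List Bool))
  | 0 => ClassP
  | j + 1 => ⋃ A ∈ Level j, PPrel A

/-- A polynomial: a list of monomials (coefficient, exponents of `x 0, x 1, ...`). -/
abbrev Poly : Type := List (ℤ × List ℕ)

/-- The value of a polynomial at a real point. -/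
def evalPoly (p : Poly) (x : ℕ → ℝ) : ℝ :=
  (p.map fun m => (m.1 : ℝ) * ∏ i : Fin m.2.length, x i ^ m.2.get i).sum

/-- Boolean formulas over the atoms `p = 0` and `p > 0`. -/
inductive Formula : Type
  | eq : Poly → Formula
  | pos : Poly → Formula
  | and : Formula → Formula → Formula
  | or : Formula → Formula → Formula
  | not : Formula → Formula

/-- Truth of a formula at a real point. -/
def Formula.Holds (x : ℕ → ℝ) : Formula → Prop
  | .eq p => evalPoly p x = 0
  | .pos p => 0 < evalPoly p x
  | .and a b => a.Holds x ∧ b.Holds x
  | .or a b => a.Holds x ∨ b.Holds x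
  | .not a => ¬ a.Holds x

/-- The formula as a list of symbols in Polish order. -/
def Formula.tokens : Formula → List (ℕ × Poly)
  | .eq p => [(0, p)]
  | .pos p => [(1, p)]
  | .and a b => (2, []) :: (a.tokens ++ b.tokens)
  | .or a b => (3, []) :: (a.tokens ++ b.tokens)
  | .not a => (4, []) :: a.tokens

/-- Self-delimiting binary code of a bit. -/
def bBool (b : Bool) : List Bool := if b then [true, false, false] else [false]

/-- Code of a pair. -/
def bPair {α β : Type} (f : α → List Bool) (g : β → List Bool) (p : α × β) : List Bool :=
  true :: (f p.1 ++ g p.2)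

/-- Code of a list. -/
def bList {α : Type} (f : α → List Bool) : List α → List Bool
  | [] => [false]
  | a :: l => true :: (f a ++ bList f l)

/-- Code of a natural number in binary. -/
def bNat (n : ℕ) : List Bool := bList bBool n.bits

/-- Code of an integer: sign and absolute value in binary. -/
def bInt (z : ℤ) : List Bool := bPair bBool bNat (decide (z < 0), z.natAbs)

/-- Code of a natural number in unary. -/
def bUnary : ℕ → List Bool
  | 0 => [false]
  | n + 1 => true :: false :: bUnary n

/-- Binary code of a formula. -/
def Formula.code (F : Formula) : List Bool :=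
  bList (bPair bNat (bList (bPair bInt (bList bUnary)))) F.tokens

/-- The language of true existential sentences over the reals. -/
def ETR : Set (List Bool) := {s | ∃ F : Formula, s = F.code ∧ ∃ x : ℕ → ℝ, F.Holds x}

end Vale.Agent.P337
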