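import Vale.Agent.P337.CH
import Vale.Agent.P337.Defs

/-!
From the internal classes to the classes of `Defs`.
-/

namespace Vale.Agent.P337

open Vale.Agent.Lib.H23 Enc

namespace Bridge

def fwdA : Cmd := Cmd.loop K.m (Cmd.push K.a false) (Cmd.push K.a true)

theorem fwdA_exec (M : List Bool) : ∀ A : List Bool,
    Exec fwdA ⟨M, A, [], []⟩ ⟨[], M.reverse ++ A, [], []⟩ (2 * M.length + 1) := by
  induction M with
  | nil => intro A; exact Exec.loop0 rfl
  | cons x M ih =>
    intro A
    have e : (x :: M).reverse ++ A = M.reverse ++ (x :: A) := by simp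
    rw [e]
    cases x
    · exact Exec.mono (t := 1 + (2 * M.length + 1) + 1)
        (Exec.loopf (l := M) rfl (Exec.push K.a false _) (ih (false :: A))) (by simp; omega)
    · exact Exec.mono (t := 1 + (2 * M.length + 1) + 1)
        (Exec.loopt (l := M) rfl (Exec.push K.a true _) (ih (true :: A))) (by simp; omega)

def wrap : Cmd := Cmd.loop K.a (Cmd.seq (Cmd.push K.m false) (Cmd.push K.m true))
  (Cmd.seq (Cmd.push K.m false) (Cmd.seq (Cmd.push K.m false)
    (Cmd.seq (Cmd.push K.m true) (Cmd.push K.m true))))

theorem wrap_exec (A : List Bool) : ∀ y : List Bool,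
    Exec wrap ⟨ser (enc y), A, [], []⟩ ⟨ser (enc (A.reverse ++ y)), [], [], []⟩
      (5 * A.length + 1) := by
  induction A with
  | nil => intro y; exact Exec.loop0 rfl
  | cons x A ih =>
    intro y
    have e : (x :: A).reverse ++ y = A.reverse ++ (x :: y) := by simp
    rw [e]
    cases x
    · exact Exec.mono (t := 1 + 1 + (5 * A.length + 1) + 1)
        (Exec.loopf (l := A) rfl (Exec.seq (Exec.push K.m false _) (Exec.push K.m true _))
          (ih (false :: y))) (by simp; omega)
    · exact Exec.mono (t := 1 + (1 + (1 + 1)) + (5 * A.length + 1) + 1)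
        (Exec.loopt (l := A) rfl (Exec.seq (Exec.push K.m false _) (Exec.seq (Exec.push K.m false _)
          (Exec.seq (Exec.push K.m true _) (Exec.push K.m true _)))) (ih (true :: y)))
        (by simp; omega)

def encC : Cmd := Cmd.seq fwdA (Cmd.seq (Cmd.push K.m false) wrap)

theorem encC_exec (x : List Bool) :
    Exec encC ⟨x, [], [], []⟩ ⟨ser (enc x), [], [], []⟩ (7 * x.length + 3) := by
  have h := wrap_exec (x.reverse ++ []) []
  simp only [List.append_nil, List.reverse_reverse, List.length_reverse] at h
  have h' := fwdA_exec x []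
  rw [List.append_nil] at h'
  exact (Exec.seq h' (Exec.seq (Exec.push K.m false _) h)).mono (by omega)

def drop1 : Cmd := Cmd.br K.m Cmd.skip Cmd.skip Cmd.skip

def unwrap : Cmd := Cmd.loop K.m Cmd.skip (Cmd.br K.m Cmd.skip (Cmd.push K.a false)
  (Cmd.seq drop1 (Cmd.seq drop1 (Cmd.push K.a true))))

theorem unwrap_exec (y : List Bool) : ∀ A : List Bool,
    Exec unwrap ⟨ser (enc y), A, [], []⟩ ⟨[], y.reverse ++ A, [], []⟩ (7 * y.length + 3) := by
  induction y with
  | nil =>
    intro A
    exact Exec.loopf (l := []) (t := 1) (t' := 1) rfl (Exec.skip _) (Exec.loop0 rfl)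
  | cons x y ih =>
    intro A
    have e : (x :: y).reverse ++ A = y.reverse ++ (x :: A) := by simp
    rw [e]
    cases x
    · exact Exec.mono (t := 1 + 1 + (7 * y.length + 3) + 1)
        (Exec.loopt (l := false :: ser (enc y)) rfl
          (Exec.brf (l := ser (enc y)) rfl (Exec.push K.a false _)) (ih (false :: A)))
        (by simp; omega)
    · exact Exec.mono (t := 1 + 1 + (1 + 1 + 1) + 1 + (7 * y.length + 3) + 1)
        (Exec.loopt (l := true :: false :: false :: ser (enc y)) rfl
          (Exec.brt (l := false :: false :: ser (enc y)) rfl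
            (Exec.seq (Exec.brf (l := false :: ser (enc y)) rfl (Exec.skip _))
              (Exec.seq (Exec.brf (l := ser (enc y)) rfl (Exec.skip _)) (Exec.push K.a true _))))
          (ih (true :: A))) (by simp; omega)

def decC : Cmd := Cmd.seq unwrap backA

theorem decC_exec (y : List Bool) :
    Exec decC ⟨ser (enc y), [], [], []⟩ ⟨y, [], [], []⟩ (9 * y.length + 4) := by
  have h := backA_exec (y.reverse ++ []) [] [] []
  have h' := unwrap_exec y []
  simp only [List.append_nil, List.reverse_reverse, List.length_reverse] at h h'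
  exact (Exec.seq h' h).mono (by omega)

theorem sz_bits_le (x : List Bool) : sz x ≤ 4 * x.length + 1 := by
  have := sz_list_le (l := x) fun a _ => sz_bool a
  omega

def ustep (s : Bool × Bool × List Bool × List Bool) (b : Bool) :
    Bool × Bool × List Bool × List Bool :=
  bif s.1 then (true, false, s.2.2.1, b :: s.2.2.2)
  else bif s.2.1 then (false, false, b :: s.2.2.1, s.2.2.2) else (!b, b, s.2.2.1, s.2.2.2)

def unpair (w : List Bool) : List Bool × List Bool :=
  ((w.foldl ustep (false, false, [], [])).2.2.1.reverse,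
    (w.foldl ustep (false, false, [], [])).2.2.2.reverse)

theorem pt_unpair : PT unpair := by
  have h : PT (fun w : List Bool => w.foldl ustep (false, false, [], [])) := by
    refine PT.foldl' (f := fun _ s b => ustep s b) (by unfold ustep; fun_prop) PT.id (PT.const _)
      ⟨10, fun _ s b => ?_⟩
    obtain ⟨d, p, u, v⟩ := s
    have h1 := sz_bool b
    have h2 := sz_bool (!b)
    have h3 := sz_bool true
    have h4 := sz_bool false
    cases d <;> cases p <;> simp [ustep] <;> omega
  exact PT.pair h.snd.snd.fst.reverse h.snd.snd.snd.reverse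

theorem unpair_pair (x y : List Bool) : unpair (pair x y) = (x, y) := by
  have h1 : ∀ (y u v : List Bool),
      y.foldl ustep (true, false, u, v) = (true, false, u, y.reverse ++ v) := by
    intro y
    induction y with
    | nil => simp
    | cons b y ih => intro u v; simp [ustep, ih]
  have h2 : ∀ (x u : List Bool), (pair x y).foldl ustep (false, false, u, []) =
      (true, false, x.reverse ++ u, y.reverse) := by
    intro x
    induction x with
    | nil => intro u; simp [pair, ustep, h1]
    | cons b x ih =>
      intro u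
      have := ih (b :: u)
      simp only [pair, List.flatMap_cons, List.cons_append, List.nil_append, List.foldl_cons,
        ustep, cond_false, cond_true, Bool.not_true] at this ⊢
      rw [this]
      simp
  simp [unpair, h2]

theorem accepts_one (A : Set (List Bool)) (w : List Bool) :
    Accepts A (fun s => (unpair s).1) (fun s => (unpair s).2) 1 w ↔ w ∈ A := by
  classical
  have h : answers A (fun s => (unpair s).1) w 1 = [decide ((unpair (pair w [])).1 ∈ A)] := rfl
  rw [Accepts, unpair_pair, h, unpair_pair]
  simp

theorem cnt_take (Q : List Bool → Prop) (k d : ℕ) :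
    cnt (k + d) (fun r => Q (r.take k)) = 2 ^ d * cnt k Q := by
  induction d with
  | zero =>
    rw [pow_zero, one_mul, cnt, cnt]
    exact Nat.card_congr (Equiv.subtypeEquivRight fun r => by
      rw [List.take_of_length_le (by simp)])
  | succ d ih =>
    have e : ∀ r : Fin (k + d + 1) → Bool,
        (List.ofFn r).take k = (List.ofFn (Fin.init r)).take k := by
      intro r
      rw [List.ofFn_succ_last, List.take_append_of_le_length (by simp)]
      rfl
    have h2 : 2 = Nat.card Bool := by simp
    rw [pow_succ', mul_assoc, ← ih, cnt, cnt, h2, ← Nat.card_prod]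
    exact Nat.card_congr
      { toFun := fun r => (r.1 (Fin.last _), ⟨Fin.init r.1, e r.1 ▸ r.2⟩)
        invFun := fun p => ⟨Fin.snoc (α := fun _ => Bool) p.2.1 p.1, by
          rw [e, Fin.init_snoc]; exact p.2.2⟩
        left_inv := fun r => Subtype.ext (Fin.snoc_init_self r.1)
        right_inv := fun p => by simp }

end Bridge

open Bridge Polynomial in
theorem polyFn_of_pt {f : List Bool → List Bool} (h : PT f) : PolyFn f := by
  obtain ⟨Q, hQ⟩ := h.size_le
  obtain ⟨c, P, hc⟩ := h
  have key : ∀ x : List Bool, Exec (Cmd.seq encC (Cmd.seq c decC)) ⟨x, [], [], []⟩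
      ⟨f x, [], [], []⟩ ((7 * X + (P + 9 * Q).comp (4 * X + 1) + 7 : ℕ[X]).eval x.length) := by
    intro x
    have h1 := hc x []
    rw [List.append_nil, List.append_nil] at h1
    refine (Exec.seq (encC_exec x) (Exec.seq h1 (decC_exec _))).mono ?_
    have h2 := eval_mono P (sz_bits_le x)
    have h3 := eval_mono Q (sz_bits_le x)
    have h4 := length_lt_sz (f x)
    have h5 := hQ x
    simp only [eval_add, eval_mul, eval_comp, eval_X, eval_ofNat, eval_one]
    omega
  refine ⟨⟨⟨compile (Cmd.seq encC (Cmd.seq c decC)), Equiv.refl _, Equiv.refl _⟩,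
    7 * X + (P + 9 * Q).comp (4 * X + 1) + 7 + 1, fun x => ?_⟩,
    fun _ => (inferInstance : Finite Bool)⟩
  have h1 := (compile_outputs (key x)).some
  rw [eval_add, eval_one]
  have e : ∀ l : List Bool, List.map (Equiv.refl Bool).invFun l = l := fun l => List.map_id l
  exact (e x).symm ▸ (e (f x)).symm ▸ h1

open Bridge Polynomial in
theorem level_of_CHj (j : ℕ) : ∀ (α : Type) [Enc α] (p : α → Prop), CHj j α p →
    ∀ g : List Bool → α, PT g → {s | p (g s)} ∈ Level j := by
  induction j with
  | zero =>
    rintro α _ p ⟨f, hf, h⟩ g hg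
    exact ⟨fun s => [f (g s)], polyFn_of_pt (by fun_prop), fun s => by simp [h]⟩
  | succ j ih =>
    rintro α _ p ⟨k, q, hk, hq, h⟩ g hg
    have hu := pt_unpair
    have hk' := hk.pt
    have hA := ih _ q hq (fun s => (g (unpair s).1, (unpair s).2.take (k (g (unpair s).1))))
      ((hg.comp hu.fst).pair (pt_take (hk'.comp (hg.comp hu.fst)) hu.snd))
    obtain ⟨P, hP⟩ := (hk.comp hg).le_poly
    refine Set.mem_biUnion hA ⟨fun s => (unpair s).1, fun s => (unpair s).2, P.comp (4 * X + 1), 1,
      polyFn_of_pt hu.fst, polyFn_of_pt hu.snd, fun x => ?_⟩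
    obtain ⟨d, hd⟩ : ∃ d, (P.comp (4 * X + 1)).eval x.length = k (g x) + d := by
      refine Nat.exists_eq_add_of_le ((hP x).trans ?_)
      simpa using eval_mono P (sz_bits_le x)
    rw [hd, eval_one]
    have e : Nat.card {r : Fin (k (g x) + d) → Bool // Accepts {s | q (g (unpair s).1,
        (unpair s).2.take (k (g (unpair s).1)))} (fun s => (unpair s).1) (fun s => (unpair s).2) 1
        (pair x (List.ofFn r))} = cnt (k (g x) + d) (fun r => q (g x, r.take (k (g x)))) :=
      Nat.card_congr (Equiv.subtypeEquivRight fun r => by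
        rw [accepts_one]
        simp only [unpair_pair, Set.mem_ofPred_eq])
    rw [e, cnt_take (fun r => q (g x, r)), Set.mem_ofPred_eq, h, pow_add, mul_left_comm,
      mul_comm _ (2 ^ d), Nat.mul_lt_mul_left (by positivity)]

theorem level_of_CH {p : List Bool → Prop} (h : CH p) : ∃ j, {s | p s} ∈ Level j := by
  obtain ⟨j, h⟩ := h
  exact ⟨j, level_of_CHj j _ p h (fun s => s) PT.id⟩

end Vale.Agent.P337
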