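import Vale.Agent.Lib.helper23.Pad
import Mathlib

/-!
More polynomial-time functions.
-/

namespace Vale.Agent.P337

open Vale.Agent.Lib.H23 Enc

variable {α β γ : Type} [Enc α] [Enc β] [Enc γ]

/-- `k x` can be written in unary in polynomial time. -/
def Un (k : α → ℕ) : Prop := PT (fun x => List.replicate (k x) ())

/-- the digit number `i` of `w` in base `b` -/
def dig (b w i : ℕ) : ℕ := w / b ^ i % b

/-- modular power -/
def powMod (a e m : ℕ) : ℕ := if m = 0 then 0 else a ^ e % m

theorem powMod_eq {m : ℕ} (hm : m ≠ 0) (a e : ℕ) : powMod a e m = a ^ e % m := if_neg hm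

theorem sz_append (l m : List β) : sz (l ++ m) + 1 = sz l + sz m := by
  induction l with
  | nil => simp [add_comm]
  | cons a l ih => simp only [List.cons_append, sz_cons]; omega

theorem Un.pt {k : α → ℕ} (h : Un k) : PT k := (PT.length h).congr fun _ => by simp

theorem Un.comp {k : β → ℕ} {g : α → β} (h : Un k) (hg : PT g) : Un (fun x => k (g x)) :=
  PT.comp (f := fun y => List.replicate (k y) ()) h hg

theorem Un.const (c : ℕ) : Un (fun _ : α => c) := PT.const _

theorem Un.congr {k m : α → ℕ} (h : Un k) (e : ∀ x, m x = k x) : Un m :=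
  PT.congr h fun x => by rw [e]

theorem Un.length {l : α → List β} (h : PT l) : Un (fun x => (l x).length) :=
  (PT.map (f := fun _ _ => ()) (PT.const _) h).congr fun _ => by simp

theorem Un.add {k m : α → ℕ} (hk : Un k) (hm : Un m) : Un (fun x => k x + m x) :=
  (PT.append hk hm).congr fun _ => by simp

theorem Un.mul {k m : α → ℕ} (hk : Un k) (hm : Un m) : Un (fun x => k x * m x) := by
  obtain ⟨Q, hQ⟩ := PT.size_le hm
  refine (PT.foldl' (f := fun x s (_ : Unit) => List.replicate (m x) () ++ s)
    (PT.append (hm.comp (by fun_prop)) (by fun_prop)) hk (PT.const []) ⟨Q, fun x s a => ?_⟩).congr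
    fun x => ?_
  · have h1 := sz_append (List.replicate (m x) ()) s
    have h2 := hQ x
    have h3 := eval_mono Q (Nat.le_add_right (sz x) (sz a))
    omega
  · show List.replicate (k x * m x) () = _
    induction k x with
    | zero => simp
    | succ n ih => rw [List.replicate_succ', List.foldl_append, ← ih]; simp [Nat.succ_mul, add_comm]

theorem pt_take' {l : α → List β} {k : α → ℕ} (hk : PT k) (hl : PT l) :
    PT (fun x => (l x).take (k x)) :=
  (PT.drop (PT.sub hl.length hk) hl.reverse).reverse.congr fun x => by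
    rw [List.drop_reverse, List.reverse_reverse]
    rcases le_total (k x) (l x).length with h | h
    · rw [Nat.sub_sub_self h]
    · rw [Nat.sub_eq_zero_of_le h, Nat.sub_zero, List.take_length, List.take_of_length_le h]

theorem Un.min {k m : α → ℕ} (hk : PT k) (hm : Un m) : Un (fun x => min (k x) (m x)) :=
  (pt_take' hk hm).congr fun _ => by simp

theorem Un.sz {f : α → β} (hf : PT f) : Un (fun x => sz (f x)) :=
  PT.comp PT.szUnary (PT.comp (PT.retag (f := fun y : β => (enc y : Tr)) fun _ => rfl) hf)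

theorem Un.size {k : α → ℕ} (hk : PT k) : Un (fun x => (k x).size) :=
  (Un.length hk.bits).congr fun _ => (Nat.size_eq_bits_len _).symm

theorem Un.poly (P : Polynomial ℕ) {k : α → ℕ} (hk : Un k) : Un (fun x => P.eval (k x)) := by
  induction P using Polynomial.induction_on' with
  | add p q hp hq => exact (hp.add hq).congr fun _ => by simp
  | monomial n a =>
    have h : Un (fun x => k x ^ n) := by
      induction n with
      | zero => exact (Un.const 1).congr fun _ => by simp
      | succ n ih => exact (ih.mul hk).congr fun _ => pow_succ _ _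
    exact ((Un.const a).mul h).congr fun _ => by simp

/-- a unary function is polynomially bounded -/
theorem Un.le_poly {k : α → ℕ} (hk : Un k) :
    ∃ P : Polynomial ℕ, ∀ x, k x ≤ P.eval (Vale.Agent.Lib.H23.sz x) := by
  obtain ⟨Q, hQ⟩ := PT.size_le hk
  refine ⟨Q, fun x => le_trans ?_ (hQ x)⟩
  simpa using (length_lt_sz (List.replicate (k x) ())).le

theorem Un.pow {b k : α → ℕ} (hk : Un k) (hb : PT b) : PT (fun x => b x ^ k x) := by
  obtain ⟨Q, hQ⟩ := hk.le_poly
  obtain ⟨R, hR⟩ := hb.size_le
  have e : ∀ (a n : ℕ), (List.replicate n ()).foldl (fun s _ => s * a) 1 = a ^ n := by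
    intro a n
    induction n with
    | zero => rfl
    | succ n ih => rw [List.replicate_succ', List.foldl_append, ih, pow_succ]; rfl
  refine (PT.foldl (f := fun x s (_ : Unit) => s * b x) (by fun_prop) hk (PT.const 1)
    ⟨4 * (R * Q + 1) + 1, fun x j => ?_⟩).congr fun x => (e _ _).symm
  rw [List.take_replicate, e]
  have h1 : b x ^ Min.min j (k x) < 2 ^ (R.eval (Lib.H23.sz x) * Q.eval (Lib.H23.sz x) + 1) := by
    have h2 : b x ≤ 2 ^ R.eval (Lib.H23.sz x) :=
      (lt_two_pow_sz _).le.trans (Nat.pow_le_pow_right (by omega) (hR x))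
    calc b x ^ Min.min j (k x) ≤ (2 ^ R.eval (Lib.H23.sz x)) ^ Min.min j (k x) :=
          Nat.pow_le_pow_left h2 _
      _ ≤ (2 ^ R.eval (Lib.H23.sz x)) ^ Q.eval (Lib.H23.sz x) :=
          Nat.pow_le_pow_right (by positivity) ((min_le_right _ _).trans (hQ x))
      _ < _ := by rw [← pow_mul]; exact Nat.pow_lt_pow_right (by omega) (by omega)
  simpa using sz_nat_le h1

theorem Un.range {k : α → ℕ} (hk : Un k) : PT (fun x => List.range (k x)) := by
  obtain ⟨Q, hQ⟩ := hk.le_poly
  have e : ∀ n : ℕ, (List.replicate n ()).foldl (fun s _ => s ++ [s.length]) [] = List.range n := by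
    intro n
    induction n with
    | zero => rfl
    | succ n ih => rw [List.replicate_succ', List.foldl_append, ih, List.range_succ]; simp
  refine (PT.foldl (f := fun _ (s : List ℕ) (_ : Unit) => s ++ [s.length]) (by fun_prop) hk
    (PT.const []) ⟨Q * (4 * Q + 2) + 1, fun x j => ?_⟩).congr fun x => (e _).symm
  rw [List.take_replicate, e]
  have h0 : Min.min j (k x) ≤ Q.eval (Lib.H23.sz x) := (min_le_right _ _).trans (hQ x)
  have h1 := sz_list_le (l := List.range (Min.min j (k x))) (B := 4 * Q.eval (Lib.H23.sz x) + 1)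
    fun a ha => sz_nat_le (lt_trans (lt_of_lt_of_le (List.mem_range.1 ha) h0) Nat.lt_two_pow_self)
  rw [List.length_range] at h1
  have h2 := Nat.mul_le_mul_right (4 * Q.eval (Lib.H23.sz x) + 1 + 1) h0
  simp only [Polynomial.eval_add, Polynomial.eval_mul, Polynomial.eval_ofNat, Polynomial.eval_one]
  exact h1.trans (Nat.succ_le_succ h2)

@[fun_prop] theorem pt_mod {f g : α → ℕ} (hf : PT f) (hg : PT g) : PT (fun x => f x % g x) :=
  (PT.sub hf (PT.mul hg (PT.div hf hg))).congr fun _ => Nat.mod_def _ _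

@[fun_prop] theorem pt_dig {b w i : α → ℕ} (hb : PT b) (hw : PT w) (hi : PT i) :
    PT (fun x => dig (b x) (w x) (i x)) := by
  refine (pt_mod (PT.div hw ((Un.min hi ((Un.size hw).add (Un.const 1))).pow hb)) hb).congr
    fun x => ?_
  rcases le_total (i x) ((w x).size + 1) with h | h
  · rw [min_eq_left h, dig]
  · rw [min_eq_right h, dig]
    have key : ∀ n, (w x).size + 1 ≤ n → w x / b x ^ n % b x = 0 := by
      intro n hn
      rcases Nat.lt_or_ge (b x) 2 with h2 | h2
      · obtain h3 | h3 : b x = 0 ∨ b x = 1 := by omega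
        · rw [h3, zero_pow (by omega)]; simp
        · rw [h3, Nat.mod_one]
      · rw [Nat.div_eq_of_lt, Nat.zero_mod]
        exact lt_of_lt_of_le (Nat.lt_size_self _) ((Nat.pow_le_pow_left h2 _).trans
          (Nat.pow_le_pow_right (by omega) (by omega)))
    rw [key _ h, key _ le_rfl]

@[fun_prop] theorem pt_powMod {a e m : α → ℕ} (ha : PT a) (he : PT e) (hm : PT m) :
    PT (fun x => powMod (a x) (e x) (m x)) := by
  have k1 : ∀ (a m : ℕ) (l : List Bool) (n : ℕ),
      l.foldl (fun s b => s * s * (bif b then a else 1) % (m + 1)) (a ^ n % (m + 1)) =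
        a ^ l.foldl (fun n b => Nat.bit b n) n % (m + 1) := by
    intro a m l
    induction l with
    | nil => intro n; rfl
    | cons b l ih =>
      intro n
      rw [List.foldl_cons, List.foldl_cons, ← ih]
      congr 1
      rw [Nat.bit_val, pow_add, two_mul, pow_add, Nat.mul_mod, ← Nat.mul_mod (a ^ n), ← Nat.mul_mod]
      cases b <;> simp
  obtain ⟨R, hR⟩ := hm.size_le
  have key : PT (fun x => (e x).bits.reverse.foldl
      (fun s b => s * s * (bif b then a x else 1) % (m x - 1 + 1)) (1 % (m x - 1 + 1))) := by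
    refine PT.foldl (f := fun x s b => s * s * (bif b then a x else 1) % (m x - 1 + 1))
      (by fun_prop) (by fun_prop) (by fun_prop) ⟨4 * R + 1, fun x j => ?_⟩
    have h1 := k1 (a x) (m x - 1) ((e x).bits.reverse.take j) 0
    rw [pow_zero] at h1
    rw [h1]
    have h2 : m x < 2 ^ R.eval (sz x) :=
      (lt_two_pow_sz _).trans_le (Nat.pow_le_pow_right (by omega) (hR x))
    have h3 := Nat.mod_lt (a x ^ ((e x).bits.reverse.take j).foldl (fun n b => Nat.bit b n) 0)
      (Nat.succ_pos (m x - 1))
    have h4 : 0 < 2 ^ R.eval (sz x) := by positivity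
    simpa using sz_nat_le (k := R.eval (sz x)) (lt_of_lt_of_le h3 (by omega))
  refine key.congr fun x => ?_
  have h1 := k1 (a x) (m x - 1) (e x).bits.reverse 0
  have h2 := valMSB_reverse_bits (e x)
  unfold valMSB at h2
  rw [pow_zero, h2] at h1
  rw [h1, powMod]
  split_ifs with h
  · rw [h, Nat.mod_one]
  · rw [Nat.sub_add_cancel (Nat.pos_of_ne_zero h)]

@[fun_prop] theorem pt_take {l : α → List β} {k : α → ℕ} (hk : PT k) (hl : PT l) :
    PT (fun x => (l x).take (k x)) := pt_take' hk hl

theorem sz_le_of_lt {y B : ℕ} (h : y < B) : sz y ≤ 4 * sz B + 1 :=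
  sz_nat_le (h.trans (lt_two_pow_sz B))

/-- a uniform bound over an exponential range -/
theorem exists_bound {e : α × ℕ → ℕ} {B : α → ℕ} (he : PT e) (hB : PT B) :
    ∃ C : α → ℕ, PT C ∧ ∀ x y, y < B x → e (x, y) < C x := by
  obtain ⟨Q, hQ⟩ := he.size_le
  refine ⟨fun x => 2 ^ Q.eval (sz x + (4 * sz (B x) + 1) + 1), (Un.poly Q (((Un.sz PT.id).add
    (((Un.const 4).mul (Un.sz hB)).add (Un.const 1))).add (Un.const 1))).pow (PT.const 2),
    fun x y hy => ?_⟩
  refine (lt_two_pow_sz _).trans_le (Nat.pow_le_pow_right (by omega) ((hQ _).trans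
    (eval_mono Q ?_)))
  have := sz_le_of_lt hy
  rw [sz_pair]
  omega

/-- a uniform bound over short lists of bounded numbers -/
theorem exists_bound_list {e : α × List ℕ → ℕ} {B m : α → ℕ} (he : PT e) (hB : PT B)
    (hm : Un m) : ∃ C : α → ℕ, PT C ∧ ∀ x (l : List ℕ), l.length ≤ m x → (∀ y ∈ l, y < B x) →
      e (x, l) < C x := by
  obtain ⟨Q, hQ⟩ := he.size_le
  refine ⟨fun x => 2 ^ Q.eval (sz x + (m x * (4 * sz (B x) + 2) + 1) + 1),
    (Un.poly Q (((Un.sz PT.id).add ((hm.mul (((Un.const 4).mul (Un.sz hB)).add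
      (Un.const 2))).add (Un.const 1))).add (Un.const 1))).pow (PT.const 2),
    fun x l hl hy => ?_⟩
  refine (lt_two_pow_sz _).trans_le (Nat.pow_le_pow_right (by omega) ((hQ _).trans
    (eval_mono Q ?_)))
  have h1 := sz_list_le (l := l) fun y h => sz_le_of_lt (hy y h)
  have h2 : sz l ≤ m x * (4 * sz (B x) + 2) + 1 :=
    h1.trans (Nat.succ_le_succ (Nat.mul_le_mul_right _ hl))
  rw [sz_pair]
  omega

theorem dig_lt {b : ℕ} (hb : 0 < b) (w i : ℕ) : dig b w i < b := Nat.mod_lt _ hb

theorem dig_zero (b w : ℕ) : dig b w 0 = w % b := by simp [dig]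

theorem dig_succ (b w i : ℕ) : dig b w (i + 1) = dig b (w / b) i := by
  rw [dig, dig, pow_succ', Nat.div_div_eq_div_mul]

/-- every digit string occurs -/
theorem exists_dig {b n : ℕ} (f : ℕ → ℕ) (hf : ∀ i < n, f i < b) :
    ∃ w < b ^ n, ∀ i < n, dig b w i = f i := by
  induction n generalizing f with
  | zero => exact ⟨0, by simp, by simp⟩
  | succ n ih =>
    obtain ⟨w, hw, h⟩ := ih (fun i => f (i + 1)) fun i hi => hf _ (by omega)
    have h0 := hf 0 (by omega)
    refine ⟨f 0 + b * w, ?_, fun i hi => ?_⟩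
    · rw [pow_succ']
      nlinarith
    · cases i with
      | zero => rw [dig_zero, Nat.add_mul_mod_self_left, Nat.mod_eq_of_lt h0]
      | succ i =>
        rw [dig_succ, Nat.add_mul_div_left _ _ (by omega), Nat.div_eq_of_lt h0, zero_add,
          h i (by omega)]

theorem dig_inj {b n w w' : ℕ} (hw : w < b ^ n) (hw' : w' < b ^ n)
    (h : ∀ i < n, dig b w i = dig b w' i) : w = w' := by
  induction n generalizing w w' with
  | zero => simp at hw hw'; omega
  | succ n ih =>
    have h0 := h 0 (by omega)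
    rw [dig_zero, dig_zero] at h0
    rw [pow_succ'] at hw hw'
    have h1 := ih (Nat.div_lt_of_lt_mul hw) (Nat.div_lt_of_lt_mul hw') fun i hi => by
      rw [← dig_succ, ← dig_succ, h _ (by omega)]
    rw [← Nat.div_add_mod w b, ← Nat.div_add_mod w' b, h0, h1]

/-- sums over digit strings -/
theorem sum_dig {M : Type} [AddCommMonoid M] (b n : ℕ) (F : (Fin n → ℕ) → M) :
    ∑ w ∈ Finset.range (b ^ n), F (fun i => dig b w i)
      = ∑ k ∈ Fintype.piFinset (fun _ : Fin n => Finset.range b), F k := by
  refine Finset.sum_bij (fun w _ i => dig b w i) (fun w hw => ?_) (fun w hw w' hw' h => ?_)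
    (fun k hk => ?_) fun _ _ => rfl
  · rw [Fintype.mem_piFinset]
    intro i
    refine Finset.mem_range.2 (dig_lt (Nat.pos_of_ne_zero ?_) _ _)
    rintro rfl
    rw [zero_pow (Nat.ne_of_gt i.pos)] at hw
    simp at hw
  · exact dig_inj (Finset.mem_range.1 hw) (Finset.mem_range.1 hw') fun i hi =>
      congrFun h ⟨i, hi⟩
  · rw [Fintype.mem_piFinset] at hk
    obtain ⟨w, hw, h⟩ := exists_dig (b := b) (n := n) (fun i => if h : i < n then k ⟨i, h⟩ else 0)
      fun i hi => by rw [dif_pos hi]; exact Finset.mem_range.1 (hk _)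
    exact ⟨w, Finset.mem_range.2 hw, funext fun i => by rw [h i i.2, dif_pos i.2]⟩

end Vale.Agent.P337
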