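import Vale.Agent.P337.PTx

/-!
TASK CH. The counting hierarchy for predicates on encoded types, closure properties.

Hints. `CHj.comp`, `CHj.cond` (if-then-else along a PT Boolean), by induction on `j`; `CHj.succ`
(use the empty coin string). Threshold lemma `CHj j q → CHj (j+1) (t x ≤ #{y < B x | q (x,y)})`:
use `s + 1` coins with `2 ^ s > B x + t x`; if the first coin is `true` accept iff the value `y` of
the other coins (`valMSB`) has `y < B x ∧ q (x, y)`, otherwise accept iff `y + t x < 2 ^ s + 1`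
(treat `t x = 0` by `cond`). Negation by induction on `j` (count the complement).
`and` = threshold 2 over `y < 2`.
-/

namespace Vale.Agent.P337

open Vale.Agent.Lib.H23 Enc

/-- number of coin strings of length `n` satisfying `q` -/
noncomputable def cnt (n : ℕ) (q : List Bool → Prop) : ℕ :=
  Nat.card {r : Fin n → Bool // q (List.ofFn r)}

/-- level `j` of the counting hierarchy, for predicates on an encoded type -/
def CHj : ℕ → (α : Type) → [Enc α] → (α → Prop) → Prop
  | 0, α, _, p => ∃ f : α → Bool, PT f ∧ ∀ x, p x ↔ f x = true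
  | j + 1, α, _, p => ∃ (k : α → ℕ) (q : α × List Bool → Prop), Un k ∧
      CHj j (α × List Bool) q ∧ ∀ x, p x ↔ 2 ^ k x < 2 * cnt (k x) (fun r => q (x, r))

variable {α β γ : Type} [Enc α] [Enc β] [Enc γ]

/-- predicates in the counting hierarchy -/
def CH (p : α → Prop) : Prop := ∃ j, CHj j α p

theorem CH.of_pt {f : α → Bool} (hf : PT f) : CH (fun x => f x = true) :=
  ⟨0, f, hf, fun _ => Iff.rfl⟩

theorem CH.congr {p q : α → Prop} (h : CH p) (e : ∀ x, q x ↔ p x) : CH q := by
  have : q = p := funext fun x => propext (e x)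
  rwa [this]

open Classical in
theorem cnt_eq_sum (n : ℕ) (q : List Bool → Prop) :
    cnt n q = ∑ r : Fin n → Bool, if q (List.ofFn r) then 1 else 0 := by
  rw [cnt, Nat.subtype_card (Finset.univ.filter fun r : Fin n → Bool => q (List.ofFn r))
    (by simp), Finset.card_filter]

theorem cnt_congr {n : ℕ} {q q' : List Bool → Prop} (h : ∀ r, r.length = n → (q r ↔ q' r)) :
    cnt n q = cnt n q' := by
  rw [cnt_eq_sum, cnt_eq_sum]
  refine Finset.sum_congr rfl fun r _ => ?_
  rw [h _ List.length_ofFn]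

open Classical in
theorem cnt_zero (q : List Bool → Prop) : cnt 0 q = if q [] then 1 else 0 := by
  rw [cnt_eq_sum]
  simp

theorem cnt_succ (n : ℕ) (q : List Bool → Prop) :
    cnt (n + 1) q = cnt n (fun r => q (true :: r)) + cnt n (fun r => q (false :: r)) := by
  rw [cnt_eq_sum, cnt_eq_sum, cnt_eq_sum, ← (Fin.consEquiv fun _ : Fin (n + 1) => Bool).sum_comp,
    Fintype.sum_prod_type, Fintype.sum_bool]
  have h : ∀ (b : Bool) (r : Fin n → Bool),
      List.ofFn (Fin.consEquiv (fun _ : Fin (n + 1) => Bool) (b, r)) = b :: List.ofFn r :=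
    fun b r => List.ofFn_succ
  exact congrArg₂ (· + ·) (Finset.sum_congr rfl fun r _ => by rw [h])
    (Finset.sum_congr rfl fun r _ => by rw [h])

theorem cnt_add_not (n : ℕ) (q : List Bool → Prop) : cnt n q + cnt n (fun r => ¬ q r) = 2 ^ n := by
  rw [cnt_eq_sum, cnt_eq_sum, ← Finset.sum_add_distrib,
    Finset.sum_congr rfl (g := fun _ => 1) fun r _ => by by_cases h : q (List.ofFn r) <;> simp [h]]
  simp

open Classical in
theorem cnt_val (n : ℕ) (P : ℕ → Prop) :
    cnt n (fun r => P (valMSB r)) = ((Finset.range (2 ^ n)).filter P).card := by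
  rw [Finset.card_filter]
  induction n generalizing P with
  | zero => rw [cnt_zero, pow_zero, Finset.sum_range_one]; rfl
  | succ n ih =>
    rw [cnt_succ, pow_succ, mul_two, Finset.sum_range_add, ← ih P, ← ih fun y => P (2 ^ n + y),
      add_comm]
    exact congrArg₂ (· + ·) (cnt_congr fun r _ => by simp [valMSB_cons])
      (cnt_congr fun r hr => by simp [valMSB_cons, hr])

theorem CHj.congr {j : ℕ} {p q : α → Prop} (h : CHj j α p) (e : ∀ x, q x ↔ p x) : CHj j α q := by
  have : q = p := funext fun x => propext (e x)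
  rwa [this]

theorem CHj.comp {j : ℕ} {p : β → Prop} {g : α → β} (h : CHj j β p) (hg : PT g) :
    CHj j α (fun x => p (g x)) := by
  induction j generalizing α β with
  | zero =>
    obtain ⟨f, hf, h⟩ := h
    exact ⟨fun x => f (g x), hf.comp hg, fun x => h _⟩
  | succ j ih =>
    obtain ⟨k, q, hk, hq, h⟩ := h
    exact ⟨fun x => k (g x), fun z => q (g z.1, z.2), hk.comp hg,
      ih hq (g := fun z : α × List Bool => (g z.1, z.2)) (by fun_prop), fun x => h _⟩

theorem CHj.cond {j : ℕ} {p q : α → Prop} {b : α → Bool} (hb : PT b) (hp : CHj j α p)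
    (hq : CHj j α q) : CHj j α (fun x => bif b x then p x else q x) := by
  induction j generalizing α with
  | zero =>
    obtain ⟨f, hf, h⟩ := hp
    obtain ⟨g, hg, h'⟩ := hq
    exact ⟨fun x => bif b x then f x else g x, by fun_prop, fun x => by
      dsimp only
      cases b x
      · exact h' x
      · exact h x⟩
  | succ j ih =>
    obtain ⟨k, r, hk, hr, h⟩ := hp
    obtain ⟨k', r', hk', hr', h'⟩ := hq
    refine ⟨fun x => bif b x then k x else k' x, fun z => bif b z.1 then r z else r' z,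
      (PT.cond hb hk hk').congr fun x => by dsimp only; cases b x <;> rfl,
      ih (b := fun z : α × List Bool => b z.1) (by fun_prop) hr hr', fun x => ?_⟩
    dsimp only
    cases b x
    · exact h' x
    · exact h x

theorem CHj.succ {j : ℕ} {p : α → Prop} (h : CHj j α p) : CHj (j + 1) α p := by
  refine ⟨fun _ => 0, fun z => p z.1, Un.const 0, h.comp (by fun_prop), fun x => ?_⟩
  rw [cnt_zero]
  split_ifs with hp <;> simp [hp]

theorem CHj.mono {j j' : ℕ} {p : α → Prop} (h : CHj j α p) (hj : j ≤ j') : CHj j' α p := by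
  induction hj with
  | refl => exact h
  | step _ ih => exact ih.succ

theorem CHj.of_pt (j : ℕ) {f : α → Bool} (hf : PT f) : CHj j α (fun x => f x = true) :=
  CHj.mono (j := 0) ⟨f, hf, fun _ => Iff.rfl⟩ (Nat.zero_le j)

theorem CHj.thr {j : ℕ} {q : α × List Bool → Prop} {k t : α → ℕ} (hq : CHj j _ q) (hk : Un k)
    (ht : PT t) (h1 : ∀ x, 1 ≤ t x) (h2 : ∀ x, t x ≤ 2 ^ k x + 1) :
    CHj (j + 1) α (fun x => t x ≤ cnt (k x) fun r => q (x, r)) := by
  have hp := hk.pow (PT.const 2)
  refine ⟨fun x => k x + 1, fun z => bif z.2.headD false then q (z.1, z.2.tail) else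
    ltb (valMSB z.2.tail) (2 ^ k z.1 + 1 - t z.1) = true, hk.add (Un.const 1),
    CHj.cond (by fun_prop) (hq.comp (by fun_prop)) (CHj.of_pt j (PT.ltb (by fun_prop)
      (PT.sub (PT.add (hp.comp (by fun_prop)) (PT.const 1)) (by fun_prop)))), fun x => ?_⟩
  have h3 := cnt_val (k x) fun y => y < 2 ^ k x + 1 - t x
  have h4 : (Finset.range (2 ^ k x)).filter (fun y => y < 2 ^ k x + 1 - t x) =
      Finset.range (2 ^ k x + 1 - t x) := by
    ext y
    have := h1 x
    simp only [Finset.mem_filter, Finset.mem_range]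
    omega
  rw [Finset.filter_congr_decidable, h4, Finset.card_range] at h3
  rw [cnt_succ]
  simp only [List.headD_cons, List.tail_cons, cond_true, cond_false, ltb_eq, decide_eq_true_eq]
  rw [h3, pow_succ]
  have := h2 x
  omega

theorem CHj.not {j : ℕ} {p : α → Prop} (h : CHj j α p) : CHj j α (fun x => ¬ p x) := by
  induction j generalizing α with
  | zero =>
    obtain ⟨f, hf, h⟩ := h
    exact ⟨fun x => !f x, hf.not, fun x => by simp [h]⟩
  | succ j ih =>
    obtain ⟨k, q, hk, hq, h⟩ := h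
    have hp := hk.pow (PT.const 2)
    refine (CHj.thr (t := fun x => (2 ^ k x + 1) / 2) (ih hq) hk (by fun_prop)
      (fun x => ?_) fun x => Nat.div_le_self _ _).congr fun x => ?_
    · have : 0 < 2 ^ k x := by positivity
      omega
    · have := cnt_add_not (k x) fun r => q (x, r)
      rw [h]
      omega

theorem CH.comp {p : β → Prop} {g : α → β} (h : CH p) (hg : PT g) : CH (fun x => p (g x)) :=
  h.imp fun _ h => h.comp hg

theorem CH.not {p : α → Prop} (h : CH p) : CH (fun x => ¬ p x) :=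
  h.imp fun _ h => h.not

theorem CH.cond {p q : α → Prop} {b : α → Bool} (hb : PT b) (hp : CH p) (hq : CH q) :
    CH (fun x => bif b x then p x else q x) := by
  obtain ⟨j, hp⟩ := hp
  obtain ⟨j', hq⟩ := hq
  exact ⟨max j j', CHj.cond hb (hp.mono (le_max_left _ _)) (hq.mono (le_max_right _ _))⟩

open Classical in
theorem CH.count_ge' {q : α × ℕ → Prop} {B t : α → ℕ} (hq : CH q) (hB : PT B) (ht : PT t) :
    CH (fun x => t x ≤ ((Finset.range (B x)).filter (fun y => q (x, y))).card) := by
  obtain ⟨j, h⟩ := CH.cond (b := fun z : α × List Bool => ltb (valMSB z.2) (B z.1)) (by fun_prop)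
    (hq.comp (g := fun z : α × List Bool => (z.1, valMSB z.2)) (by fun_prop))
    (CH.of_pt (f := fun z : α × List Bool => eqb (valMSB z.2) (B z.1)) (by fun_prop))
  have h0 : ∀ x, B x + t x < 2 ^ (B x + t x).size := fun x => Nat.lt_size_self _
  refine ⟨j + 1, (h.thr (t := fun x => t x + 1) (Un.size (hB.add ht)) (by fun_prop)
    (fun x => by omega) fun x => by have := h0 x; omega).congr fun x => ?_⟩
  have h3 := cnt_val (B x + t x).size fun y => bif ltb y (B x) then q (x, y) else eqb y (B x) = true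
  have h4 : (Finset.range (2 ^ (B x + t x).size)).filter
      (fun y => bif ltb y (B x) then q (x, y) else eqb y (B x) = true) =
      insert (B x) ((Finset.range (B x)).filter (fun y => q (x, y))) := by
    ext y
    have := h0 x
    simp only [Finset.mem_filter, Finset.mem_range, Finset.mem_insert, ltb_eq, eqb_eq,
      decide_eq_true_eq]
    by_cases hy : y < B x
    · simp only [hy, decide_true, cond_true, true_and]
      exact ⟨fun h => Or.inr h.2, fun h => ⟨by omega, h.resolve_left (by omega)⟩⟩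
    · simp only [hy, decide_false, cond_false, false_and, or_false]
      omega
  rw [h4, Finset.card_insert_of_notMem (by simp)] at h3
  rw [h3]
  omega

theorem CH.all' {q : α × ℕ → Prop} {B : α → ℕ} (hq : CH q) (hB : PT B) :
    CH (fun x => ∀ y < B x, q (x, y)) := by
  classical
  refine (hq.count_ge' hB hB).congr fun x => ?_
  constructor
  · intro h
    rw [Finset.filter_true_of_mem fun y hy => h y (Finset.mem_range.1 hy), Finset.card_range]
  · intro h y hy
    have h1 := Finset.eq_of_subset_of_card_le (Finset.filter_subset (fun y => q (x, y))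
      (Finset.range (B x))) (by rwa [Finset.card_range])
    exact (Finset.filter_eq_self.1 h1) y (Finset.mem_range.2 hy)

theorem CH.and {p q : α → Prop} (hp : CH p) (hq : CH q) : CH (fun x => p x ∧ q x) := by
  refine (CH.all' (CH.cond (b := fun z : α × ℕ => eqb z.2 0) (by fun_prop)
    (hp.comp (g := fun z : α × ℕ => z.1) (by fun_prop))
    (hq.comp (g := fun z : α × ℕ => z.1) (by fun_prop))) (PT.const 2)).congr fun x => ?_
  constructor
  · rintro ⟨h1, h2⟩ y _
    dsimp only
    cases eqb y 0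
    · exact h2
    · exact h1
  · exact fun h => ⟨h 0 (by omega), h 1 (by omega)⟩

theorem CH.or {p q : α → Prop} (hp : CH p) (hq : CH q) : CH (fun x => p x ∨ q x) :=
  (hp.not.and hq.not).not.congr fun x => by tauto

theorem CH.imp {p q : α → Prop} (hp : CH p) (hq : CH q) : CH (fun x => p x → q x) :=
  (hp.not.or hq).congr fun x => by tauto

open Classical in
theorem CH.count_ge {q : α × ℕ → Prop} {B t : α → ℕ} (hq : CH q) (hB : PT B) (ht : PT t) :
    CH (fun x => t x ≤ ((Finset.range (B x)).filter (fun y => q (x, y))).card) :=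
  hq.count_ge' hB ht

theorem CH.ex {q : α × ℕ → Prop} {B : α → ℕ} (hq : CH q) (hB : PT B) :
    CH (fun x => ∃ y < B x, q (x, y)) :=
  (hq.not.all' hB).not.congr fun x => by simp

theorem CH.all {q : α × ℕ → Prop} {B : α → ℕ} (hq : CH q) (hB : PT B) :
    CH (fun x => ∀ y < B x, q (x, y)) := hq.all' hB

theorem CH.eq {f g : α → ℕ} (hf : PT f) (hg : PT g) : CH (fun x => f x = g x) :=
  (CH.of_pt (PT.eqb hf hg)).congr fun x => by simp

theorem CH.lt {f g : α → ℕ} (hf : PT f) (hg : PT g) : CH (fun x => f x < g x) :=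
  (CH.of_pt (PT.ltb hf hg)).congr fun x => by simp

theorem CH.le {f g : α → ℕ} (hf : PT f) (hg : PT g) : CH (fun x => f x ≤ g x) :=
  (CH.lt hg hf).not.congr fun x => by simp

/-- functions with polynomially many bits whose graph is in the counting hierarchy -/
def CF (F : α → ℕ) : Prop :=
  (∃ B : α → ℕ, PT B ∧ ∀ x, F x < B x) ∧ CH (fun z : α × ℕ => F z.1 = z.2)

theorem CF.of_pt {F : α → ℕ} (h : PT F) : CF F :=
  ⟨⟨fun x => F x + 1, by fun_prop, fun _ => Nat.lt_succ_self _⟩, CH.eq (by fun_prop) (by fun_prop)⟩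

theorem CF.congr {F G : α → ℕ} (h : CF F) (e : ∀ x, G x = F x) : CF G := by
  have : G = F := funext e
  rwa [this]

theorem CF.comp {F : β → ℕ} {g : α → β} (h : CF F) (hg : PT g) : CF (fun x => F (g x)) := by
  obtain ⟨⟨B, hB, hF⟩, h⟩ := h
  exact ⟨⟨fun x => B (g x), hB.comp hg, fun x => hF _⟩,
    h.comp (g := fun z : α × ℕ => (g z.1, z.2)) (by fun_prop)⟩

theorem CF.pred {q : α × ℕ → Prop} {F : α → ℕ} (hF : CF F) (hq : CH q) :
    CH (fun x => q (x, F x)) := by
  obtain ⟨⟨B, hB, hF⟩, h⟩ := hF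
  exact ((h.and hq).ex hB).congr fun x =>
    ⟨fun hx => ⟨F x, hF x, rfl, hx⟩, fun ⟨y, _, h1, h2⟩ => by
      dsimp only at h1
      rwa [h1]⟩

theorem CF.bind {G : α × ℕ → ℕ} {F : α → ℕ} (hF : CF F) (hG : CF G) :
    CF (fun x => G (x, F x)) := by
  obtain ⟨B, hB, hFB⟩ := hF.1
  obtain ⟨⟨B', hB', hG⟩, h⟩ := hG
  obtain ⟨C, hC, hBC⟩ := exists_bound hB' hB
  exact ⟨⟨C, hC, fun x => (hG _).trans (hBC x _ (hFB x))⟩,
    (hF.comp (g := fun z : α × ℕ => z.1) (by fun_prop)).pred
      (h.comp (g := fun w : (α × ℕ) × ℕ => ((w.1.1, w.2), w.1.2)) (by fun_prop))⟩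

theorem CF.bind₂ {G : α × ℕ × ℕ → ℕ} {F F' : α → ℕ} (hF : CF F) (hF' : CF F') (hG : CF G) :
    CF (fun x => G (x, F x, F' x)) :=
  hF.bind ((hF'.comp (g := fun z : α × ℕ => z.1) (by fun_prop)).bind
    (hG.comp (g := fun w : (α × ℕ) × ℕ => (w.1.1, w.1.2, w.2)) (by fun_prop)))

open Classical in
theorem CF.count {q : α × ℕ → Prop} {B : α → ℕ} (hq : CH q) (hB : PT B) :
    CF (fun x => ((Finset.range (B x)).filter (fun y => q (x, y))).card) := by
  refine ⟨⟨fun x => B x + 1, by fun_prop, fun x => Nat.lt_succ_of_le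
    ((Finset.card_filter_le _ _).trans (Finset.card_range _).le)⟩, ?_⟩
  have h := hq.comp (g := fun w : (α × ℕ) × ℕ => (w.1.1, w.2)) (by fun_prop)
  have hB' : PT fun z : α × ℕ => B z.1 := by fun_prop
  exact ((h.count_ge (t := fun z => z.2) hB' (by fun_prop)).and
    (h.count_ge (t := fun z => z.2 + 1) hB' (by fun_prop)).not).congr fun z => by
      dsimp only
      omega

theorem card_div_mod (F : ℕ → ℕ) (B C : ℕ) (h : ∀ y < B, F y < C) :
    ((Finset.range (B * C)).filter fun w => w % C < F (w / C)).card =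
      ∑ y ∈ Finset.range B, F y := by
  rw [Finset.card_filter]
  induction B with
  | zero => simp
  | succ B ih =>
    have hB := h B (Nat.lt_succ_self _)
    rw [Nat.succ_mul, Finset.sum_range_add, Finset.sum_range_succ, ih fun y hy => h y (by omega)]
    congr 1
    rw [← Finset.card_filter, ← Finset.card_range (F B)]
    congr 1
    ext u
    simp only [Finset.mem_filter, Finset.mem_range]
    by_cases hu : u < C
    · rw [Nat.mul_add_mod_of_lt hu, add_comm, Nat.add_mul_div_right _ _ (by omega),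
        Nat.div_eq_of_lt hu, zero_add]
      simp [hu]
    · omega

theorem CF.sum {F : α × ℕ → ℕ} {B : α → ℕ} (hF : CF F) (hB : PT B) :
    CF (fun x => ∑ y ∈ Finset.range (B x), F (x, y)) := by
  obtain ⟨B', hB', hFB⟩ := hF.1
  obtain ⟨C, hC, hBC⟩ := exists_bound hB' hB
  have h1 : CH fun z : α × ℕ => z.2 % C z.1 < F (z.1, z.2 / C z.1) :=
    (hF.comp (g := fun z : α × ℕ => (z.1, z.2 / C z.1)) (by fun_prop)).pred
      (CH.lt (f := fun w : (α × ℕ) × ℕ => w.1.2 % C w.1.1) (g := fun w => w.2)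
        (by fun_prop) (by fun_prop))
  refine (CF.count h1 (hB.mul hC)).congr fun x => ?_
  rw [← card_div_mod (fun y => F (x, y)) (B x) (C x) fun y hy => (hFB _).trans (hBC x y hy)]
  congr

open Classical in
theorem CF.ite {p : α → Prop} {F G : α → ℕ} (hp : CH p) (hF : CF F) (hG : CF G) :
    CF (fun x => if p x then F x else G x) := by
  obtain ⟨⟨B, hB, hFB⟩, h⟩ := hF
  obtain ⟨⟨B', hB', hGB⟩, h'⟩ := hG
  have hp' := hp.comp (g := fun z : α × ℕ => z.1) (by fun_prop)
  refine ⟨⟨fun x => B x + B' x, by fun_prop, fun x => ?_⟩,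
    ((hp'.and h).or (hp'.not.and h')).congr fun z => ?_⟩
  · have := hFB x
    have := hGB x
    dsimp only
    split_ifs <;> omega
  · by_cases hz : p z.1 <;> simp [hz]

/-- bounded minimisation (the infimum of the empty set is `0`) -/
theorem CF.least {q : α × ℕ → Prop} {B : α → ℕ} (hq : CH q) (hB : PT B) :
    CF (fun x => sInf {y | y < B x ∧ q (x, y)}) := by
  have h := hq.comp (g := fun w : (α × ℕ) × ℕ => (w.1.1, w.2)) (by fun_prop)
  have hB' : PT fun z : α × ℕ => B z.1 := by fun_prop
  have h2 : PT fun z : α × ℕ => z.2 := by fun_prop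
  refine ⟨⟨fun x => B x + 1, by fun_prop, fun x => ?_⟩,
    ((((CH.lt h2 hB').and hq).and (h.not.all h2)).or
      ((CH.eq h2 (PT.const 0)).and (h.not.all hB'))).congr fun z => ?_⟩
  · rcases Set.eq_empty_or_nonempty {y | y < B x ∧ q (x, y)} with h0 | h0
    · simp [h0]
    · exact Nat.lt_succ_of_lt (Nat.sInf_mem h0).1
  · obtain ⟨x, y⟩ := z
    dsimp only
    constructor
    · rintro rfl
      rcases Set.eq_empty_or_nonempty {y | y < B x ∧ q (x, y)} with h0 | h0
      · refine Or.inr ⟨by simp [h0], fun y hy hq => ?_⟩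
        exact (Set.eq_empty_iff_forall_notMem.1 h0) y ⟨hy, hq⟩
      · exact Or.inl ⟨Nat.sInf_mem h0, fun y hy hq =>
          Nat.notMem_of_lt_sInf hy ⟨hy.trans (Nat.sInf_mem h0).1, hq⟩⟩
    · rintro (⟨h1, h2⟩ | ⟨rfl, h2⟩)
      · refine le_antisymm (Nat.sInf_le h1) (not_lt.1 fun h3 => ?_)
        exact h2 _ h3 (Nat.sInf_mem (⟨y, h1⟩ : Set.Nonempty {y | y < B x ∧ q (x, y)})).2
      · exact Nat.sInf_eq_zero.2 (Or.inr
          (Set.eq_empty_iff_forall_notMem.2 fun y hy => h2 y hy.1 hy.2))

/-- a polynomially long list of values may be passed as an argument -/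
theorem CF.bindList {H : α × List ℕ → ℕ} {G : α × ℕ → ℕ} {m : α → ℕ} (hm : Un m) (hG : CF G)
    (hH : CF H) : CF (fun x => H (x, (List.range (m x)).map fun i => G (x, i))) := by
  obtain ⟨⟨B, hB, hGB⟩, hG⟩ := hG
  obtain ⟨⟨B', hB', hHB⟩, hH⟩ := hH
  obtain ⟨C, hC, hBC⟩ := exists_bound hB hm.pt
  obtain ⟨C', hC', hBC'⟩ := exists_bound_list hB' hC hm
  have hGC : ∀ x, ∀ i < m x, G (x, i) < C x := fun x i hi => (hGB _).trans (hBC x i hi)
  refine ⟨⟨C', hC', fun x => (hHB _).trans (hBC' x _ (by simp) ?_)⟩, ?_⟩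
  · intro y hy
    obtain ⟨i, hi, rfl⟩ := List.mem_map.1 hy
    exact hGC x i (List.mem_range.1 hi)
  have hr := hm.range
  have hm' := hm.pt
  have hp := hm.pow hC
  have h1 := (hG.comp (g := fun v : ((α × ℕ) × ℕ) × ℕ =>
    ((v.1.1.1, v.2), dig (C v.1.1.1) v.1.2 v.2)) (by fun_prop)).all
      (B := fun w : (α × ℕ) × ℕ => m w.1.1) (by fun_prop)
  have h2 := hH.comp (g := fun w : (α × ℕ) × ℕ =>
    ((w.1.1, (List.range (m w.1.1)).map fun i => dig (C w.1.1) w.2 i), w.1.2))
    (PT.pair (PT.pair (by fun_prop) (PT.map (by fun_prop) (hr.comp (by fun_prop)))) (by fun_prop))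
  refine ((h1.and h2).ex (B := fun z : α × ℕ => C z.1 ^ m z.1)
    (hp.comp (by fun_prop))).congr fun z => ?_
  have key : ∀ w, (∀ i < m z.1, G (z.1, i) = dig (C z.1) w i) →
      ((List.range (m z.1)).map fun i => dig (C z.1) w i) =
        (List.range (m z.1)).map fun i => G (z.1, i) :=
    fun w hw => List.map_congr_left fun i hi => (hw i (List.mem_range.1 hi)).symm
  dsimp only
  constructor
  · intro hz
    obtain ⟨w, hw, hd⟩ := exists_dig (fun i => G (z.1, i)) (hGC z.1)
    have hd' : ∀ i < m z.1, G (z.1, i) = dig (C z.1) w i := fun i hi => (hd i hi).symm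
    exact ⟨w, hw, hd', by rw [key w hd', hz]⟩
  · rintro ⟨w, -, hd, hz⟩
    rw [← key w hd, hz]

theorem CH.prime {p : α → ℕ} (hp : PT p) : CH (fun x => (p x).Prime) := by
  refine ((CH.le (PT.const 2) hp).and (((CH.eq (f := fun z : α × ℕ => p z.1 % z.2) (by fun_prop)
    (PT.const 0)).imp (CH.eq (f := fun z : α × ℕ => z.2) (by fun_prop) (PT.const 1))).all
      hp)).congr fun x => ?_
  rw [Nat.prime_def_lt]
  simp only [Nat.dvd_iff_mod_eq_zero]

end Vale.Agent.P337
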