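import Mathlib

/-!
TASK Opt. The penalised minimisation problem.

Plan. `exists_min`: continuity and coercivity (`N` even, `N ≥ 2`). `dichotomy`: let `m t` be the
minimum. If `P x0 = 0` then `m t ≤ C := max 1 (∑ x0 i ^ N)` for all `t`, `m` is monotone, so
`H ≤ m T` would give `H ≤ m t ≤ C` for all large `t`, contradicting `hZ`. If `P` has no zero: `m t → ∞`
(compactness of `{∑ x i ^ N ≤ H + 1}`); for `t ≥ T`, `m t ∉ [H, H + 1]`; and
`m (t (H+1)/H) ≤ (H+1)/H * m t`; so `m T ≤ H + 1` propagates to `m (T ((H+1)/H) ^ k) < H` for all `k`.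
-/

namespace Vale.Agent.P337

variable {n : ℕ}

/-- the penalised function -/
def pen (N : ℕ) (P : (Fin n → ℝ) → ℝ) (t : ℝ) (x : Fin n → ℝ) : ℝ := ∑ i, x i ^ N + t * P x

theorem isCompact_sub {N : ℕ} (hN : Even N) (hN2 : 2 ≤ N) (C : ℝ) :
    IsCompact {x : Fin n → ℝ | ∑ i, x i ^ N ≤ C} := by
  refine Metric.isCompact_of_isClosed_isBounded (isClosed_le (by fun_prop) continuous_const) ?_
  refine (Metric.isBounded_closedBall (x := 0) (r := max 1 C)).subset fun x hx => ?_
  rw [mem_closedBall_zero_iff, pi_norm_le_iff_of_nonneg (by positivity)]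
  intro i
  have h1 : x i ^ N ≤ C := (Finset.single_le_sum (f := fun i => x i ^ N)
    (fun j _ => hN.pow_nonneg _) (Finset.mem_univ i)).trans hx
  rw [Real.norm_eq_abs]
  rcases le_total |x i| 1 with h | h
  · exact h.trans (le_max_left _ _)
  · refine le_trans ?_ (le_max_right _ _)
    rw [← hN.pow_abs] at h1
    exact (le_self_pow₀ h (by omega)).trans h1

theorem exists_min {N : ℕ} (hN : Even N) (hN2 : 2 ≤ N) {P : (Fin n → ℝ) → ℝ} (hP : Continuous P)
    (h0 : ∀ x, 0 ≤ P x) {t : ℝ} (ht : 0 ≤ t) : ∃ z, ∀ x, pen N P t z ≤ pen N P t x := by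
  have hc : Continuous (pen N P t) := by unfold pen; fun_prop
  have hK := isCompact_sub (n := n) hN hN2 (pen N P t 0)
  have hmem : ∀ x, pen N P t x ≤ pen N P t 0 →
      x ∈ {x : Fin n → ℝ | ∑ i, x i ^ N ≤ pen N P t 0} := by
    intro x hx
    have := mul_nonneg ht (h0 x)
    simp only [pen, Set.mem_setOf_eq] at hx ⊢
    linarith
  obtain ⟨z, -, hz⟩ := hK.exists_isMinOn ⟨0, hmem 0 le_rfl⟩ hc.continuousOn
  refine ⟨z, fun x => ?_⟩
  rcases le_total (pen N P t x) (pen N P t 0) with h | h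
  · exact hz (hmem x h)
  · exact (hz (hmem 0 le_rfl)).trans h

theorem dichotomy {N : ℕ} (hN : Even N) (hN2 : 2 ≤ N) {P : (Fin n → ℝ) → ℝ} (hP : Continuous P)
    (h0 : ∀ x, 0 ≤ P x) {H T : ℝ} {D : ℕ} (hH : 1 ≤ H) (hT : H * (H + 1) ^ D < T)
    (hZ : ∀ t C z, 1 ≤ C → H * C ^ D < t → (∀ x, pen N P t z ≤ pen N P t x) →
      ¬ (H ≤ pen N P t z ∧ pen N P t z ≤ C)) :
    ((∃ x, P x = 0) → ∃ z, (∀ x, pen N P T z ≤ pen N P T x) ∧ pen N P T z < H) ∧
    ((∃ x, pen N P T x ≤ H + 1) → ∃ x, P x = 0) := by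
  have hT0 : 0 < T := lt_of_le_of_lt (by positivity) hT
  have hs : ∀ x : Fin n → ℝ, 0 ≤ ∑ i, x i ^ N := fun x =>
    Finset.sum_nonneg fun j _ => hN.pow_nonneg _
  constructor
  · rintro ⟨x0, hx0⟩
    obtain ⟨z, hz⟩ := exists_min hN hN2 hP h0 hT0.le
    refine ⟨z, hz, ?_⟩
    by_contra hH'
    push Not at hH'
    set C := max 1 (∑ i, x0 i ^ N) with hC
    have hC1 : 1 ≤ C := le_max_left _ _
    set t := max T (H * C ^ D + 1) with ht
    obtain ⟨z', hz'⟩ := exists_min hN hN2 hP h0 (t := t) (hT0.le.trans (le_max_left _ _))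
    refine hZ t C z' hC1 (lt_of_lt_of_le (lt_add_one _) (le_max_right _ _)) hz' ⟨?_, ?_⟩
    · refine hH'.trans ((hz z').trans ?_)
      unfold pen
      have := mul_le_mul_of_nonneg_right (le_max_left T (H * C ^ D + 1)) (h0 z')
      linarith
    · refine (hz' x0).trans ?_
      unfold pen
      rw [hx0, mul_zero, add_zero]
      exact le_max_right _ _
  · rintro ⟨x0, hx0⟩
    by_contra hne
    push Not at hne
    have hH0 : 0 < H := by linarith
    have hq : 1 < (H + 1) / H := by rw [lt_div_iff₀ hH0]; linarith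
    have key : ∀ k : ℕ, ∃ x, pen N P (T * ((H + 1) / H) ^ k) x ≤ H + 1 := by
      intro k
      induction k with
      | zero => exact ⟨x0, by simpa using hx0⟩
      | succ k ih =>
        obtain ⟨x, hx⟩ := ih
        have h1 : T ≤ T * ((H + 1) / H) ^ k := le_mul_of_one_le_right hT0.le (one_le_pow₀ hq.le)
        obtain ⟨z, hz⟩ := exists_min hN hN2 hP h0 (hT0.le.trans h1)
        have h2 := hZ _ (H + 1) z (by linarith) (hT.trans_le h1) hz
        have h3 : pen N P (T * ((H + 1) / H) ^ k) z < H := by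
          by_contra h
          exact h2 ⟨not_lt.1 h, (hz x).trans hx⟩
        refine ⟨z, ?_⟩
        have h4 : pen N P (T * ((H + 1) / H) ^ (k + 1)) z ≤
            (H + 1) / H * pen N P (T * ((H + 1) / H) ^ k) z := by
          unfold pen
          have := mul_le_mul_of_nonneg_right hq.le (hs z)
          rw [pow_succ]
          nlinarith
        refine h4.trans ?_
        calc (H + 1) / H * pen N P (T * ((H + 1) / H) ^ k) z ≤ (H + 1) / H * H :=
              mul_le_mul_of_nonneg_left h3.le (by positivity)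
          _ = H + 1 := by field_simp
    have hK := isCompact_sub (n := n) hN hN2 (H + 1)
    have hmem : ∀ t x, 0 ≤ t → pen N P t x ≤ H + 1 →
        x ∈ {x : Fin n → ℝ | ∑ i, x i ^ N ≤ H + 1} := by
      intro t x ht hx
      have := mul_nonneg ht (h0 x)
      simp only [pen, Set.mem_setOf_eq] at hx ⊢
      linarith
    obtain ⟨y, -, hy⟩ := hK.exists_isMinOn ⟨x0, hmem T x0 hT0.le hx0⟩ hP.continuousOn
    have hy0 : 0 < P y := lt_of_le_of_ne (h0 y) (hne y).symm
    obtain ⟨k, hk⟩ := pow_unbounded_of_one_lt ((H + 1) / (T * P y)) hq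
    obtain ⟨x, hx⟩ := key k
    have h5 : P y ≤ P x := hy (hmem _ x (by positivity) hx)
    rw [div_lt_iff₀ (by positivity)] at hk
    have h6 := mul_le_mul_of_nonneg_left h5 (show 0 ≤ T * ((H + 1) / H) ^ k by positivity)
    have := hs x
    unfold pen at hx
    nlinarith

end Vale.Agent.P337
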