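import Vale.Agent.P337.IsoNice
import Vale.Agent.P337.Opt

/-!
Real zeros of nonnegative nice polynomials of polynomial degree.
-/

namespace Vale.Agent.P337

open Vale.Agent.Lib.H23 Enc MvPolynomial

variable {α : Type} [Enc α]

open Finset

/-- directional derivative, without parameters -/
noncomputable def dP (n : ℕ) (P : ZP) (i : ℕ) : ZP :=
  sub0 n X (ext1 1 (sub0 n (fun k => X (k + 1) + if k = i then X 0 else 0) P))

/-- the penalised polynomial -/
noncomputable def GG (n N : ℕ) (P τ : ZP) : ZP :=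
  ∑ i ∈ range n, X i ^ N + τ * ((N : ZP) * sub0 n X P)

/-- homogenisation -/
noncomputable def hom (n e : ℕ) (G : ZP) (y : ℕ → ZP) (D : ZP) : ZP :=
  ext1 e (sub0 n (fun i => X 0 * sh 1 (y i)) G * ∑ j ∈ range (e + 1), (X 0 * sh 1 D) ^ j)

/-- the real function given by `P` -/
noncomputable def Pr (n N : ℕ) (P : ZP) (y : Fin n → ℝ) : ℝ :=
  N * aeval (app n y fun _ => 0) P

section sem

variable {K : Type} [CommRing K]

theorem aeval_sub0' [Algebra ℤ K] (m : ℕ) (G : ℕ → ZP) (φ : ℕ → K) (F : ZP) :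
    aeval φ (sub0 m G F) = aeval (fun i => if i < m then aeval φ (G i) else 0) F := by
  rw [sub0, comp_aeval_apply]
  congr 2
  funext i
  split_ifs <;> simp

theorem aeval_app_sub0 [Algebra ℤ K] (n : ℕ) (y : Fin n → K) (φ : ℕ → K) (F : ZP) :
    aeval (app n y φ) (sub0 n X F) = aeval (app n y fun _ => 0) F := by
  rw [aeval_sub0']
  congr 2
  funext i
  by_cases h : i < n <;> simp [app, h]

theorem spec_sub0 (n : ℕ) (φ : ℕ → K) (F : ZP) :
    spec n φ (sub0 n X F) = spec n (fun _ => (0 : K)) F := by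
  rw [spec, spec, aeval_app_sub0]
  simp

theorem aeval_GG (n N : ℕ) (P τ : ZP) (y : Fin n → K) (φ : ℕ → K) :
    aeval (app n y φ) (GG n N P τ) = ∑ i, y i ^ N +
      aeval (app n y φ) τ * (N * aeval (app n y fun _ => 0) P) := by
  rw [GG, map_add, map_mul, map_mul, aeval_app_sub0, map_natCast,
    ← Fin.sum_univ_eq_sum_range (fun i => (X i : ZP) ^ N), map_sum]
  simp [app]

theorem totalDegree_sub0 (n : ℕ) (g : ℕ → ZP) (hg : ∀ i, (g i).totalDegree ≤ 1) (F : ZP) :
    (sub0 n g F).totalDegree ≤ F.totalDegree := by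
  have := totalDegree_aeval (fun i => if i < n then g i else 0) F (D := 1) (fun i => by
    split_ifs
    · exact hg i
    · simp)
  rwa [mul_one] at this

theorem totalDegree_dP (n : ℕ) (P : ZP) (i : ℕ) : (dP n P i).totalDegree ≤ P.totalDegree := by
  refine (totalDegree_sub0 _ _ (fun i => (totalDegree_X i).le) _).trans
    ((totalDegree_ext _ _ _).trans (totalDegree_sub0 _ _ (fun k => ?_) _))
  refine (totalDegree_add _ _).trans (max_le (totalDegree_X _).le ?_)
  split_ifs
  · exact (totalDegree_X _).le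
  · simp

theorem natDegree_aeval_le (g : ℕ → Polynomial K) (hg : ∀ i, (g i).natDegree ≤ 1) (F : ZP) :
    (aeval g F).natDegree ≤ F.totalDegree := by
  rw [aeval_def, eval₂_eq]
  refine Polynomial.natDegree_sum_le_of_forall_le _ _ fun m hm => ?_
  refine (Polynomial.natDegree_mul_le).trans ?_
  have h1 : ((algebraMap ℤ (Polynomial K)) (coeff m F)).natDegree = 0 := by
    rw [Polynomial.algebraMap_apply, Polynomial.natDegree_C]
  rw [h1, zero_add]
  refine (Polynomial.natDegree_prod_le _ _).trans (le_trans ?_ (le_totalDegree hm))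
  refine sum_le_sum fun i _ => Polynomial.natDegree_pow_le.trans ?_
  simpa using Nat.mul_le_mul_left (m i) (hg i)

end sem

theorem aeval_ofReal (φ : ℕ → ℝ) (F : ZP) :
    ((aeval φ F : ℝ) : ℂ) = aeval (fun i => (φ i : ℂ)) F := by
  induction F using MvPolynomial.induction_on with
  | C a => simp
  | add p q hp hq => rw [map_add, map_add, Complex.ofReal_add, hp, hq]
  | mul_X p i hp => rw [map_mul, map_mul, Complex.ofReal_mul, hp, aeval_X, aeval_X]

theorem aeval_app_ofReal (n : ℕ) (y : Fin n → ℝ) (F : ZP) :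
    ((aeval (app n y fun _ => 0) F : ℝ) : ℂ) = aeval (app n (fun i => (y i : ℂ)) fun _ => 0) F := by
  rw [aeval_ofReal]
  congr 2
  funext i
  by_cases h : i < n <;> simp [app, h]

theorem continuous_Pr (n N : ℕ) (P : ZP) : Continuous (Pr n N P) := by
  have : Pr n N P = fun y => N * eval y (spec n (fun _ => (0 : ℝ)) P) := by
    funext y; rw [Pr, eval_spec]
  rw [this]
  exact continuous_const.mul (MvPolynomial.continuous_eval _)

theorem critical {n M : ℕ} (P : ZP) (t : ℝ) (z : Fin n → ℝ)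
    (hz : ∀ x, pen (M + 1) (Pr n (M + 1) P) t z ≤ pen (M + 1) (Pr n (M + 1) P) t x) (i : Fin n) :
    z i ^ M + t * aeval (app n z fun _ => 0) (dP n P i) = 0 := by
  set g := spec1 (app n z fun _ => 0)
    (sub0 n (fun k => X (k + 1) + if k = i then X 0 else 0) P) with hg
  have e1 : aeval (app n z fun _ => 0) (dP n P i) = g.coeff 1 := by
    rw [dP, aeval_app_sub0, aeval_ext1]
  have e2 : ∀ s : ℝ, g.eval s
      = aeval (app n (fun k => z k + if k = i then s else 0) fun _ => 0) P := by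
    intro s
    rw [hg, eval_spec1, aeval_sub0]
    congr 2
    funext k
    by_cases h : k < n
    · by_cases h' : k = i
      · subst h'; simp [app, cons]
      · have : (⟨k, h⟩ : Fin n) ≠ i := fun e => h' (congrArg Fin.val e)
        simp [app, cons, h, h', this]
    · simp [app, h]
  have hmin : IsLocalMin (fun s : ℝ => ∑ k, (z k + if k = i then s else 0) ^ (M + 1) +
      t * ((M + 1 : ℕ) * g.eval s)) 0 := by
    refine Filter.Eventually.of_forall fun s => ?_
    have := hz (fun k => z k + if k = i then s else 0)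
    simp only [pen, Pr] at this
    simp only [e2, ite_self, add_zero]
    exact this
  have hd : HasDerivAt (fun s : ℝ => ∑ k, (z k + if k = i then s else 0) ^ (M + 1) +
      t * ((M + 1 : ℕ) * g.eval s))
      (∑ k, (if k = i then ((M + 1 : ℕ) : ℝ) * z i ^ M else 0) +
        t * ((M + 1 : ℕ) * g.derivative.eval 0)) 0 := by
    refine HasDerivAt.add (HasDerivAt.fun_sum fun k _ => ?_)
      (((g.hasDerivAt 0).const_mul _).const_mul _)
    by_cases h : k = i
    · subst h
      simpa using ((hasDerivAt_id (0 : ℝ)).const_add (z k)).fun_pow (M + 1)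
    · simpa [h] using hasDerivAt_const (0 : ℝ) (z k ^ (M + 1))
  have h0 := hmin.hasDerivAt_eq_zero hd
  rw [sum_ite_eq' univ i, if_pos (mem_univ _), ← Polynomial.coeff_zero_eq_eval_zero,
    Polynomial.coeff_derivative] at h0
  rw [e1]
  have hM : ((M + 1 : ℕ) : ℝ) ≠ 0 := by positivity
  apply mul_left_cancel₀ hM
  simp only [Nat.cast_zero, zero_add, mul_one] at h0
  linear_combination h0

theorem roots_of {n M : ℕ} (P τ : ZP) (hP : P.totalDegree < M) (φ : ℕ → ℂ) (t : ℝ)
    (hτ : spec n φ τ = C (t : ℂ)) :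
    ∃ z, RootSys M (fun i : Fin n => spec n φ (τ * dP n P i)) z ∧ ∀ y : Fin n → ℝ,
      (∀ x, pen (M + 1) (Pr n (M + 1) P) t y ≤ pen (M + 1) (Pr n (M + 1) P) t x) →
      ∃ j, z j = fun i => (y i : ℂ) := by
  obtain ⟨z, h1, h2⟩ := roots_exist (n := n) (M := M) (by omega)
    (fun i : Fin n => spec n φ (τ * dP n P i)) (fun i => by
      rw [map_mul, hτ]
      refine lt_of_le_of_lt (totalDegree_mul _ _) ?_
      rw [totalDegree_C, zero_add]
      exact lt_of_le_of_lt ((totalDegree_spec _ _ _).trans (totalDegree_dP _ _ _)) hP)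
  refine ⟨z, h1, fun y hy => h2 _ fun i => ?_⟩
  have := critical P t y hy i
  rw [map_mul, hτ, map_mul, eval_C, eval_spec, dP, aeval_app_sub0, ← aeval_app_ofReal]
  rw [dP, aeval_app_sub0] at this
  exact_mod_cast this

theorem aeval_hom (n e : ℕ) (G : ZP) (hG : G.totalDegree ≤ e) (y : ℕ → ZP) (D : ZP)
    (hD : ((constantCoeff D : ℤ) : ℝ) ≠ 0) :
    ((constantCoeff (hom n e G y D) : ℤ) : ℝ) = ((constantCoeff D : ℤ) : ℝ) ^ e *
      aeval (app n (fun i => ((constantCoeff (y i) : ℤ) : ℝ) / ((constantCoeff D : ℤ) : ℝ))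
        fun _ => 0) G := by
  set a : ℝ := ((constantCoeff D : ℤ) : ℝ) with ha
  set g := spec1 (fun _ => (0 : ℝ)) (sub0 n (fun i => X 0 * sh 1 (y i)) G) with hg
  have hdeg : g.natDegree < e + 1 := by
    rw [hg, spec1, aeval_sub0']
    refine Nat.lt_succ_of_le ((natDegree_aeval_le _ (fun i => ?_) _).trans hG)
    split_ifs
    · change (spec1 (fun _ => (0 : ℝ)) (X 0 * sh 1 (y i))).natDegree ≤ 1
      rw [map_mul, spec1_X, spec1_sh]
      exact (Polynomial.natDegree_mul_C_le _ _).trans Polynomial.natDegree_X_le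
    · simp
  have hev : g.eval a⁻¹ = aeval (app n (fun i => ((constantCoeff (y i) : ℤ) : ℝ) / a)
      fun _ => 0) G := by
    rw [hg, eval_spec1, aeval_sub0]
    congr 2
    funext i
    by_cases h : i < n
    · rw [if_pos h, map_mul, aeval_X, aeval_sh]
      have : (fun i => cons a⁻¹ (fun _ => (0 : ℝ)) (i + 1)) = fun _ => 0 := by
        funext i; simp [cons]
      rw [this, aeval_zero_eq]
      simp [app, h, cons, div_eq_inv_mul]
    · simp [app, h]
  rw [← aeval_zero_eq, hom, aeval_ext1, map_mul, ← hg, map_sum, mul_sum,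
    Polynomial.finsetSum_coeff, ← hev, Polynomial.eval_eq_sum_range' hdeg, mul_sum,
    ← sum_range_reflect]
  refine sum_congr rfl fun k hk => ?_
  have hk' : k ≤ e := Nat.lt_succ_iff.1 (mem_range.1 hk)
  rw [map_pow, map_mul, spec1_X, spec1_sh, aeval_zero_eq, ← ha, mul_comm Polynomial.X, mul_pow,
    ← Polynomial.C_pow, ← mul_assoc, Polynomial.coeff_mul_X_pow', if_pos (by omega),
    Polynomial.coeff_mul_C]
  have e1 : e - (e + 1 - 1 - k) = k := by omega
  have e2 : e + 1 - 1 - k = e - k := by omega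
  rw [e1, e2, pow_sub₀ _ hD hk', inv_pow]
  ring

theorem nice_dP {n i : α → ℕ} {P : α → ZP} (hn : Un n) (hi : PT i) (hP : Nice P) :
    Nice (fun x => dP (n x) (P x) (i x)) :=
  ((hP.sub0C ((Nice.var (by fun_prop)).add (Nice.iteEq (by fun_prop) (by fun_prop) (Nice.X 0)
    Nice.zero)) hn).ext1 (PT.const 1)).sub0C (Nice.var (by fun_prop)) hn

theorem nice_GG {n N : α → ℕ} {P τ : α → ZP} (hn : Un n) (hN : PT N) (hP : Nice P)
    (hτ : Nice τ) : Nice (fun x => GG (n x) (N x) (P x) (τ x)) :=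
  (Nice.sumC ((Nice.var (by fun_prop)).pow (by fun_prop)) hn.pt).add
    (hτ.mul ((Nice.nat hN).mul (hP.sub0C (Nice.var (by fun_prop)) hn)))

theorem nice_hom {n e : α → ℕ} {G D : α → ZP} {y : α → ℕ → ZP} (hn : Un n) (he : PT e)
    (hG : Nice G) (hD : Nice D) (hy : Nice (fun z : α × ℕ => y z.1 z.2)) :
    Nice (fun x => hom (n x) (e x) (G x) (y x) (D x)) :=
  ((hG.sub0C ((Nice.X 0).mul (hy.sh (PT.const 1))) hn).mul
    (Nice.sumC (((Nice.X 0).mul (hD.fst.sh (PT.const 1))).pow (by fun_prop))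
      (by fun_prop))).ext1 he

/-- the elimination polynomial gives the gap hypothesis of `dichotomy` -/
theorem exists_gap {n M : α → ℕ} {P : α → ZP} (hn : Un n) (hM : Un M) (hP : Nice P)
    (hdeg : ∀ x, (P x).totalDegree < M x) :
    ∃ e : α → ℕ, PT e ∧ ∀ x (t C : ℝ) z, 1 ≤ C → 2 ^ e x * C ^ e x < t →
      (∀ y, pen (M x + 1) (Pr (n x) (M x + 1) (P x)) t z ≤
        pen (M x + 1) (Pr (n x) (M x + 1) (P x)) t y) →
      ¬ (2 ^ e x ≤ pen (M x + 1) (Pr (n x) (M x + 1) (P x)) t z ∧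
        pen (M x + 1) (Pr (n x) (M x + 1) (P x)) t z ≤ C) := by
  have hn' := hn.pt
  have hM' := hM.pt
  have hQ : Nice (fun z : α × ℕ => X (n z.1) * dP (n z.1) (P z.1) z.2) :=
    (Nice.var (by fun_prop)).mul (nice_dP hn.fst (by fun_prop) hP.fst)
  have hB : Nice (fun x => X (n x + 1) - GG (n x) (M x + 1) (P x) (X (n x))) :=
    (Nice.var (by fun_prop)).sub' (nice_GG hn (by fun_prop) hP (Nice.var hn'))
  obtain ⟨Ψ, nΨ, eΨ⟩ := exists_norm hn hM hQ hB
  obtain ⟨e, pe, be⟩ := nΨ.bound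
  refine ⟨e, pe, fun x t C z hC ht hz hy => ?_⟩
  have hc : (((M x ^ n x).factorial : ℂ)) ^ (M x ^ n x + 1) ≠ 0 :=
    pow_ne_zero _ (Nat.cast_ne_zero.2 (Nat.factorial_ne_zero _))
  have hτ : ∀ (t : ℝ) (y : ℂ), spec (n x) (cons (t : ℂ) (cons y fun _ => 0)) (X (n x))
      = MvPolynomial.C (t : ℂ) := by
    intro t y; simp [spec, app, cons]
  have hv : ∀ (t : ℝ) (y : ℂ) (w : Fin (n x) → ℂ),
      aeval (app (n x) w (cons (t : ℂ) (cons y fun _ => 0)))
        (X (n x + 1) - GG (n x) (M x + 1) (P x) (X (n x))) = y - (∑ i, w i ^ (M x + 1) +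
        t * ((M x + 1 : ℕ) * aeval (app (n x) w fun _ => 0) (P x))) := by
    intro t y w
    rw [map_sub, aeval_GG]
    simp [app, cons]
  obtain ⟨z0, r0, -⟩ := roots_of (n := n x) (P x) (X (n x)) (hdeg x) _ 0 (hτ 0 0)
  classical
  obtain ⟨y0, hy0⟩ := Infinite.exists_notMem_finset
    ((univ : Finset (Fin (M x ^ n x))).image fun j => ∑ i, z0 j i ^ (M x + 1) +
      ((0 : ℝ) : ℂ) * ((M x + 1 : ℕ) * aeval (app (n x) (z0 j) fun _ => 0) (P x)))
  have h0 : aeval (cons ((0 : ℝ) : ℂ) (cons y0 fun _ => 0)) (Ψ x) ≠ 0 := by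
    rw [eΨ x _ z0]
    · refine mul_ne_zero hc (prod_ne_zero_iff.2 fun j _ h => hy0 (mem_image.2 ⟨j, mem_univ _, ?_⟩))
      rw [hv] at h
      exact (sub_eq_zero.1 h).symm
    · simp only [map_mul, hτ, dP, spec_sub0] at r0 ⊢
      exact r0
  refine two_var_bound (Ψ x) (be x).2 (be x).1 h0 hC (by exact_mod_cast hy.1) hy.2
    (by exact_mod_cast ht) ?_
  obtain ⟨z1, r1, m1⟩ := roots_of (n := n x) (P x) (X (n x)) (hdeg x) _ t
    (hτ t (pen (M x + 1) (Pr (n x) (M x + 1) (P x)) t z : ℝ))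
  obtain ⟨j, hj⟩ := m1 z hz
  rw [eΨ x _ z1 r1, prod_eq_zero (mem_univ j), mul_zero]
  rw [hv, hj, ← aeval_app_ofReal, pen, Pr]
  push_cast
  ring

theorem hasNorm_coord {n M : α → ℕ} {Q : α × ℕ → ZP} {i : α → ℕ} (hn : Un n) (hM : Un M)
    (hQ : Nice Q) (hi : PT i) (z : ∀ x, Fin (M x ^ n x) → Fin (n x) → ℂ)
    (hz : ∀ x φ, RootSys (M x) (fun k => spec (n x) φ (Q (x, k))) (z x)) :
    HasNorm (fun x => M x ^ n x) (fun x => (((M x ^ n x).factorial : ℂ)) ^ (M x ^ n x + 1))
      (fun x j => app (n x) (z x j) (fun _ => 0) (i x)) := by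
  intro B hB
  have hn' := hn.pt
  have hB' : Nice (fun x => P337.sub 1 (n x) (fun _ => if i x < n x then X (i x) else 0) (B x)) :=
    hB.subC (Nice.iteLt (by fun_prop) (by fun_prop) (Nice.var (by fun_prop)) Nice.zero)
      (Un.const 1) hn'
  obtain ⟨Nb, h1, h2⟩ := exists_norm hn hM hQ hB'
  refine ⟨Nb, h1, fun x φ => ?_⟩
  rw [h2 x φ (z x) (hz x φ)]
  congr 1
  refine prod_congr rfl fun j _ => ?_
  rw [aeval_sub]
  congr 2
  funext k
  rcases k with _ | k
  · by_cases h : i x < n x <;> simp [cons, app, h]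
  · simp [cons, app]

theorem lip_num (e f : ℕ) {a : ℕ} (ha : a ≤ 2 ^ f) :
    (a : ℝ) * f * (2 ^ e + 1) ^ f * (1 / 2 ^ (f + f + (e + 1) * f)) ≤ 1 := by
  have h1 : (a : ℝ) ≤ 2 ^ f := by exact_mod_cast ha
  have h2 : (f : ℝ) ≤ 2 ^ f := by exact_mod_cast (Nat.lt_two_pow_self).le
  have h3 : ((2 : ℝ) ^ e + 1) ^ f ≤ 2 ^ ((e + 1) * f) := by
    rw [pow_mul]
    refine pow_le_pow_left₀ (by positivity) ?_ f
    have : (1 : ℝ) ≤ 2 ^ e := one_le_pow₀ (by norm_num)
    rw [pow_succ]; linarith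
  rw [mul_one_div, div_le_one (by positivity), pow_add, pow_add]
  gcongr

theorem CH_zero {n D : α → ℕ} {P : α → ZP} (hn : Un n) (hD : Un D) (hP : Nice P)
    (hdeg : ∀ x, (P x).totalDegree ≤ D x)
    (hpos : ∀ x (y : Fin (n x) → ℝ), 0 ≤ aeval (app (n x) y fun _ => 0) (P x)) :
    CH (fun x => ∃ y : Fin (n x) → ℝ, aeval (app (n x) y fun _ => 0) (P x) = 0) := by
  have hn' := hn.pt
  have hM : Un (fun x => 2 * D x + 1) := ((Un.const 2).mul hD).add (Un.const 1)
  set M : α → ℕ := fun x => 2 * D x + 1 with hMdef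
  have hM' := hM.pt
  have hdeg' : ∀ x, (P x).totalDegree < M x := fun x => by
    have := hdeg x
    simp only [hMdef]; omega
  have hev : ∀ x, Even (M x + 1) := fun x => ⟨D x + 1, by simp only [hMdef]; omega⟩
  have h2 : ∀ x, 2 ≤ M x + 1 := fun x => by simp only [hMdef]; omega
  have hnn : ∀ x y, 0 ≤ Pr (n x) (M x + 1) (P x) y := fun x y =>
    mul_nonneg (Nat.cast_nonneg _) (hpos x y)
  obtain ⟨e, pe, gap⟩ := exists_gap hn hM hP hdeg'
  let T : α → ℕ := fun x => 2 ^ e x * (2 ^ e x + 1) ^ e x + 1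
  have hT : Nice (fun x => ((T x : ℕ) : ZP)) :=
    (((Nice.two.pow pe).mul (((Nice.two.pow pe).add Nice.one).pow pe)).add Nice.one).congr
      fun x => by simp [T]
  have dich := fun x => dichotomy (hev x) (h2 x) (continuous_Pr (n x) (M x + 1) (P x)) (hnn x)
    (H := 2 ^ e x) (T := T x) (D := e x) (one_le_pow₀ (by norm_num)) (by simp [T]) (gap x)
  have hroots := fun x => roots_of (n := n x) (P x) ((T x : ℕ) : ZP) (hdeg' x) (fun _ => 0) (T x)
    (by simp)
  choose z hz1 hz2 using hroots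
  have hG := nice_GG hn (N := fun x => M x + 1) (by fun_prop) hP hT
  obtain ⟨f, pf, bf⟩ := hG.bound
  have hd : PT (fun x => M x ^ n x) := hn.pow hM'
  have hb : PT (fun x => (M x ^ n x) ^ 2 + 2 * M x ^ n x + 1) :=
    PT.add (PT.add (pt_sq hd) (PT.mul (PT.const 2) hd)) (PT.const 1)
  set b : α → ℕ := fun x => (M x ^ n x) ^ 2 + 2 * M x ^ n x + 1 with hbdef
  have hQ : Nice (fun w : ((α × ℕ) × ℕ) × ℕ => ((T w.1.1.1 : ℕ) : ZP) *
      dP (n w.1.1.1) (P w.1.1.1) w.2) :=
    hT.fst.fst.fst.mul (nice_dP hn.fst.fst.fst (by fun_prop) hP.fst.fst.fst)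
  have hN := hasNorm_coord (α := (α × ℕ) × ℕ) (i := fun w => w.2) hn.fst.fst hM.fst.fst hQ
    (by fun_prop) (fun w => z w.1.1) (fun w φ => by
      have := hz1 w.1.1
      simp only [map_mul, map_natCast, dP, spec_sub0] at this ⊢
      exact this)
  obtain ⟨num, den, n1, n2, hiso⟩ := isolate (α := (α × ℕ) × ℕ)
    (s := fun w => dig (b w.1.1) w.1.2 (2 * w.2)) (κ := fun w => dig (b w.1.1) w.1.2 (2 * w.2 + 1))
    (E := fun w => f w.1.1 + f w.1.1 + (e w.1.1 + 1) * f w.1.1)
    (PT.comp hd (by fun_prop)) (by fun_prop) (by fun_prop) (by fun_prop)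
    (fun w => pow_ne_zero _ (Nat.cast_ne_zero.2 (Nat.factorial_ne_zero _))) hN
  have hDen : Nice (fun w : α × ℕ => ∏ i ∈ range (n w.1), den (w, i)) := n2.prod (by fun_prop)
  have hy : Nice (fun w : (α × ℕ) × ℕ => num w * ∏ k ∈ range (n w.1.1),
      if k = w.2 then 1 else den (w.1, k)) :=
    n1.mul (Nice.prodC (Nice.iteEq (by fun_prop) (by fun_prop) Nice.one
      (n2.comp (g := fun v : ((α × ℕ) × ℕ) × ℕ => (v.1.1, v.2)) (by fun_prop))) (by fun_prop))
  have hH := nice_hom (y := fun (w : α × ℕ) i => num (w, i) * ∏ k ∈ range (n w.1),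
      if k = i then 1 else den (w, k)) hn.fst (e := fun w => f w.1) (by fun_prop) hG.fst hDen hy
  have hFin := hDen.mul (((hDen.pow (k := fun w => f w.1) (by fun_prop)).mul
    ((Nice.two.pow (k := fun w : α × ℕ => e w.1) (by fun_prop)).add Nice.one)).sub' hH)
  refine (hFin.sign.ex (((Un.const 2).mul hn).pow hb)).congr fun x => ?_
  have key : ∀ g, ((constantCoeff (∏ i ∈ range (n x), den ((x, g), i)) : ℤ) : ℝ) ≠ 0 →
      ((constantCoeff ((∏ i ∈ range (n x), den ((x, g), i)) *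
        ((∏ i ∈ range (n x), den ((x, g), i)) ^ f x * (2 ^ e x + 1) -
        hom (n x) (f x) (GG (n x) (M x + 1) (P x) (T x)) (fun i => num ((x, g), i) *
          ∏ k ∈ range (n x), if k = i then 1 else den ((x, g), k))
          (∏ i ∈ range (n x), den ((x, g), i)))) : ℤ) : ℝ) =
      ((constantCoeff (∏ i ∈ range (n x), den ((x, g), i)) : ℤ) : ℝ) ^ (f x + 1) *
        (2 ^ e x + 1 - pen (M x + 1) (Pr (n x) (M x + 1) (P x)) (T x) (fun i =>
          ((constantCoeff (num ((x, g), i)) : ℤ) : ℝ) /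
          ((constantCoeff (den ((x, g), i)) : ℤ) : ℝ))) := by
    intro g hg
    rw [map_mul, map_sub, Int.cast_mul, Int.cast_sub, aeval_hom _ _ _ (bf x).1 _ _ hg]
    have e1 : (fun i : Fin (n x) => ((constantCoeff (num ((x, g), i) *
        ∏ k ∈ range (n x), if k = (i : ℕ) then 1 else den ((x, g), k)) : ℤ) : ℝ) /
        ((constantCoeff (∏ i ∈ range (n x), den ((x, g), i)) : ℤ) : ℝ)) = fun i : Fin (n x) =>
        ((constantCoeff (num ((x, g), i)) : ℤ) : ℝ) /
          ((constantCoeff (den ((x, g), i)) : ℤ) : ℝ) := by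
      funext i
      have e2 : ∏ k ∈ range (n x), den ((x, g), k) = den ((x, g), i) *
          ∏ k ∈ range (n x), if k = (i : ℕ) then 1 else den ((x, g), k) := by
        rw [← mul_prod_erase _ _ (mem_range.2 i.2), ← mul_prod_erase (range (n x)) _
          (mem_range.2 i.2), if_pos rfl, one_mul]
        congr 1
        exact prod_congr rfl fun k hk => (if_neg (ne_of_mem_erase hk)).symm
      rw [e2, map_mul, Int.cast_mul] at hg
      rw [e2, map_mul, map_mul, Int.cast_mul, Int.cast_mul,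
        mul_div_mul_right _ _ (right_ne_zero_of_mul hg)]
    rw [e1, aeval_GG, pen, Pr]
    simp only [map_mul, map_pow, map_add, map_one, map_ofNat, map_natCast]
    push_cast
    ring
  constructor
  · rintro ⟨y, hy⟩
    obtain ⟨w, hw1, hw2⟩ := (dich x).1 ⟨y, by rw [Pr, hy, mul_zero]⟩
    obtain ⟨j0, hj0⟩ := hz2 x w hw1
    have hgood := fun i : ℕ => good_exists (fun j => app (n x) (z x j) (fun _ => 0) i)
    choose s hs1 hs2 using hgood
    obtain ⟨g, hg1, hg2⟩ := exists_dig (b := b x) (n := 2 * n x) (fun k => if k % 2 = 0 then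
      s (k / 2) else rank2 (fun j => app (n x) (z x j) (fun _ => 0) (k / 2)) (s (k / 2)) j0)
      (fun k _ => by
        have a1 := hs1 (k / 2)
        have a2 := rank2_le (fun j => app (n x) (z x j) (fun _ => 0) (k / 2)) (s (k / 2)) j0
        simp only [hbdef]
        split_ifs <;> omega)
    have hi : ∀ i < n x, 0 < constantCoeff (den ((x, g), i)) ∧
        |((constantCoeff (num ((x, g), i)) : ℤ) : ℝ) / ((constantCoeff (den ((x, g), i)) : ℤ) : ℝ)
          - app (n x) w (fun _ => 0) i| ≤ 1 / 2 ^ (f x + f x + (e x + 1) * f x) := by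
      intro i hi
      have a1 : dig (b x) g (2 * i) = s i := by
        rw [hg2 _ (by omega), if_pos (by omega), show 2 * i / 2 = i by omega]
      have a2 : dig (b x) g (2 * i + 1)
          = rank2 (fun j => app (n x) (z x j) (fun _ => 0) i) (s i) j0 := by
        rw [hg2 _ (by omega), if_neg (by omega), show (2 * i + 1) / 2 = i by omega]
      have := (hiso ((x, g), i)).2 j0 (by simpa only [a1] using hs1 i)
        (by simpa only [a1] using hs2 i) (by simp only [a1, a2])
      simp only [hj0] at this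
      simpa [app, hi] using this
    have hD : (0 : ℝ) < ((constantCoeff (∏ i ∈ range (n x), den ((x, g), i)) : ℤ) : ℝ) := by
      rw [map_prod]
      exact_mod_cast prod_pos fun i h => (hi i (mem_range.1 h)).1
    refine ⟨g, hg1, ?_⟩
    have k1 := key g hD.ne'
    have hR : ∀ i, |app (n x) w (fun _ => 0) i| ≤ 2 ^ e x := by
      intro i
      by_cases h : i < n x
      · simp only [app, dif_pos h]
        have a1 : w ⟨i, h⟩ ^ (M x + 1) ≤ ∑ k, w k ^ (M x + 1) :=
          single_le_sum (f := fun k => w k ^ (M x + 1)) (fun k _ => (hev x).pow_nonneg _)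
            (mem_univ _)
        have a2 : 0 ≤ (T x : ℝ) * Pr (n x) (M x + 1) (P x) w :=
          mul_nonneg (Nat.cast_nonneg _) (hnn x w)
        have a3 : (1 : ℝ) ≤ 2 ^ e x := one_le_pow₀ (by norm_num)
        rw [pen] at hw2
        by_contra a4
        have a5 : |w ⟨i, h⟩| ≤ |w ⟨i, h⟩| ^ (M x + 1) :=
          le_self_pow₀ (by linarith [not_le.1 a4]) (by omega)
        rw [(hev x).pow_abs] at a5
        linarith [not_le.1 a4]
      · simp [app, h]
    have lip := lipschitz (GG (n x) (M x + 1) (P x) (T x)) (bf x).1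
      (app (n x) (fun i => ((constantCoeff (num ((x, g), i)) : ℤ) : ℝ) /
        ((constantCoeff (den ((x, g), i)) : ℤ) : ℝ)) fun _ => 0) (app (n x) w fun _ => 0)
      (R := 2 ^ e x) (δ := 1 / 2 ^ (f x + f x + (e x + 1) * f x)) (by positivity) (by positivity)
      (by rw [div_le_one (by positivity)]; exact one_le_pow₀ (by norm_num)) hR (fun i => by
        by_cases h : i < n x
        · have := (hi i h).2
          simpa [app, h] using this
        · simp [app, h])
    have lip2 := lip.trans (lip_num (e x) (f x) (bf x).2)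
    rw [aeval_GG, aeval_GG, map_natCast, map_natCast] at lip2
    have k2 : (0 : ℝ) < ((constantCoeff (∏ i ∈ range (n x), den ((x, g), i)) : ℤ) : ℝ) ^ (f x + 1) *
        (2 ^ e x + 1 - pen (M x + 1) (Pr (n x) (M x + 1) (P x)) (T x) (fun i =>
          ((constantCoeff (num ((x, g), i)) : ℤ) : ℝ) /
          ((constantCoeff (den ((x, g), i)) : ℤ) : ℝ))) := by
      refine mul_pos (pow_pos hD _) ?_
      have := (abs_le.1 lip2).2
      simp only [pen, Pr] at hw2 ⊢
      linarith
    rw [← k1] at k2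
    exact_mod_cast k2
  · rintro ⟨g, -, hg⟩
    have hD0 : (0 : ℝ) ≤ ((constantCoeff (∏ i ∈ range (n x), den ((x, g), i)) : ℤ) : ℝ) := by
      rw [map_prod]
      exact_mod_cast prod_nonneg fun i _ => (hiso ((x, g), i)).1
    have hne : ((constantCoeff (∏ i ∈ range (n x), den ((x, g), i)) : ℤ) : ℝ) ≠ 0 := by
      intro h0
      have h1 : constantCoeff (∏ i ∈ range (n x), den ((x, g), i)) = 0 := by exact_mod_cast h0
      rw [map_mul, h1, zero_mul] at hg
      exact lt_irrefl _ hg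
    have k1 := key g hne
    have k2 : (0 : ℝ) < _ := lt_of_lt_of_eq (Int.cast_pos.2 hg) k1
    have k3 := (pos_iff_pos_of_mul_pos k2).1 (pow_pos (lt_of_le_of_ne hD0 hne.symm) _)
    obtain ⟨y, hy⟩ := (dich x).2 ⟨_, (sub_pos.1 k3).le⟩
    refine ⟨y, ?_⟩
    rw [Pr] at hy
    exact (mul_eq_zero.1 hy).resolve_left (by positivity)

end Vale.Agent.P337
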