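import Mathlib

/-!
TASK Iso. Isolating one point of a finite family of complex numbers by symmetric rational
expressions (Blaschke step function, rank, power filter).

Plan of `iso_core`. `v = 2 ^ h ω (u j - u j')` is `0` or has `1 ≤ ‖v‖ < 2 ^ (K + 1)` and
`‖v‖ ≤ Λ |re v|`. If `re v > 0` pick `k ≤ K` with `2 ^ k ≤ ‖v‖ < 2 ^ (k+1)`; then
`‖v - 2 ^ k‖ ^ 2 ≤ (1 - 1 / (2 Λ)) ‖v + 2 ^ k‖ ^ 2`, the other factors satisfy `‖v - a‖ ≤ ‖v + a‖`, and
`(1 - 1 / (2 Λ)) ^ (16 d Λ) ≤ 1 / (8 d)`: `‖Qm v‖ ≤ ‖Qp v‖ / (8 d)`, so `‖step v - 1‖ ≤ 1 / (4 d)`.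
`Qp (-v) = Qm v`, so `‖step v‖ ≤ 1 / (4 d)` for `re v < 0`; `step 0 = 1 / 2`. Hence
`‖2 ρ j - rank2 j‖ ≤ 1 / 2`; `rank2` takes values in `[0, 2 d]` and differs by at least `2` at points
`u j ≠ u j0`. So `‖φ j‖ ≤ W - 7/4` there, `‖φ j0‖ ≥ W - 1/4`, `W = 4 d ^ 2`; `(1 - 1/W) ^ W ≤ 1/2`.
`good_exists`: each pair excludes at most one `s`.
-/

namespace Vale.Agent.P337

open Finset

/-- the sector constant -/
def lam (d : ℕ) : ℕ := (2 * d ^ 2 + 3) * (d ^ 2 + 1)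

section
variable {R : Type} [CommRing R]

def Qp (d h : ℕ) (v : R) : R :=
  (∏ k ∈ range (2 * h + d ^ 2 + 1), (v + 2 ^ k)) ^ (32 * d * lam d)

def Qm (d h : ℕ) (v : R) : R :=
  (∏ k ∈ range (2 * h + d ^ 2 + 1), (v - 2 ^ k)) ^ (32 * d * lam d)

end

variable {d : ℕ}

/-- rotated and scaled difference -/
noncomputable def dif (h s : ℕ) (a b : ℂ) : ℂ := 2 ^ h * (s + Complex.I) * (a - b)

/-- all differences lie in a double sector after rotation -/
def Sector (u : Fin d → ℂ) (s : ℕ) : Prop :=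
  ∀ j j', ‖(s + Complex.I) * (u j - u j')‖ ≤ lam d * |((s + Complex.I) * (u j - u j')).re|

open Classical in
/-- twice the rank -/
noncomputable def rank2 (u : Fin d → ℂ) (s : ℕ) (j : Fin d) : ℕ :=
  ∑ j', if 0 < ((s + Complex.I) * (u j - u j')).re then 2 else if u j = u j' then 1 else 0

/-- approximate rank -/
noncomputable def rho (u : Fin d → ℂ) (h s : ℕ) (a : ℂ) : ℂ :=
  ∑ j', Qp d h (dif h s a (u j')) / (Qp d h (dif h s a (u j')) + Qm d h (dif h s a (u j')))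

/-- the weight -/
noncomputable def wt (u : Fin d → ℂ) (h s κ E : ℕ) (a : ℂ) : ℂ :=
  (4 * d ^ 2 - (2 * rho u h s a - κ) ^ 2) ^ (4 * d ^ 2 * (h + E + d + 1))

theorem norm_omega_le (s : ℕ) : ‖(s : ℂ) + Complex.I‖ ≤ s + 1 := by
  calc ‖(s : ℂ) + Complex.I‖ ≤ ‖(s : ℂ)‖ + ‖Complex.I‖ := norm_add_le _ _
    _ = s + 1 := by simp

theorem one_le_norm_omega (s : ℕ) : 1 ≤ ‖(s : ℂ) + Complex.I‖ := by
  have := Complex.abs_im_le_norm ((s : ℂ) + Complex.I)
  simpa using this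

theorem bad_small {s : ℕ} (hs : s ≤ d ^ 2) {w : ℂ}
    (hb : ¬ ‖(s + Complex.I) * w‖ ≤ lam d * |((s + Complex.I) * w).re|) :
    (2 * (d : ℝ) ^ 2 + 3) * |s * w.re - w.im| < ‖w‖ := by
  push Not at hb
  have h1 : ((s + Complex.I) * w).re = s * w.re - w.im := by simp
  have h2 : ‖(s + Complex.I) * w‖ ≤ ((d : ℝ) ^ 2 + 1) * ‖w‖ := by
    rw [norm_mul]
    refine mul_le_mul_of_nonneg_right ((norm_omega_le s).trans ?_) (norm_nonneg _)
    have : (s : ℝ) ≤ (d : ℝ) ^ 2 := by exact_mod_cast hs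
    linarith
  rw [h1] at hb
  have h3 : (lam d : ℝ) = (2 * (d : ℝ) ^ 2 + 3) * ((d : ℝ) ^ 2 + 1) := by simp [lam]
  rw [h3] at hb
  have h4 : (0 : ℝ) < (d : ℝ) ^ 2 + 1 := by positivity
  have h5 : ((d : ℝ) ^ 2 + 1) * ((2 * (d : ℝ) ^ 2 + 3) * |s * w.re - w.im|) <
      ((d : ℝ) ^ 2 + 1) * ‖w‖ := by nlinarith
  exact lt_of_mul_lt_mul_left h5 h4.le

theorem bad_unique {s t : ℕ} (hs : s ≤ d ^ 2) (ht : t ≤ d ^ 2) {w : ℂ}
    (hb : ¬ ‖(s + Complex.I) * w‖ ≤ lam d * |((s + Complex.I) * w).re|)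
    (hc : ¬ ‖(t + Complex.I) * w‖ ≤ lam d * |((t + Complex.I) * w).re|) : s = t := by
  by_contra hne
  have h1 := bad_small hs hb
  have h2 := bad_small ht hc
  have hs' : (s : ℝ) ≤ (d : ℝ) ^ 2 := by exact_mod_cast hs
  have h3 : (1 : ℝ) ≤ |(s : ℝ) - t| := by
    have : (1 : ℤ) ≤ |(s : ℤ) - t| := Int.one_le_abs (by omega)
    exact_mod_cast this
  set A := |s * w.re - w.im| with hA
  set B := |t * w.re - w.im| with hB
  have h4 : |w.re| ≤ A + B := by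
    have e : ((s : ℝ) - t) * w.re = (s * w.re - w.im) - (t * w.re - w.im) := by ring
    calc |w.re| ≤ |(s : ℝ) - t| * |w.re| := by nlinarith [abs_nonneg w.re]
      _ = |(s * w.re - w.im) - (t * w.re - w.im)| := by rw [← abs_mul, e]
      _ ≤ A + B := abs_sub _ _
  have h5 : |w.im| ≤ A + s * |w.re| := by
    have e : w.im = s * w.re - (s * w.re - w.im) := by ring
    calc |w.im| = |s * w.re - (s * w.re - w.im)| := by rw [← e]
      _ ≤ |s * w.re| + A := abs_sub _ _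
      _ = A + s * |w.re| := by rw [abs_mul, Nat.abs_cast]; ring
  have h6 := Complex.norm_le_abs_re_add_abs_im w
  have hA0 : 0 ≤ A := abs_nonneg _
  have hB0 : 0 ≤ B := abs_nonneg _
  have h7 : (s : ℝ) * |w.re| ≤ (d : ℝ) ^ 2 * (A + B) :=
    mul_le_mul hs' h4 (abs_nonneg _) (by positivity)
  have h8 : ‖w‖ ≤ ((d : ℝ) ^ 2 + 2) * A + ((d : ℝ) ^ 2 + 1) * B := by nlinarith
  have hd : (0 : ℝ) ≤ (d : ℝ) ^ 2 := by positivity
  have h9 : (2 * (d : ℝ) ^ 2 + 3) * ‖w‖ ≤ ((d : ℝ) ^ 2 + 2) * ((2 * (d : ℝ) ^ 2 + 3) * A) +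
      ((d : ℝ) ^ 2 + 1) * ((2 * (d : ℝ) ^ 2 + 3) * B) := by nlinarith
  have h10 := mul_lt_mul_of_pos_left h1 (show (0 : ℝ) < (d : ℝ) ^ 2 + 2 by positivity)
  have h11 := mul_lt_mul_of_pos_left h2 (show (0 : ℝ) < (d : ℝ) ^ 2 + 1 by positivity)
  nlinarith

theorem good_exists (u : Fin d → ℂ) : ∃ s ≤ d ^ 2, Sector u s := by
  classical
  by_contra hcon
  push Not at hcon
  have hex : ∀ s : Fin (d ^ 2 + 1), ∃ p : Fin d × Fin d,
      ¬ ‖((s : ℕ) + Complex.I) * (u p.1 - u p.2)‖ ≤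
        lam d * |(((s : ℕ) + Complex.I) * (u p.1 - u p.2)).re| := by
    intro s
    have := hcon s (Nat.lt_succ_iff.mp s.2)
    unfold Sector at this
    rw [not_forall] at this
    obtain ⟨j, hj⟩ := this
    rw [not_forall] at hj
    obtain ⟨j', hj'⟩ := hj
    exact ⟨(j, j'), hj'⟩
  choose f hf using hex
  have hinj : Function.Injective f := by
    intro s t hst
    have h1 := hf s
    have h2 := hf t
    rw [← hst] at h2
    exact Fin.ext (bad_unique (Nat.lt_succ_iff.mp s.2) (Nat.lt_succ_iff.mp t.2) h1 h2)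
  have := Fintype.card_le_of_injective f hinj
  simp only [Fintype.card_fin, Fintype.card_prod] at this
  nlinarith

theorem rank2_le (u : Fin d → ℂ) (s : ℕ) (j : Fin d) : rank2 u s j ≤ 2 * d := by
  unfold rank2
  refine (Finset.sum_le_card_nsmul _ _ 2 ?_).trans ?_
  · intro j' _
    split_ifs <;> omega
  · simp [mul_comm]

theorem one_sub_inv_pow_le {n : ℕ} (hn : 1 ≤ n) : (1 - 1 / (n : ℝ)) ^ n ≤ 1 / 2 := by
  have hn' : (1 : ℝ) ≤ n := by exact_mod_cast hn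
  have h0 : (0 : ℝ) ≤ 1 - 1 / n := by
    have : 1 / (n : ℝ) ≤ 1 := by rw [div_le_one (by linarith)]; exact hn'
    linarith
  have h1 : (1 - 1 / (n : ℝ)) ≤ Real.exp (-(1 / n)) := by
    have := Real.add_one_le_exp (-(1 / (n : ℝ)))
    linarith
  have h2 : Real.exp (-(1 / (n : ℝ))) ^ n = Real.exp (-1) := by
    rw [← Real.exp_nat_mul]
    congr 1
    field_simp
  calc (1 - 1 / (n : ℝ)) ^ n ≤ Real.exp (-(1 / (n : ℝ))) ^ n := pow_le_pow_left₀ h0 h1 n
    _ = Real.exp (-1) := h2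
    _ ≤ 1 / 2 := by
      rw [Real.exp_neg, ← one_div]
      apply one_div_le_one_div_of_le (by norm_num)
      have := Real.add_one_le_exp (1 : ℝ)
      linarith

theorem Qp_neg (h : ℕ) (v : ℂ) : Qp d h (-v) = Qm d h v := by
  unfold Qp Qm
  have e : ∏ k ∈ range (2 * h + d ^ 2 + 1), (-v + 2 ^ k) =
      (-1) ^ (2 * h + d ^ 2 + 1) * ∏ k ∈ range (2 * h + d ^ 2 + 1), (v - 2 ^ k) := by
    have : ∀ k ∈ range (2 * h + d ^ 2 + 1), (-v + 2 ^ k : ℂ) = (-1) * (v - 2 ^ k) := by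
      intro k _
      ring
    rw [Finset.prod_congr rfl this, Finset.prod_mul_distrib]
    simp
  rw [e, mul_pow, ← pow_mul]
  have : Even ((2 * h + d ^ 2 + 1) * (32 * d * lam d)) := ⟨(2 * h + d ^ 2 + 1) * (16 * d * lam d), by ring⟩
  rw [this.neg_one_pow, one_mul]

theorem Qm_neg (h : ℕ) (v : ℂ) : Qm d h (-v) = Qp d h v := by
  rw [← Qp_neg, neg_neg]

theorem Qp_ne_zero (h : ℕ) {v : ℂ} (hv : 0 ≤ v.re) : Qp d h v ≠ 0 := by
  unfold Qp
  refine pow_ne_zero _ (Finset.prod_ne_zero_iff.mpr fun k _ hk => ?_)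
  have h1 := congrArg Complex.re hk
  have h2 : ((2 : ℂ) ^ k).re = 2 ^ k := by
    have : (2 : ℂ) ^ k = ((2 ^ k : ℝ) : ℂ) := by push_cast; ring
    rw [this, Complex.ofReal_re]
  rw [Complex.add_re, h2, Complex.zero_re] at h1
  have : (0 : ℝ) < 2 ^ k := by positivity
  linarith

theorem norm_sub_sq_eq (v : ℂ) (a : ℝ) : ‖v - a‖ ^ 2 = ‖v + a‖ ^ 2 - 4 * a * v.re := by
  rw [Complex.sq_norm, Complex.sq_norm, Complex.normSq_apply, Complex.normSq_apply]
  simp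
  ring

theorem lam_pos (d : ℕ) : 1 ≤ lam d := by
  unfold lam
  exact Nat.mul_pos (by omega) (by omega)

theorem Qm_small (hd : 1 ≤ d) (h : ℕ) {v : ℂ} (hv : 0 < v.re) (h1 : 1 ≤ ‖v‖)
    (h2 : ‖v‖ < 2 ^ (2 * h + d ^ 2 + 1)) (h3 : ‖v‖ ≤ lam d * |v.re|) :
    ‖Qm d h v‖ ≤ 1 / (8 * d) * ‖Qp d h v‖ := by
  classical
  obtain ⟨k, hk1, hk2⟩ := exists_nat_pow_near h1 (show (1 : ℝ) < 2 by norm_num)
  have hk : k ∈ range (2 * h + d ^ 2 + 1) := by
    rw [mem_range]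
    exact (pow_lt_pow_iff_right₀ (show (1 : ℝ) < 2 by norm_num)).mp (hk1.trans_lt h2)
  rw [abs_of_pos hv] at h3
  have hL : (1 : ℝ) ≤ lam d := by exact_mod_cast lam_pos d
  set q : ℝ := 1 - 1 / ((2 * lam d : ℕ) : ℝ) with hq
  have hq0 : 0 ≤ q := by
    have : 1 / ((2 * lam d : ℕ) : ℝ) ≤ 1 := by
      push_cast
      rw [div_le_one (by linarith)]; linarith
    linarith
  have cast2 : ∀ m : ℕ, (2 : ℂ) ^ m = ((2 ^ m : ℝ) : ℂ) := by
    intro m; push_cast; ring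
  have hother : ∀ m : ℕ, ‖v - 2 ^ m‖ ^ 2 ≤ ‖v + 2 ^ m‖ ^ 2 := by
    intro m
    rw [cast2, norm_sub_sq_eq]
    have : (0 : ℝ) ≤ 4 * 2 ^ m * v.re := by positivity
    linarith
  have hkey : ‖v - 2 ^ k‖ ^ 2 ≤ q * ‖v + 2 ^ k‖ ^ 2 := by
    rw [cast2, norm_sub_sq_eq]
    set a : ℝ := 2 ^ k with ha
    have ha0 : 0 < a := by positivity
    have e1 : ‖v + a‖ ≤ 2 * ‖v‖ := by
      calc ‖v + a‖ ≤ ‖v‖ + ‖(a : ℂ)‖ := norm_add_le _ _
        _ = ‖v‖ + a := by rw [Complex.norm_real, Real.norm_of_nonneg ha0.le]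
        _ ≤ 2 * ‖v‖ := by linarith
    have e2 : ‖v + a‖ ^ 2 ≤ 4 * ‖v‖ ^ 2 := by nlinarith [norm_nonneg (v + a)]
    have e3 : ‖v‖ ≤ 2 * a := by rw [pow_succ] at hk2; linarith
    have e4 : ‖v‖ ^ 2 ≤ (2 * a) * (lam d * v.re) := by
      rw [sq]; exact mul_le_mul e3 h3 (norm_nonneg _) (by positivity)
    have e5 : 1 / ((2 * lam d : ℕ) : ℝ) * ‖v + a‖ ^ 2 ≤ 4 * a * v.re := by
      push_cast
      rw [one_div, inv_mul_le_iff₀ (by linarith)]
      nlinarith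
    rw [hq]
    linarith
  have hprod : ‖∏ m ∈ range (2 * h + d ^ 2 + 1), (v - 2 ^ m)‖ ^ 2 ≤
      q * ‖∏ m ∈ range (2 * h + d ^ 2 + 1), (v + 2 ^ m)‖ ^ 2 := by
    rw [norm_prod, norm_prod, ← Finset.prod_pow, ← Finset.prod_pow,
      ← Finset.mul_prod_erase _ _ hk, ← Finset.mul_prod_erase _ (fun m => ‖v + 2 ^ m‖ ^ 2) hk,
      ← mul_assoc]
    exact mul_le_mul hkey (Finset.prod_le_prod (fun m _ => by positivity) fun m _ => hother m)
      (Finset.prod_nonneg fun m _ => by positivity) (by positivity)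
  have hqpow : q ^ (16 * d * lam d) ≤ 1 / (8 * d) := by
    have e1 : q ^ (2 * lam d) ≤ 1 / 2 := one_sub_inv_pow_le (by have := lam_pos d; omega)
    have e2 : (8 * d : ℕ) < 2 ^ (8 * d) := Nat.lt_two_pow_self
    have e3 : (8 * d : ℝ) ≤ 2 ^ (8 * d) := by exact_mod_cast e2.le
    have hd' : (1 : ℝ) ≤ d := by exact_mod_cast hd
    calc q ^ (16 * d * lam d) = (q ^ (2 * lam d)) ^ (8 * d) := by rw [← pow_mul]; congr 1; ring
      _ ≤ (1 / 2) ^ (8 * d) := pow_le_pow_left₀ (by positivity) e1 _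
      _ = 1 / 2 ^ (8 * d) := by rw [one_div_pow]
      _ ≤ 1 / (8 * d) := one_div_le_one_div_of_le (by linarith) e3
  unfold Qm Qp
  rw [norm_pow, norm_pow, show 32 * d * lam d = 2 * (16 * d * lam d) by ring, pow_mul _ 2, pow_mul _ 2]
  calc (‖∏ m ∈ range (2 * h + d ^ 2 + 1), (v - 2 ^ m)‖ ^ 2) ^ (16 * d * lam d)
      ≤ (q * ‖∏ m ∈ range (2 * h + d ^ 2 + 1), (v + 2 ^ m)‖ ^ 2) ^ (16 * d * lam d) :=
        pow_le_pow_left₀ (by positivity) hprod _
    _ = q ^ (16 * d * lam d) *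
        (‖∏ m ∈ range (2 * h + d ^ 2 + 1), (v + 2 ^ m)‖ ^ 2) ^ (16 * d * lam d) := mul_pow _ _ _
    _ ≤ _ := mul_le_mul_of_nonneg_right hqpow (by positivity)

theorem small_div (hd : 1 ≤ d) {A B : ℂ} (hA : A ≠ 0) (hB : ‖B‖ ≤ 1 / (8 * d) * ‖A‖) :
    A + B ≠ 0 ∧ ‖B / (A + B)‖ ≤ 1 / (4 * d) := by
  have hd' : (1 : ℝ) ≤ d := by exact_mod_cast hd
  have hA0 : 0 < ‖A‖ := norm_pos_iff.mpr hA
  have h1 : 1 / (8 * (d : ℝ)) ≤ 1 / 2 := one_div_le_one_div_of_le (by norm_num) (by linarith)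
  have h2 : ‖A‖ / 2 ≤ ‖A + B‖ := by
    have : ‖A‖ ≤ ‖A + B‖ + ‖B‖ := by
      calc ‖A‖ = ‖(A + B) - B‖ := by congr 1; ring
        _ ≤ _ := norm_sub_le _ _
    nlinarith
  have h3 : 0 < ‖A + B‖ := by linarith
  refine ⟨norm_pos_iff.mp h3, ?_⟩
  rw [norm_div, div_le_iff₀ h3]
  calc ‖B‖ ≤ 1 / (8 * d) * ‖A‖ := hB
    _ = 1 / (4 * d) * (‖A‖ / 2) := by field_simp; ring
    _ ≤ _ := mul_le_mul_of_nonneg_left h2 (by positivity)

open Classical in
theorem step_est (hd : 1 ≤ d) (h s : ℕ) (hs : s ≤ d ^ 2) {a b : ℂ}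
    (hS : ‖(s + Complex.I) * (a - b)‖ ≤ lam d * |((s + Complex.I) * (a - b)).re|)
    (h1 : ‖a - b‖ ≤ 2 ^ h) (h2 : a ≠ b → 1 ≤ 2 ^ h * ‖a - b‖) :
    Qp d h (dif h s a b) + Qm d h (dif h s a b) ≠ 0 ∧
    ‖2 * (Qp d h (dif h s a b) / (Qp d h (dif h s a b) + Qm d h (dif h s a b))) -
      ((if 0 < ((s + Complex.I) * (a - b)).re then 2 else if a = b then 1 else 0 : ℕ) : ℂ)‖ ≤
      1 / (2 * d) := by
  have hd' : (1 : ℝ) ≤ d := by exact_mod_cast hd
  by_cases hab : a = b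
  · subst hab
    have e0 : dif h s a a = 0 := by simp [dif]
    have e1 : Qm d h (0 : ℂ) = Qp d h 0 := by rw [← Qp_neg, neg_zero]
    have e2 : Qp d h (0 : ℂ) ≠ 0 := Qp_ne_zero h (by simp)
    rw [e0, e1]
    have e3 : Qp d h (0 : ℂ) + Qp d h 0 ≠ 0 := by
      rw [← two_mul]; exact mul_ne_zero two_ne_zero e2
    refine ⟨e3, ?_⟩
    have e4 : 2 * (Qp d h (0 : ℂ) / (Qp d h 0 + Qp d h 0)) = 1 := by
      field_simp
      ring
    rw [e4]
    simp
  · set w : ℂ := (s + Complex.I) * (a - b) with hw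
    have hv : dif h s a b = ((2 ^ h : ℝ) : ℂ) * w := by
      unfold dif; rw [hw]; push_cast; ring
    set v := dif h s a b with hvdef
    have hp : (0 : ℝ) < 2 ^ h := by positivity
    have hvn : ‖v‖ = 2 ^ h * ‖w‖ := by
      rw [hv, norm_mul, Complex.norm_real, Real.norm_of_nonneg hp.le]
    have hvr : v.re = 2 ^ h * w.re := by rw [hv, Complex.re_ofReal_mul]
    have hwn : ‖w‖ = ‖(s : ℂ) + Complex.I‖ * ‖a - b‖ := by rw [hw, norm_mul]
    have n1 : 1 ≤ ‖v‖ := by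
      rw [hvn, hwn]
      have := h2 hab
      have e := one_le_norm_omega s
      have : ‖a - b‖ ≤ ‖(s : ℂ) + Complex.I‖ * ‖a - b‖ := by nlinarith [norm_nonneg (a - b)]
      nlinarith
    have n2 : ‖v‖ < 2 ^ (2 * h + d ^ 2 + 1) := by
      rw [hvn, hwn]
      have e1 : ‖(s : ℂ) + Complex.I‖ ≤ 2 ^ (d ^ 2) := by
        refine (norm_omega_le s).trans ?_
        have : s + 1 ≤ 2 ^ (d ^ 2) := by
          have := @Nat.lt_two_pow_self (d ^ 2)
          omega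
        exact_mod_cast this
      have e2 : ‖(s : ℂ) + Complex.I‖ * ‖a - b‖ ≤ 2 ^ (d ^ 2) * 2 ^ h :=
        mul_le_mul e1 h1 (norm_nonneg _) (by positivity)
      calc (2 : ℝ) ^ h * (‖(s : ℂ) + Complex.I‖ * ‖a - b‖) ≤ 2 ^ h * (2 ^ (d ^ 2) * 2 ^ h) :=
            mul_le_mul_of_nonneg_left e2 hp.le
        _ = 2 ^ (2 * h + d ^ 2) := by ring
        _ < 2 ^ (2 * h + d ^ 2 + 1) := pow_lt_pow_right₀ (by norm_num) (by omega)
    have n3 : ‖v‖ ≤ lam d * |v.re| := by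
      rw [hvn, hvr, abs_mul, abs_of_pos hp]
      nlinarith
    have hhalf : 2 * (1 / (4 * (d : ℝ))) = 1 / (2 * d) := by field_simp; ring
    by_cases hre : 0 < w.re
    · have hvpos : 0 < v.re := by rw [hvr]; positivity
      obtain ⟨z1, z2⟩ := small_div hd (Qp_ne_zero h hvpos.le) (Qm_small hd h hvpos n1 n2 n3)
      refine ⟨z1, ?_⟩
      rw [if_pos hre]
      have e : 2 * (Qp d h v / (Qp d h v + Qm d h v)) - ((2 : ℕ) : ℂ) =
          -2 * (Qm d h v / (Qp d h v + Qm d h v)) := by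
        field_simp
        push_cast
        ring
      rw [e, norm_mul, ← hhalf]
      simp only [norm_neg, Complex.norm_ofNat]
      linarith
    · have hne : v.re ≠ 0 := by
        intro h0
        rw [h0] at n3
        simp at n3
        rw [n3] at n1
        simp at n1
        linarith
      have hvneg : 0 < (-v).re := by
        have : v.re ≤ 0 := by
          rw [hvr]; exact mul_nonpos_of_nonneg_of_nonpos hp.le (not_lt.mp hre)
        rw [Complex.neg_re]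
        exact neg_pos.mpr (lt_of_le_of_ne this hne)
      obtain ⟨z1, z2⟩ := small_div hd (Qp_ne_zero h hvneg.le)
        (Qm_small hd h hvneg (by simpa using n1) (by simpa using n2) (by simpa using n3))
      rw [Qp_neg, Qm_neg, add_comm] at z1 z2
      refine ⟨z1, ?_⟩
      rw [if_neg hre, if_neg hab, Nat.cast_zero, sub_zero, norm_mul, ← hhalf]
      simp only [Complex.norm_ofNat]
      linarith

theorem rho_est (u : Fin d → ℂ) (h s : ℕ) (hs : s ≤ d ^ 2) (hS : Sector u s)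
    (hu : ∀ j j', ‖u j - u j'‖ ≤ 2 ^ h ∧ (u j ≠ u j' → 1 ≤ 2 ^ h * ‖u j - u j'‖)) (j : Fin d) :
    ‖2 * rho u h s (u j) - rank2 u s j‖ ≤ 1 / 2 := by
  have hd : 1 ≤ d := j.pos
  have hd' : (1 : ℝ) ≤ d := by exact_mod_cast hd
  unfold rho rank2
  rw [Nat.cast_sum, Finset.mul_sum, ← Finset.sum_sub_distrib]
  refine (norm_sum_le _ _).trans ((Finset.sum_le_card_nsmul _ _ (1 / (2 * (d : ℝ))) ?_).trans ?_)
  · intro j' _
    exact (step_est hd h s hs (hS j j') (hu j j').1 (hu j j').2).2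
  · simp only [card_univ, Fintype.card_fin, nsmul_eq_mul]
    apply le_of_eq
    field_simp

theorem rank2_gap (u : Fin d → ℂ) (s : ℕ) {j j0 : Fin d}
    (hlt : 0 < ((s + Complex.I) * (u j - u j0)).re) : rank2 u s j0 + 2 ≤ rank2 u s j := by
  classical
  have hne : u j ≠ u j0 := by
    intro h
    rw [h] at hlt
    simp at hlt
  have hjj : j ≠ j0 := fun h => hne (by rw [h])
  have hadd : ∀ j', ((s + Complex.I) * (u j - u j')).re =
      ((s + Complex.I) * (u j - u j0)).re + ((s + Complex.I) * (u j0 - u j')).re := by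
    intro j'
    rw [← Complex.add_re]
    congr 1
    ring
  have h2 : (2 : ℕ) = ∑ j' : Fin d, ((if j' = j then 1 else 0) + (if j' = j0 then 1 else 0)) := by
    rw [Finset.sum_add_distrib]
    simp
  unfold rank2
  rw [h2, ← Finset.sum_add_distrib, ← h2]
  refine Finset.sum_le_sum fun j' _ => ?_
  by_cases e1 : j' = j
  · subst e1
    have a1 : ¬ 0 < ((s + Complex.I) * (u j0 - u j')).re := by
      have := hadd j'
      simp only [sub_self, mul_zero, Complex.zero_re] at this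
      linarith
    rw [if_neg a1, if_neg hne.symm, if_pos rfl, if_neg hjj]
    simp
  · by_cases e2 : j' = j0
    · subst e2
      rw [if_pos hlt, if_neg e1]
      simp
    · rw [if_neg e1, if_neg e2]
      by_cases a1 : 0 < ((s + Complex.I) * (u j0 - u j')).re
      · rw [if_pos a1, if_pos (by rw [hadd]; linarith)]
      · rw [if_neg a1]
        by_cases a2 : u j0 = u j'
        · rw [if_pos a2, if_pos (by rw [← a2]; exact hlt)]
          omega
        · rw [if_neg a2]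
          omega

theorem rank2_far (u : Fin d → ℂ) (s : ℕ) (hS : Sector u s) {j j0 : Fin d} (hne : u j ≠ u j0) :
    2 ≤ |(rank2 u s j : ℝ) - rank2 u s j0| := by
  have h0 : ((s + Complex.I) * (u j - u j0)).re ≠ 0 := by
    intro h0
    have := hS j j0
    rw [h0, norm_mul] at this
    have e := one_le_norm_omega s
    have e2 : 0 < ‖u j - u j0‖ := norm_pos_iff.mpr (sub_ne_zero.mpr hne)
    simp only [abs_zero, mul_zero] at this
    nlinarith
  rcases lt_or_gt_of_ne h0 with h1 | h1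
  · have h2 : 0 < ((s + Complex.I) * (u j0 - u j)).re := by
      have : (s + Complex.I) * (u j0 - u j) = -((s + Complex.I) * (u j - u j0)) := by ring
      rw [this, Complex.neg_re]
      linarith
    have h3 : (rank2 u s j : ℝ) + 2 ≤ rank2 u s j0 := by exact_mod_cast rank2_gap u s h2
    rw [le_abs]; right; linarith
  · have h3 : (rank2 u s j0 : ℝ) + 2 ≤ rank2 u s j := by exact_mod_cast rank2_gap u s h1
    rw [le_abs]; left; linarith

theorem phi_far {W r : ℝ} {η : ℂ} (hr : 2 ≤ |r|) (hW : r ^ 2 ≤ W) (hη : ‖η‖ ≤ 1 / 2) :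
    ‖(W : ℂ) - (r + η) ^ 2‖ ≤ W - 7 / 4 := by
  have e : (W : ℂ) - (r + η) ^ 2 = ((W - r ^ 2 : ℝ) : ℂ) - (2 * r * η + η ^ 2) := by
    push_cast; ring
  rw [e]
  have h1 : ‖((W - r ^ 2 : ℝ) : ℂ)‖ = W - r ^ 2 := by
    rw [Complex.norm_real, Real.norm_of_nonneg (by linarith)]
  have h2 : ‖2 * (r : ℂ) * η‖ ≤ |r| := by
    rw [norm_mul, norm_mul, Complex.norm_real, Real.norm_eq_abs]
    simp only [Complex.norm_ofNat]
    nlinarith
  have h3 : ‖η ^ 2‖ ≤ 1 / 4 := by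
    rw [norm_pow]; nlinarith [norm_nonneg η]
  have h4 := norm_sub_le ((W - r ^ 2 : ℝ) : ℂ) (2 * r * η + η ^ 2)
  have h5 := norm_add_le (2 * (r : ℂ) * η) (η ^ 2)
  have h6 : r ^ 2 = |r| ^ 2 := (sq_abs r).symm
  nlinarith

theorem phi_near {W : ℝ} {η : ℂ} (hW : 0 ≤ W) (hη : ‖η‖ ≤ 1 / 2) :
    W - 1 / 4 ≤ ‖(W : ℂ) - η ^ 2‖ := by
  have h3 : ‖η ^ 2‖ ≤ 1 / 4 := by
    rw [norm_pow]; nlinarith [norm_nonneg η]
  have h1 := norm_sub_norm_le (W : ℂ) (η ^ 2)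
  rw [Complex.norm_real, Real.norm_of_nonneg hW] at h1
  linarith

/-- the abstract filter estimate -/
theorem filter_est (u w : Fin d → ℂ) (j0 : Fin d) (h E : ℕ) (h0 : w j0 ≠ 0)
    (hu : ∀ j, ‖u j - u j0‖ ≤ 2 ^ h) (heq : ∀ j, u j = u j0 → w j = w j0)
    (hne : ∀ j, u j ≠ u j0 → ‖w j‖ ≤ 1 / 2 ^ (h + E + d + 1) * ‖w j0‖) :
    (∑ j, w j) ≠ 0 ∧ ‖(∑ j, u j * w j) / (∑ j, w j) - u j0‖ ≤ 1 / 2 ^ E := by
  classical
  have hw0 : 0 < ‖w j0‖ := norm_pos_iff.mpr h0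
  have hd2 : (d : ℝ) ≤ 2 ^ d := by exact_mod_cast (@Nat.lt_two_pow_self d).le
  have hsm : ∑ j ∈ univ.filter (fun j => ¬ u j = u j0), ‖w j‖ ≤ 1 / 2 ^ (h + E + 1) * ‖w j0‖ := by
    refine (Finset.sum_le_card_nsmul _ _ (1 / 2 ^ (h + E + d + 1) * ‖w j0‖) ?_).trans ?_
    · intro j hj
      exact hne j (mem_filter.mp hj).2
    · have hc : ((univ.filter (fun j => ¬ u j = u j0)).card : ℝ) ≤ 2 ^ d := by
        refine le_trans ?_ hd2
        have := Finset.card_filter_le (univ : Finset (Fin d)) (fun j => ¬ u j = u j0)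
        rw [card_univ, Fintype.card_fin] at this
        exact_mod_cast this
      rw [nsmul_eq_mul]
      calc _ ≤ 2 ^ d * (1 / 2 ^ (h + E + d + 1) * ‖w j0‖) :=
            mul_le_mul_of_nonneg_right hc (by positivity)
        _ = _ := by field_simp; ring
  have hbig : ‖w j0‖ ≤ ‖∑ j ∈ univ.filter (fun j => u j = u j0), w j‖ := by
    rw [Finset.sum_congr rfl (fun j hj => heq j (mem_filter.mp hj).2), Finset.sum_const,
      nsmul_eq_mul, norm_mul, Complex.norm_natCast]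
    have : 1 ≤ (univ.filter (fun j => u j = u j0)).card :=
      Finset.card_pos.mpr ⟨j0, by simp⟩
    have : (1 : ℝ) ≤ (univ.filter (fun j => u j = u j0)).card := by exact_mod_cast this
    nlinarith
  have hhalf : (1 : ℝ) / 2 ^ (h + E + 1) ≤ 1 / 2 := by
    apply one_div_le_one_div_of_le (by norm_num)
    calc (2 : ℝ) = 2 ^ 1 := by norm_num
      _ ≤ _ := pow_le_pow_right₀ (by norm_num) (by omega)
  have hden : ‖w j0‖ / 2 ≤ ‖∑ j, w j‖ := by
    rw [← Finset.sum_filter_add_sum_filter_not univ (fun j => u j = u j0)]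
    have e1 := norm_sum_le (univ.filter (fun j => ¬ u j = u j0)) w
    have e2 := norm_sub_le (∑ j ∈ univ.filter (fun j => u j = u j0), w j +
      ∑ j ∈ univ.filter (fun j => ¬ u j = u j0), w j) (∑ j ∈ univ.filter (fun j => ¬ u j = u j0), w j)
    rw [add_sub_cancel_right] at e2
    nlinarith
  have hpos : 0 < ‖∑ j, w j‖ := by linarith
  have hS : (∑ j, w j) ≠ 0 := norm_pos_iff.mp hpos
  refine ⟨hS, ?_⟩
  have e : (∑ j, u j * w j) / (∑ j, w j) - u j0 = (∑ j, (u j - u j0) * w j) / (∑ j, w j) := by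
    simp only [sub_mul, Finset.sum_sub_distrib, ← Finset.mul_sum]
    field_simp
  rw [e, norm_div, div_le_iff₀ hpos]
  have hnum : ‖∑ j, (u j - u j0) * w j‖ ≤ 2 ^ h * (1 / 2 ^ (h + E + 1) * ‖w j0‖) := by
    rw [← Finset.sum_filter_add_sum_filter_not univ (fun j => u j = u j0),
      Finset.sum_eq_zero (fun j hj => by rw [(mem_filter.mp hj).2]; simp), zero_add]
    refine (norm_sum_le _ _).trans (le_trans ?_ (mul_le_mul_of_nonneg_left hsm (by positivity)))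
    rw [Finset.mul_sum]
    refine Finset.sum_le_sum fun j _ => ?_
    rw [norm_mul]
    exact mul_le_mul_of_nonneg_right (hu j) (norm_nonneg _)
  calc _ ≤ 2 ^ h * (1 / 2 ^ (h + E + 1) * ‖w j0‖) := hnum
    _ = 1 / 2 ^ E * (‖w j0‖ / 2) := by field_simp; ring
    _ ≤ _ := mul_le_mul_of_nonneg_left hden (by positivity)

theorem iso_core (u : Fin d → ℂ) (h s E : ℕ) (hs : s ≤ d ^ 2) (hS : Sector u s)
    (hu : ∀ j j', ‖u j - u j'‖ ≤ 2 ^ h ∧ (u j ≠ u j' → 1 ≤ 2 ^ h * ‖u j - u j'‖)) (j0 : Fin d) :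
    (∀ j j', Qp d h (dif h s (u j) (u j')) + Qm d h (dif h s (u j) (u j')) ≠ 0) ∧
    (∑ j, wt u h s (rank2 u s j0) E (u j)) ≠ 0 ∧
    ‖(∑ j, u j * wt u h s (rank2 u s j0) E (u j)) / (∑ j, wt u h s (rank2 u s j0) E (u j))
      - u j0‖ ≤ 1 / 2 ^ E := by
  have hd : 1 ≤ d := j0.pos
  have hd' : (1 : ℝ) ≤ d := by exact_mod_cast hd
  refine ⟨fun j j' => (step_est hd h s hs (hS j j') (hu j j').1 (hu j j').2).1, ?_⟩
  set W : ℝ := 4 * (d : ℝ) ^ 2 with hW
  have hW4 : 4 ≤ W := by nlinarith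
  have hWc : (4 * (d : ℂ) ^ 2) = (W : ℂ) := by rw [hW]; push_cast; ring
  have hnear : W - 1 / 4 ≤ ‖4 * (d : ℂ) ^ 2 - (2 * rho u h s (u j0) - rank2 u s j0) ^ 2‖ := by
    rw [hWc]
    exact phi_near (by linarith) (rho_est u h s hs hS hu j0)
  refine filter_est u (fun j => wt u h s (rank2 u s j0) E (u j)) j0 h E ?_ (fun j => (hu j j0).1)
    (fun j hj => by simp only [hj]) ?_
  · unfold wt
    exact pow_ne_zero _ (norm_pos_iff.mp (by linarith))
  · intro j hj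
    have hfar : ‖4 * (d : ℂ) ^ 2 - (2 * rho u h s (u j) - rank2 u s j0) ^ 2‖ ≤ W - 7 / 4 := by
      have e : 2 * rho u h s (u j) - rank2 u s j0 =
          (((rank2 u s j : ℝ) - rank2 u s j0 : ℝ) : ℂ) + (2 * rho u h s (u j) - rank2 u s j) := by
        push_cast; ring
      rw [hWc, e]
      refine phi_far (rank2_far u s hS hj) ?_ (rho_est u h s hs hS hu j)
      have a1 : (rank2 u s j : ℝ) ≤ 2 * d := by exact_mod_cast rank2_le u s j
      have a2 : (rank2 u s j0 : ℝ) ≤ 2 * d := by exact_mod_cast rank2_le u s j0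
      have a3 : (0 : ℝ) ≤ rank2 u s j := by positivity
      have a4 : (0 : ℝ) ≤ rank2 u s j0 := by positivity
      rw [hW]
      nlinarith
    set q : ℝ := 1 - 1 / ((4 * d ^ 2 : ℕ) : ℝ) with hq
    have hqW : q = 1 - 1 / W := by rw [hq, hW]; push_cast; ring
    have hq0 : 0 ≤ q := by
      rw [hqW]
      have : 1 / W ≤ 1 := by rw [div_le_one (by linarith)]; linarith
      linarith
    have hq1 : q ^ (4 * d ^ 2) ≤ 1 / 2 := one_sub_inv_pow_le (by nlinarith)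
    have hrat : W - 7 / 4 ≤ q * (W - 1 / 4) := by
      rw [hqW]
      have e : (1 - 1 / W) * (W - 1 / 4) = W - 5 / 4 + 1 / W / 4 := by field_simp; ring
      have : 0 ≤ 1 / W / 4 := by positivity
      linarith
    have hle := hfar.trans (hrat.trans (mul_le_mul_of_nonneg_left hnear hq0))
    unfold wt
    rw [norm_pow, norm_pow]
    refine (pow_le_pow_left₀ (norm_nonneg _) hle _).trans ?_
    rw [mul_pow]
    refine mul_le_mul_of_nonneg_right ?_ (by positivity)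
    rw [pow_mul, ← one_div_pow]
    exact pow_le_pow_left₀ (by positivity) hq1 _

end Vale.Agent.P337
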