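import Vale.Agent.P337.Poly

/-!
TASK RootBd. Bounds for roots of integer polynomials, Lipschitz bound.

Hints. A nonzero `f : ℤ[X]` with `∑ |coeff| ≤ H` satisfies `1 ≤ ‖f y‖` for `H ≤ ‖y‖` and has no root
with `0 < ‖y‖ < 1 / H` (look at the lowest nonzero coefficient). Use `f = spec1 (0 : ℕ → ℤ) F`,
`f.coeff k = constantCoeff (ext1 k F)`; `∑ k, nrm (ext1 k F) ≤ nrm F`. For two variables expand in
`t = X 0`: `F (t, y) = ∑ k, t ^ k * (ext1 k F) (y)`, take the largest `k` with `ext1 k F` not the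
zero function.
-/

namespace Vale.Agent.P337

open MvPolynomial

theorem RootBd.sum_nrm (F : ZP) (s : Finset ℕ) : ∑ k ∈ s, nrm (ext1 k F) ≤ nrm F := by
  classical
  have h1 : ∀ k, nrm (ext1 k F) ≤
      ∑ m ∈ F.support, if m 0 = k then (coeff m F).natAbs else 0 := by
    intro k
    conv_lhs => rw [F.as_sum, ext1, ext_sum]
    refine (nrm_sum _ _).trans (Finset.sum_le_sum fun m _ => ?_)
    obtain ⟨m', -, h⟩ := spec_monomial 1 m (coeff m F)
    rw [ext, h, coeff_monomial]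
    by_cases h2 : m 0 = k
    · rw [if_pos h2]
      split_ifs
      · exact (nrm_monomial _ _).le
      · rw [nrm_zero]; exact Nat.zero_le _
    · rw [if_neg h2, if_neg, nrm_zero]
      intro h3
      exact h2 (by simpa [fs] using DFunLike.congr_fun h3 0)
  refine (Finset.sum_le_sum fun k _ => h1 k).trans ?_
  rw [Finset.sum_comm, nrm]
  refine Finset.sum_le_sum fun m _ => ?_
  rw [Finset.sum_ite_eq]
  split_ifs
  · exact le_rfl
  · exact Nat.zero_le _

theorem RootBd.norm_le {s : Finset ℕ} {j : ℕ} (hj : j ∈ s) (a : ℕ → ℂ) :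
    ‖a j‖ ≤ ‖∑ k ∈ s, a k‖ + ∑ k ∈ s.erase j, ‖a k‖ := by
  rw [← Finset.add_sum_erase _ _ hj]
  refine le_trans ?_ (add_le_add_right (norm_sum_le _ _) _)
  conv_lhs => rw [← add_sub_cancel_right (a j) (∑ k ∈ s.erase j, a k)]
  exact norm_sub_le _ _

theorem RootBd.coeff_le (F : ZP) (k : ℕ) :
    ‖(spec1 (fun _ => (0 : ℂ)) F).coeff k‖ ≤ nrm (ext1 k F) := by
  rw [← aeval_ext1, aeval_zero_eq, Complex.norm_intCast, ← Int.cast_abs, ← Int.natCast_natAbs,
    Int.cast_natCast]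
  exact_mod_cast natAbs_constantCoeff _

theorem RootBd.one_le_coeff (F : ZP) (k : ℕ) (h : (spec1 (fun _ => (0 : ℂ)) F).coeff k ≠ 0) :
    1 ≤ ‖(spec1 (fun _ => (0 : ℂ)) F).coeff k‖ := by
  rw [← aeval_ext1, aeval_zero_eq] at h ⊢
  rw [Complex.norm_intCast, ← Int.cast_abs]
  exact_mod_cast Int.one_le_abs (fun h' => h (by rw [h', Int.cast_zero]))

theorem RootBd.sum_coeff (F : ZP) (s : Finset ℕ) :
    ∑ k ∈ s, ‖(spec1 (fun _ => (0 : ℂ)) F).coeff k‖ ≤ nrm F := by
  refine (Finset.sum_le_sum fun k _ => RootBd.coeff_le F k).trans ?_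
  exact_mod_cast RootBd.sum_nrm F s

theorem RootBd.one_le_nrm (F : ZP) (h : spec1 (fun _ => (0 : ℂ)) F ≠ 0) : (1 : ℝ) ≤ nrm F := by
  have := RootBd.sum_coeff F {(spec1 (fun _ => (0 : ℂ)) F).natDegree}
  rw [Finset.sum_singleton] at this
  exact (RootBd.one_le_coeff F _ (Polynomial.leadingCoeff_ne_zero.2 h)).trans this

theorem RootBd.big (F : ZP) (h : spec1 (fun _ => (0 : ℂ)) F ≠ 0) {y : ℂ} (hy : nrm F ≤ ‖y‖) :
    1 ≤ ‖(spec1 (fun _ => (0 : ℂ)) F).eval y‖ := by
  have h1 := RootBd.one_le_nrm F h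
  have h2 := RootBd.one_le_coeff F _ (Polynomial.leadingCoeff_ne_zero.2 h)
  have h3 := RootBd.sum_coeff F (Finset.range ((spec1 (fun _ => (0 : ℂ)) F).natDegree + 1))
  set g := spec1 (fun _ => (0 : ℂ)) F
  have h4 := RootBd.norm_le (Finset.self_mem_range_succ g.natDegree) (fun k => g.coeff k * y ^ k)
  rw [← Polynomial.eval_eq_sum_range, Finset.range_add_one,
    Finset.erase_insert Finset.notMem_range_self] at h4
  rw [Finset.sum_range_succ] at h3
  generalize g.natDegree = n at *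
  have hy1 : 1 ≤ ‖y‖ := h1.trans hy
  rcases n with _ | n
  · simp at h4
    exact h2.trans h4
  · have h5 : ∑ k ∈ Finset.range (n + 1), ‖g.coeff k * y ^ k‖ ≤
        (∑ k ∈ Finset.range (n + 1), ‖g.coeff k‖) * ‖y‖ ^ n := by
      rw [Finset.sum_mul]
      refine Finset.sum_le_sum fun k hk => ?_
      rw [norm_mul, norm_pow]
      exact mul_le_mul_of_nonneg_left
        (pow_le_pow_right₀ hy1 (Nat.lt_succ_iff.1 (Finset.mem_range.1 hk))) (norm_nonneg _)
    rw [norm_mul, norm_pow, pow_succ] at h4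
    have h6 : 1 ≤ ‖y‖ ^ n := one_le_pow₀ hy1
    have h7 : (∑ k ∈ Finset.range (n + 1), ‖g.coeff k‖) ≤ ‖y‖ - 1 := by linarith
    have h8 := mul_le_mul_of_nonneg_right h7 (zero_le_one.trans h6)
    have h9 := mul_le_mul_of_nonneg_right h2 (show 0 ≤ ‖y‖ ^ n * ‖y‖ by positivity)
    nlinarith

theorem RootBd.norm_aeval (F : ZP) (φ : ℕ → ℂ) {C : ℝ} (hC : 1 ≤ C) (hφ : ∀ i, ‖φ i‖ ≤ C) :
    ‖aeval φ F‖ ≤ nrm F * C ^ F.totalDegree := by
  conv_lhs => rw [F.as_sum, map_sum]
  rw [nrm, Nat.cast_sum, Finset.sum_mul]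
  refine (norm_sum_le _ _).trans (Finset.sum_le_sum fun m hm => ?_)
  rw [aeval_monomial, norm_mul, eq_intCast, Complex.norm_intCast, ← Int.cast_abs,
    ← Int.natCast_natAbs, Int.cast_natCast]
  refine mul_le_mul_of_nonneg_left ?_ (Nat.cast_nonneg _)
  rw [Finsupp.prod, norm_prod]
  refine (Finset.prod_le_prod (fun _ _ => norm_nonneg _) fun i _ =>
    (norm_pow _ _).le.trans (pow_le_pow_left₀ (norm_nonneg _) (hφ i) _)).trans ?_
  rw [Finset.prod_pow_eq_pow_sum]
  exact pow_le_pow_right₀ hC (le_totalDegree hm)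

theorem root_bound (F : ZP) {H : ℕ} (hH : nrm F ≤ H) {y v : ℂ}
    (hy : aeval (cons y fun _ => 0) F ≠ 0) (hv : aeval (cons v fun _ => 0) F = 0) :
    ‖v‖ ≤ H ∧ (v ≠ 0 → 1 ≤ H * ‖v‖) := by
  rw [← eval_spec1] at hy hv
  have h : spec1 (fun _ => (0 : ℂ)) F ≠ 0 := fun h => hy (by rw [h, Polynomial.eval_zero])
  have hH' : (nrm F : ℝ) ≤ H := by exact_mod_cast hH
  have h1 := RootBd.one_le_nrm F h
  constructor
  · by_contra hlt
    have := RootBd.big F h (hH'.trans (not_le.1 hlt).le)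
    rw [hv, norm_zero] at this
    linarith
  · intro hv0
    rcases le_total 1 ‖v‖ with hv1 | hv1
    · nlinarith
    · have h2 := RootBd.one_le_coeff F _ (Polynomial.trailingCoeff_nonzero_iff_nonzero.2 h)
      have h3 := RootBd.sum_coeff F ((spec1 (fun _ => (0 : ℂ)) F).support.erase
        (spec1 (fun _ => (0 : ℂ)) F).natTrailingDegree)
      set g := spec1 (fun _ => (0 : ℂ)) F
      have h4 := RootBd.norm_le (Polynomial.natTrailingDegree_mem_support_of_nonzero h)
        (fun k => g.coeff k * v ^ k)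
      rw [Polynomial.eval_eq_sum, Polynomial.sum_def] at hv
      rw [hv, norm_zero, zero_add, norm_mul, norm_pow] at h4
      have h5 : ∑ k ∈ g.support.erase g.natTrailingDegree, ‖g.coeff k * v ^ k‖ ≤
          (∑ k ∈ g.support.erase g.natTrailingDegree, ‖g.coeff k‖) *
            ‖v‖ ^ (g.natTrailingDegree + 1) := by
        rw [Finset.sum_mul]
        refine Finset.sum_le_sum fun k hk => ?_
        rw [norm_mul, norm_pow]
        refine mul_le_mul_of_nonneg_left
          (pow_le_pow_of_le_one (norm_nonneg _) hv1 ?_) (norm_nonneg _)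
        have := Polynomial.natTrailingDegree_le_of_mem_supp k (Finset.mem_of_mem_erase hk)
        have := Finset.ne_of_mem_erase hk
        omega
      have h6 : 0 < ‖v‖ ^ g.natTrailingDegree := pow_pos (norm_pos_iff.2 hv0) _
      have h7 := mul_le_mul_of_nonneg_right (h3.trans hH')
        (show 0 ≤ ‖v‖ ^ (g.natTrailingDegree + 1) by positivity)
      have h8 := mul_le_mul_of_nonneg_right h2 h6.le
      rw [pow_succ] at h5 h7
      refine le_of_mul_le_mul_right ?_ h6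
      nlinarith

theorem two_var_bound (F : ZP) {H D : ℕ} (hH : nrm F ≤ H) (hD : F.totalDegree ≤ D) {t₀ y₀ : ℂ}
    (h₀ : aeval (cons t₀ (cons y₀ fun _ => 0)) F ≠ 0) {t y C : ℝ} (hC : 1 ≤ C) (hy : (H : ℝ) ≤ y)
    (hyC : y ≤ C) (ht : H * C ^ D < t) :
    aeval (cons (t : ℂ) (cons (y : ℂ) fun _ => 0)) F ≠ 0 := by
  classical
  have hH' : (nrm F : ℝ) ≤ H := by exact_mod_cast hH
  have hexp : ∀ t y : ℂ, aeval (cons t (cons y fun _ => 0)) F =
      ∑ k ∈ Finset.range (F.totalDegree + 1),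
        (spec1 (fun _ => (0 : ℂ)) (ext1 k F)).eval y * t ^ k := by
    intro t y
    rw [← eval_spec1, Polynomial.eval_eq_sum_range' (Nat.lt_succ_of_le (natDegree_spec1 _ F))]
    simp only [eval_spec1, aeval_ext1]
  let s := (Finset.range (F.totalDegree + 1)).filter
    fun k => spec1 (fun _ => (0 : ℂ)) (ext1 k F) ≠ 0
  have hexp' : ∀ t y : ℂ, aeval (cons t (cons y fun _ => 0)) F =
      ∑ k ∈ s, (spec1 (fun _ => (0 : ℂ)) (ext1 k F)).eval y * t ^ k := by
    intro t y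
    rw [hexp, Finset.sum_filter_of_ne]
    intro k _ h h'
    exact h (by rw [h', Polynomial.eval_zero, zero_mul])
  have hs : s.Nonempty := by
    rw [Finset.nonempty_iff_ne_empty]
    intro h
    exact h₀ (by rw [hexp', h, Finset.sum_empty])
  have hn := s.max'_mem hs
  have hmax : ∀ k ∈ s, k ≤ s.max' hs := fun k hk => s.le_max' k hk
  generalize s.max' hs = n at hn hmax
  have hn0 := (Finset.mem_filter.1 hn).2
  have hnn : (nrm (ext1 n F) : ℝ) ≤ nrm F := by exact_mod_cast nrm_ext _ _ _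
  have h1 := RootBd.one_le_nrm _ hn0
  have hy0 : 0 ≤ y := le_trans (Nat.cast_nonneg _) hy
  have hyn : ‖(y : ℂ)‖ = y := by rw [Complex.norm_real, Real.norm_of_nonneg hy0]
  have hCD : 1 ≤ C ^ D := one_le_pow₀ hC
  have ht1 : 1 ≤ t := by nlinarith
  have htn : ‖(t : ℂ)‖ = t := by rw [Complex.norm_real, Real.norm_of_nonneg (by linarith)]
  have h2 := RootBd.big _ hn0 (y := y) (by rw [hyn]; linarith)
  intro h
  have h4 := RootBd.norm_le hn
    (fun k => (spec1 (fun _ => (0 : ℂ)) (ext1 k F)).eval (y : ℂ) * (t : ℂ) ^ k)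
  rw [← hexp', h, norm_zero, zero_add, norm_mul, norm_pow, htn] at h4
  have h5 : (∑ k ∈ s.erase n, ‖(spec1 (fun _ => (0 : ℂ)) (ext1 k F)).eval (y : ℂ) * (t : ℂ) ^ k‖) * t
      ≤ (∑ k ∈ s.erase n, (nrm (ext1 k F) : ℝ)) * (C ^ D * t ^ n) := by
    rw [Finset.sum_mul, Finset.sum_mul]
    refine Finset.sum_le_sum fun k hk => ?_
    rw [norm_mul, norm_pow, htn, mul_assoc, ← pow_succ, ← mul_assoc]
    have hk' : k + 1 ≤ n := by
      have := hmax k (Finset.mem_of_mem_erase hk)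
      have := Finset.ne_of_mem_erase hk
      omega
    refine mul_le_mul ?_ (pow_le_pow_right₀ ht1 hk') (by positivity) (by positivity)
    rw [eval_spec1]
    refine (RootBd.norm_aeval _ _ hC fun i => ?_).trans (mul_le_mul_of_nonneg_left
      (pow_le_pow_right₀ hC ((totalDegree_ext _ _ _).trans hD)) (Nat.cast_nonneg _))
    unfold cons
    split_ifs
    · rw [hyn]; exact hyC
    · rw [norm_zero]; linarith
  have h6 : (∑ k ∈ s.erase n, (nrm (ext1 k F) : ℝ)) ≤ H := by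
    refine le_trans ?_ hH'
    exact_mod_cast RootBd.sum_nrm F _
  have h7 : 0 < t ^ n := by positivity
  have h8 := mul_le_mul_of_nonneg_right h6 (show 0 ≤ C ^ D * t ^ n by positivity)
  have h9 := mul_le_mul_of_nonneg_right h2 h7.le
  have h10 := mul_lt_mul_of_pos_right ht h7
  have h11 := mul_le_mul_of_nonneg_right (h9.trans h4) (zero_le_one.trans ht1)
  nlinarith

theorem RootBd.lip_mono (x z : ℕ → ℝ) {R δ : ℝ} (hR : 0 ≤ R)
    (hδ : 0 ≤ δ) (hδ1 : δ ≤ 1) (hz : ∀ i, |z i| ≤ R) (hx : ∀ i, |x i - z i| ≤ δ) (m : ℕ →₀ ℕ) :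
    |aeval x (monomial m (1 : ℤ)) - aeval z (monomial m (1 : ℤ))| ≤
        m.degree * (R + 1) ^ m.degree * δ ∧
      |aeval x (monomial m (1 : ℤ))| ≤ (R + 1) ^ m.degree ∧
      |aeval z (monomial m (1 : ℤ))| ≤ (R + 1) ^ m.degree := by
  have hx' : ∀ i, |x i| ≤ R + 1 := fun i => by
    have := abs_sub_abs_le_abs_sub (x i) (z i)
    linarith [hz i, hx i]
  have hz' : ∀ i, |z i| ≤ R + 1 := fun i => by linarith [hz i]
  induction m using Finsupp.induction_linear with
  | zero => simp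
  | add a b ha hb =>
    obtain ⟨a1, a2, a3⟩ := ha
    obtain ⟨b1, b2, b3⟩ := hb
    rw [← mul_one (1 : ℤ), ← monomial_mul, map_mul, map_mul, map_add, pow_add, abs_mul, abs_mul]
    refine ⟨?_, mul_le_mul a2 b2 (abs_nonneg _) (by positivity),
      mul_le_mul a3 b3 (abs_nonneg _) (by positivity)⟩
    set xa := aeval x (monomial a (1 : ℤ))
    set xb := aeval x (monomial b (1 : ℤ))
    set za := aeval z (monomial a (1 : ℤ))
    set zb := aeval z (monomial b (1 : ℤ))
    rw [show xa * xb - za * zb = xa * (xb - zb) + (xa - za) * zb by ring]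
    refine (abs_add_le _ _).trans ?_
    rw [abs_mul, abs_mul]
    refine (add_le_add (mul_le_mul a2 b1 (abs_nonneg _) (by positivity))
      (mul_le_mul a1 b3 (abs_nonneg _) (by positivity))).trans (le_of_eq ?_)
    push_cast
    ring
  | single i k =>
    rw [← X_pow_eq_monomial, map_pow, map_pow, aeval_X, aeval_X, Finsupp.degree_single, abs_pow,
      abs_pow]
    refine ⟨?_, pow_le_pow_left₀ (abs_nonneg _) (hx' i) _,
      pow_le_pow_left₀ (abs_nonneg _) (hz' i) _⟩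
    refine (abs_pow_sub_pow_le _ _ _).trans ?_
    have h1 : max |x i| |z i| ^ (k - 1) ≤ (R + 1) ^ k :=
      (pow_le_pow_left₀ (le_max_of_le_left (abs_nonneg _)) (max_le (hx' i) (hz' i)) _).trans
        (pow_le_pow_right₀ (by linarith) (Nat.sub_le _ _))
    calc |x i - z i| * k * max |x i| |z i| ^ (k - 1) ≤ δ * k * (R + 1) ^ k :=
          mul_le_mul (mul_le_mul_of_nonneg_right (hx i) (Nat.cast_nonneg _)) h1
            (pow_nonneg (le_max_of_le_left (abs_nonneg _)) _) (by positivity)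
      _ = k * (R + 1) ^ k * δ := by ring

theorem lipschitz (F : ZP) {D : ℕ} (hD : F.totalDegree ≤ D) (x z : ℕ → ℝ) {R δ : ℝ} (hR : 0 ≤ R)
    (hδ : 0 ≤ δ) (hδ1 : δ ≤ 1) (hz : ∀ i, |z i| ≤ R) (hx : ∀ i, |x i - z i| ≤ δ) :
    |aeval x F - aeval z F| ≤ nrm F * D * (R + 1) ^ D * δ := by
  conv_lhs => rw [F.as_sum, map_sum, map_sum, ← Finset.sum_sub_distrib]
  rw [nrm, Nat.cast_sum, Finset.sum_mul, Finset.sum_mul, Finset.sum_mul]
  refine (Finset.abs_sum_le_sum_abs _ _).trans (Finset.sum_le_sum fun m hm => ?_)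
  have h1 := (RootBd.lip_mono x z hR hδ hδ1 hz hx m).1
  have h2 : m.degree ≤ D := (le_totalDegree hm).trans hD
  rw [← mul_one (coeff m F), ← C_mul_monomial, map_mul, map_mul, aeval_C, aeval_C, ← mul_sub,
    abs_mul, mul_one, eq_intCast, ← Int.cast_abs, ← Int.natCast_natAbs, Int.cast_natCast,
    mul_assoc, mul_assoc]
  refine mul_le_mul_of_nonneg_left (h1.trans ?_) (Nat.cast_nonneg _)
  rw [← mul_assoc]
  refine mul_le_mul_of_nonneg_right ?_ hδ
  exact mul_le_mul (by exact_mod_cast h2) (pow_le_pow_right₀ (by linarith) h2) (by positivity)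
    (Nat.cast_nonneg _)

end Vale.Agent.P337
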