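import Vale.Agent.P337.Norm
import Vale.Agent.P337.RootBd
import Vale.Agent.P337.Iso

/-!
Rational approximations of one of the numbers `u x j` are quotients of nice constants.

Plan. (1) `h`: apply `HasNorm` twice to `y - U + W` and `root_bound`. (2) inner level: variables
`W = X 0, U = X 1, I = X 2`, `v = 2 ^ h (s + I) (U - W)`; `Bn = norm (Qp + Qm)`,
`An = wsum (Qp, Qp + Qm)`, so `An / Bn = rho`. (3) outer level, variables `U = X 0, I = X 1`:
`Φ = (4 d² Bn² - (2 An - κ Bn)²) ^ L`, `Ψ = (Bn²) ^ L`, `a = wsum (U Φ, Ψ)`, `b = wsum (Φ, Ψ)`.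
(4) `conj F = sub 1 1 (fun _ => - X 0) F`, `reI e F = ∑ k ≤ e, (-1) ^ k ext1 (2 k) F`;
`num = reI (a * conj b)`, `den = reI (b * conj b)`.
-/

namespace Vale.Agent.P337

open Vale.Agent.Lib.H23 Enc MvPolynomial

variable {α : Type} [Enc α]

open Finset

/-- real part of the value at `X 0 = I` -/
noncomputable def reI (e : ℕ) (F : ZP) : ZP := ∑ k ∈ range (e + 1), (-1) ^ k * ext1 (2 * k) F

/-- `X 0 ↦ - X 0` -/
noncomputable def cj (F : ZP) : ZP := sub 1 1 (fun _ => - X 0) F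

theorem re_sum (a : ℕ → ℤ) (m : ℕ) :
    (∑ k ∈ range (2 * m), (a k : ℂ) * Complex.I ^ k).re
      = ((∑ k ∈ range m, (-1) ^ k * a (2 * k) : ℤ) : ℝ) := by
  induction m with
  | zero => simp
  | succ m ih =>
    rw [Nat.mul_succ, sum_range_succ, sum_range_succ, sum_range_succ, Complex.add_re,
      Complex.add_re, ih, pow_succ, pow_mul, Complex.I_sq]
    rcases neg_one_pow_eq_or ℤ m with h | h
    · have h' : (-1 : ℂ) ^ m = 1 := by exact_mod_cast h
      rw [h, h']; simp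
    · have h' : (-1 : ℂ) ^ m = -1 := by exact_mod_cast h
      rw [h, h']; simp

theorem reI_eq {e : ℕ} {F : ZP} (h : F.totalDegree ≤ e) :
    ((constantCoeff (reI e F) : ℤ) : ℝ) = (aeval (cons Complex.I fun _ => 0) F).re := by
  have h1 : (spec1 (fun _ => (0 : ℂ)) F).natDegree < 2 * (e + 1) := by
    have := natDegree_spec1 (fun _ => (0 : ℂ)) F
    omega
  rw [← eval_spec1, Polynomial.eval_eq_sum_range' h1]
  simp only [← aeval_ext1, aeval_zero_eq]
  rw [re_sum, reI, map_sum]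
  simp only [map_mul, map_pow, map_neg, map_one]

theorem aeval_cj (F : ZP) : aeval (cons Complex.I fun _ => 0) (cj F)
    = (starRingEnd ℂ) (aeval (cons Complex.I fun _ => 0) F) := by
  rw [cj, aeval_sub]
  induction F using MvPolynomial.induction_on with
  | C a => simp
  | add p q hp hq => rw [map_add, map_add, map_add, hp, hq]
  | mul_X p i hp =>
    rw [map_mul, map_mul, map_mul, hp, aeval_X, aeval_X]
    rcases i with _ | i <;> simp [cons]

theorem nice_reI {e : α → ℕ} {F : α → ZP} (he : PT e) (hF : Nice F) :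
    Nice (fun x => reI (e x) (F x)) :=
  Nice.sumC ((Nice.one.neg.pow (by fun_prop)).mul (hF.fst.ext1 (by fun_prop))) (by fun_prop)

theorem nice_cj {F : α → ZP} (hF : Nice F) : Nice (fun x => cj (F x)) :=
  hF.subC (Nice.X 0).neg (Un.const 1) (PT.const 1)

theorem exists_re_div {a b : α → ZP} (ha : Nice a) (hb : Nice b) :
    ∃ num den : α → ZP, Nice num ∧ Nice den ∧ ∀ x, 0 ≤ constantCoeff (den x) ∧
      (aeval (cons Complex.I fun _ => 0) (b x) ≠ 0 → 0 < constantCoeff (den x) ∧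
        ((constantCoeff (num x) : ℤ) : ℝ) / ((constantCoeff (den x) : ℤ) : ℝ) =
        (aeval (cons Complex.I fun _ => 0) (a x) / aeval (cons Complex.I fun _ => 0) (b x)).re) := by
  have h1 := ha.mul (nice_cj hb)
  have h2 := hb.mul (nice_cj hb)
  obtain ⟨e1, p1, b1⟩ := h1.bound
  obtain ⟨e2, p2, b2⟩ := h2.bound
  refine ⟨_, _, nice_reI p1 h1, nice_reI p2 h2, fun x => ?_⟩
  have k1 := reI_eq (b1 x).1
  have k2 := reI_eq (b2 x).1
  rw [map_mul, aeval_cj] at k1 k2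
  rw [Complex.mul_conj, Complex.ofReal_re] at k2
  refine ⟨?_, fun hne => ⟨?_, ?_⟩⟩
  · have := Complex.normSq_nonneg (aeval (cons Complex.I fun _ => 0) (b x))
    rw [← k2] at this
    exact_mod_cast this
  · have := Complex.normSq_pos.2 hne
    rw [← k2] at this
    exact_mod_cast this
  · rw [k1, k2, Complex.div_re, Complex.mul_re, Complex.conj_re, Complex.conj_im]
    ring

theorem HasNorm.sep {d : α → ℕ} {c : α → ℂ} {u : ∀ x, Fin (d x) → ℂ} (hc : ∀ x, c x ≠ 0)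
    (hN : HasNorm d c u) : ∃ h : α → ℕ, PT h ∧ ∀ x j j', ‖u x j - u x j'‖ ≤ 2 ^ h x ∧
      (u x j ≠ u x j' → 1 ≤ 2 ^ h x * ‖u x j - u x j'‖) := by
  obtain ⟨N1, n1, e1⟩ := hN _ (((Nice.X 2).sub' (Nice.X 1)).add (Nice.X 0))
  obtain ⟨N2, n2, e2⟩ := hN _ n1
  obtain ⟨e, pe, be⟩ := n2.bound
  refine ⟨e, pe, fun x j j' => ?_⟩
  have ev : ∀ y : ℂ, aeval (cons y fun _ => 0) (N2 x)
      = c x * ∏ a, (c x * ∏ b, (y - u x a + u x b)) := by
    intro y
    rw [e2]
    congr 1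
    refine prod_congr rfl fun a _ => ?_
    rw [e1]
    congr 1
    refine prod_congr rfl fun b _ => ?_
    simp [cons]
  classical
  obtain ⟨y, hy⟩ := Infinite.exists_notMem_finset
    ((univ : Finset (Fin (d x) × Fin (d x))).image fun p => u x p.1 - u x p.2)
  have hy' : aeval (cons y fun _ => 0) (N2 x) ≠ 0 := by
    rw [ev]
    refine mul_ne_zero (hc x) (prod_ne_zero_iff.2 fun a _ => mul_ne_zero (hc x)
      (prod_ne_zero_iff.2 fun b _ h0 => hy (mem_image.2 ⟨(a, b), mem_univ _, ?_⟩)))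
    linear_combination -h0
  have hv : aeval (cons (u x j - u x j') fun _ => 0) (N2 x) = 0 := by
    rw [ev, prod_eq_zero (mem_univ j), mul_zero]
    rw [prod_eq_zero (mem_univ j') (by ring), mul_zero]
  have := root_bound (N2 x) (be x).2 hy' hv
  push_cast at this
  exact ⟨this.1, fun h => this.2 (sub_ne_zero.2 h)⟩

theorem map_Qp {R S : Type} [CommRing R] [CommRing S] (f : R →+* S) (d h : ℕ) (v : R) :
    f (Qp d h v) = Qp d h (f v) := by
  simp [Qp, map_prod, map_ofNat]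

theorem map_Qm {R S : Type} [CommRing R] [CommRing S] (f : R →+* S) (d h : ℕ) (v : R) :
    f (Qm d h v) = Qm d h (f v) := by
  simp [Qm, map_prod, map_ofNat]

theorem pt_sq {d : α → ℕ} (hd : PT d) : PT (fun x => d x ^ 2) := (Un.const 2).pow hd

theorem pt_lam {d : α → ℕ} (hd : PT d) : PT (fun x => lam (d x)) := by
  have := pt_sq hd
  unfold lam
  exact PT.mul (PT.add (PT.mul (PT.const 2) this) (PT.const 3)) (PT.add this (PT.const 1))

theorem nice_Qp {d h : α → ℕ} {V : α → ZP} (hd : PT d) (hh : PT h) (hV : Nice V) :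
    Nice (fun x => Qp (d x) (h x) (V x)) :=
  (Nice.prodC (hV.fst.add (Nice.two.pow (by fun_prop)))
    (PT.add (PT.add (by fun_prop) (pt_sq hd)) (PT.const 1))).pow
    (PT.mul (by fun_prop) (pt_lam hd))

theorem nice_Qm {d h : α → ℕ} {V : α → ZP} (hd : PT d) (hh : PT h) (hV : Nice V) :
    Nice (fun x => Qm (d x) (h x) (V x)) :=
  (Nice.prodC (hV.fst.sub' (Nice.two.pow (by fun_prop)))
    (PT.add (PT.add (by fun_prop) (pt_sq hd)) (PT.const 1))).pow
    (PT.mul (by fun_prop) (pt_lam hd))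

theorem isolate {d s κ E : α → ℕ} {c : α → ℂ} {u : ∀ x, Fin (d x) → ℂ} (hd : PT d) (hs : PT s)
    (hκ : PT κ) (hE : PT E) (hc : ∀ x, c x ≠ 0) (hN : HasNorm d c u) :
    ∃ num den : α → ZP, Nice num ∧ Nice den ∧ ∀ x, 0 ≤ constantCoeff (den x) ∧
      ∀ j0, s x ≤ d x ^ 2 → Sector (u x) (s x) → κ x = rank2 (u x) (s x) j0 →
        0 < constantCoeff (den x) ∧
        |((constantCoeff (num x) : ℤ) : ℝ) / ((constantCoeff (den x) : ℤ) : ℝ) - (u x j0).re|
          ≤ 1 / 2 ^ E x := by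
  obtain ⟨h, ph, bh⟩ := hN.sep hc
  have hV : Nice (fun x => (2 : ZP) ^ h x * ((s x : ZP) + X 2) * (X 1 - X 0)) :=
    ((Nice.two.pow ph).mul ((Nice.nat hs).add (Nice.X 2))).mul ((Nice.X 1).sub' (Nice.X 0))
  have hP := nice_Qp hd ph hV
  have hS := hP.add (nice_Qm hd ph hV)
  obtain ⟨Bn, nB, eB⟩ := hN _ hS
  obtain ⟨An, nA, eA⟩ := hN.wsum hP hS
  have hL : PT (fun x => 4 * d x ^ 2 * (h x + E x + d x + 1)) :=
    PT.mul (PT.mul (PT.const 4) (pt_sq hd)) (by fun_prop)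
  have hΨ := (nB.pow (PT.const 2)).pow hL
  have hΦ := (((Nice.nat (PT.mul (PT.const 4) (pt_sq hd))).mul (nB.pow (PT.const 2))).sub'
    (((Nice.two.mul nA).sub' ((Nice.nat hκ).mul nB)).pow (PT.const 2))).pow hL
  obtain ⟨a, na, ea⟩ := hN.wsum ((Nice.X 0).mul hΦ) hΨ
  obtain ⟨b, nb, eb⟩ := hN.wsum hΦ hΨ
  obtain ⟨num, den, n1, n2, e⟩ := exists_re_div na nb
  refine ⟨num, den, n1, n2, fun x => ⟨(e x).1, fun j0 hs' hSec hk => ?_⟩⟩
  obtain ⟨i1, i2, i3⟩ := iso_core (u x) (h x) (s x) (E x) hs' hSec (bh x) j0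
  rw [← hk] at i2 i3
  set φ : ℕ → ℂ := cons Complex.I fun _ => 0 with hφ
  have eV : ∀ A W : ℂ, aeval (cons W (cons A φ))
      ((2 : ZP) ^ h x * ((s x : ZP) + X 2) * (X 1 - X 0)) = dif (h x) (s x) A W := by
    intro A W
    simp [cons, dif, hφ, map_ofNat]
  have eP : ∀ A W : ℂ, aeval (cons W (cons A φ))
      (Qp (d x) (h x) ((2 : ZP) ^ h x * ((s x : ZP) + X 2) * (X 1 - X 0)))
      = Qp (d x) (h x) (dif (h x) (s x) A W) := fun A W =>
    (map_Qp (aeval (cons W (cons A φ)) : ZP →ₐ[ℤ] ℂ).toRingHom _ _ _).trans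
      (congrArg _ (eV A W))
  have eM : ∀ A W : ℂ, aeval (cons W (cons A φ))
      (Qm (d x) (h x) ((2 : ZP) ^ h x * ((s x : ZP) + X 2) * (X 1 - X 0)))
      = Qm (d x) (h x) (dif (h x) (s x) A W) := fun A W =>
    (map_Qm (aeval (cons W (cons A φ)) : ZP →ₐ[ℤ] ℂ).toRingHom _ _ _).trans
      (congrArg _ (eV A W))
  have hB0 : ∀ j, aeval (cons (u x j) φ) (Bn x) ≠ 0 := by
    intro j
    rw [eB]
    refine mul_ne_zero (hc x) (prod_ne_zero_iff.2 fun j' _ => ?_)
    rw [map_add, eP, eM]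
    exact i1 j j'
  have hA : ∀ j, aeval (cons (u x j) φ) (An x)
      = aeval (cons (u x j) φ) (Bn x) * rho (u x) (h x) (s x) (u x j) := by
    intro j
    rw [eA x _ (fun j' => by rw [map_add, eP, eM]; exact i1 j j'), eB, rho]
    simp only [map_add, eP, eM]
  have hΨ0 : ∀ j, aeval (cons (u x j) φ) ((Bn x ^ 2) ^ (4 * d x ^ 2 * (h x + E x + d x + 1))) ≠ 0 :=
    fun j => by rw [map_pow, map_pow]; exact pow_ne_zero _ (pow_ne_zero _ (hB0 j))
  have hw : ∀ j, aeval (cons (u x j) φ) ((((4 * d x ^ 2 : ℕ) : ZP) * Bn x ^ 2 -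
      (2 * An x - (κ x : ZP) * Bn x) ^ 2) ^ (4 * d x ^ 2 * (h x + E x + d x + 1))) /
      aeval (cons (u x j) φ) ((Bn x ^ 2) ^ (4 * d x ^ 2 * (h x + E x + d x + 1)))
      = wt (u x) (h x) (s x) (κ x) (E x) (u x j) := by
    intro j
    rw [map_pow, map_pow, ← div_pow, wt]
    congr 1
    simp only [map_sub, map_mul, map_pow, map_natCast, map_ofNat, hA]
    have := hB0 j
    push_cast
    field_simp
  have ea' := ea x φ hΨ0
  have eb' := eb x φ hΨ0
  simp only [map_mul, aeval_X, mul_div_assoc] at ea'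
  simp only [hw] at ea' eb'
  have hpre : c x * ∏ j, aeval (cons (u x j) φ)
      ((Bn x ^ 2) ^ (4 * d x ^ 2 * (h x + E x + d x + 1))) ≠ 0 :=
    mul_ne_zero (hc x) (prod_ne_zero_iff.2 fun j _ => hΨ0 j)
  have hb0 : aeval φ (b x) ≠ 0 := by rw [eb']; exact mul_ne_zero hpre i2
  obtain ⟨k1, k2⟩ := (e x).2 hb0
  refine ⟨k1, ?_⟩
  rw [k2, ea', eb', mul_div_mul_left _ _ hpre, ← Complex.sub_re]
  exact (Complex.abs_re_le_norm _).trans i3

end Vale.Agent.P337
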