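import Vale.Agent.P337.PTx
import Vale.Agent.P337.Defs

/-!
TASK Parse. Decoding of formulas and evaluation under a guessed sign vector.

Plan. `parse : List Bool → Tr` (stack machine, fold from the right), `ser` is PT (adapt
`PT.szUnary`), typed decoders `Tr → α` with `dec (enc x) = x`; `Formula.code F = ser (enc (raw tokens))`.
`check` tests `s = ser (enc (toks s))` and runs the Boolean stack machine over the tokens annotated
with the digits `dig 3 w j` (operators must carry the empty polynomial), final stack `[true]`.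
Show by induction on the token list: a successful run means that the list is a concatenation of token
lists of formulas and the stack holds their truth values.
-/

namespace Vale.Agent.P337

open Vale.Agent.Lib.H23 Enc

/-- polynomials with exponents in unary -/
abbrev RPoly : Type := List (ℤ × List (List Unit))

/-- forget the unary representation -/
def RPoly.toPoly (p : RPoly) : Poly := p.map fun m => (m.1, m.2.map List.length)

/-- sign code: `0` for zero, `1` for positive, `2` for negative -/
noncomputable def sg (r : ℝ) : ℕ := if r = 0 then 0 else if 0 < r then 1 else 2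

section Decode

/-- decoders of trees with a validity flag -/
def Dec (α : Type) [Enc α] : Prop :=
  ∃ d : Tr → Bool × α, PT d ∧ (∀ t, (d t).1 = true → enc (d t).2 = t) ∧ ∀ x, d (enc x) = (true, x)

theorem pt_toList {α : Type} [Enc α] {f : α → Tr} (hf : PT f) : PT (fun x => (f x).toList) :=
  PT.comp (PT.retag enc_toList) hf

theorem pt_encL {α : Type} [Enc α] {f : α → List Tr} (hf : PT f) :
    PT (fun x => (enc (f x) : Tr)) := hf.of_enc fun _ => rfl

theorem pt_node {α : Type} [Enc α] {f g : α → Tr} (hf : PT f) (hg : PT g) :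
    PT (fun x => Tr.node (f x) (g x)) := (PT.pair hf hg).of_enc fun _ => rfl

attribute [local fun_prop] pt_toList pt_encL pt_node

theorem dec_unit : Dec Unit := by
  refine ⟨fun t => (t.toList.isEmpty, ()), by fun_prop, fun t h => ?_, fun _ => rfl⟩
  cases t with
  | nil => rfl
  | node a b => simp [Tr.toList] at h

theorem dec_bool : Dec Bool := by
  refine ⟨fun t => ((t.toList.headD Tr.nil).toList.isEmpty && t.toList.tail.isEmpty,
    !t.toList.isEmpty), by fun_prop, fun t h => ?_, fun x => by cases x <;> rfl⟩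
  cases t with
  | nil => rfl
  | node a b => cases a <;> cases b <;> simp_all [Tr.toList, enc_true]

theorem dec_pair {α β : Type} [Enc α] [Enc β] (h1 : Dec α) (h2 : Dec β) : Dec (α × β) := by
  obtain ⟨d, hd, d1, d2⟩ := h1
  obtain ⟨e, he, e1, e2⟩ := h2
  refine ⟨fun t => (!t.toList.isEmpty && ((d (t.toList.headD Tr.nil)).1 &&
    (e (enc t.toList.tail)).1), ((d (t.toList.headD Tr.nil)).2, (e (enc t.toList.tail)).2)),
    by fun_prop, fun t h => ?_, fun x => ?_⟩
  · cases t with
    | nil => simp [Tr.toList] at h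
    | node a b =>
      simp only [Tr.toList, List.headD_cons, List.tail_cons, enc_toList, List.isEmpty_cons,
        Bool.not_false, Bool.true_and, Bool.and_eq_true] at h ⊢
      rw [enc_pair, d1 a h.1, e1 b h.2]
  · obtain ⟨a, b⟩ := x
    simp only [enc_pair, Tr.toList, List.headD_cons, List.tail_cons, enc_toList, d2, e2]
    rfl

theorem toList_enc' {α : Type} [Enc α] (l : List α) : (enc l).toList = l.map enc := by
  induction l with
  | nil => rfl
  | cons a l ih => rw [enc_cons, Tr.toList, ih]; rfl

theorem dec_list {α : Type} [Enc α] (h1 : Dec α) : Dec (List α) := by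
  obtain ⟨d, hd, d1, d2⟩ := h1
  refine ⟨fun t => (t.toList.all (fun a => (d a).1), t.toList.map (fun a => (d a).2)),
    PT.pair (PT.all (f := fun _ a => (d a).1) (by fun_prop) (by fun_prop))
      (PT.map (f := fun _ a => (d a).2) (by fun_prop) (by fun_prop)), fun t h => ?_, fun x => ?_⟩
  · induction t with
    | nil => rfl
    | node a b _ ih =>
      simp only [Tr.toList, List.all_cons, Bool.and_eq_true, List.map_cons] at h ih ⊢
      rw [enc_cons, d1 a h.1, ih h.2]
  · simp [toList_enc', d2, Function.comp_def]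

theorem valMSB_snoc (l : List Bool) (b : Bool) : valMSB (l ++ [b]) = Nat.bit b (valMSB l) := by
  simp [valMSB, List.foldl_append]

theorem bits_valMSB (l : List Bool) (h : l.reverse.headD true = true) :
    (valMSB l.reverse).bits = l := by
  induction l with
  | nil => simp [valMSB]
  | cons b l ih =>
    rw [List.reverse_cons, valMSB_snoc]
    cases l with
    | nil =>
      have hb : b = true := by simpa using h
      subst hb
      rfl
    | cons c l =>
      have h' : (c :: l).reverse.headD true = true := by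
        rw [List.reverse_cons (a := b)] at h
        cases hr : (c :: l).reverse with
        | nil => simp at hr
        | cons u v => rw [hr] at h; simpa using h
      have ih' := ih h'
      rw [Nat.bits_append_bit _ _ (fun h0 => by rw [h0] at ih'; simp at ih'), ih']

theorem bits_reverse_headD (n : ℕ) : n.bits.reverse.headD true = true := by
  induction n using Nat.binaryRec' with
  | zero => simp
  | bit b n h ih =>
    rw [Nat.bits_append_bit n b h, List.reverse_cons]
    cases hr : n.bits.reverse with
    | nil =>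
      have : n = 0 := bits_eq_nil.1 (by simpa using hr)
      simpa using h this
    | cons u v => rw [hr] at ih; simpa using ih

theorem dec_nat : Dec ℕ := by
  obtain ⟨d, hd, d1, d2⟩ := dec_list dec_bool
  refine ⟨fun t => ((d t).1 && (d t).2.reverse.headD true, valMSB (d t).2.reverse),
    by fun_prop, fun t h => ?_, fun x => ?_⟩
  · simp only [Bool.and_eq_true] at h
    rw [enc_nat, bits_valMSB _ h.2, d1 t h.1]
  · simp only [enc_nat, d2, bits_reverse_headD, valMSB_reverse_bits]
    rfl

theorem dec_int : Dec ℤ := by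
  obtain ⟨d, hd, d1, d2⟩ := dec_pair dec_bool dec_nat
  refine ⟨fun t => ((d t).1 && !((d t).2.1 && eqb (d t).2.2 0),
    bif (d t).2.1 then -(((d t).2.2 : ℕ) : ℤ) else (((d t).2.2 : ℕ) : ℤ)),
    by fun_prop, fun t h => ?_, fun x => ?_⟩
  · simp only [Bool.and_eq_true] at h
    refine Eq.trans ?_ (d1 t h.1)
    obtain ⟨-, h2⟩ := h
    simp only
    generalize (d t).2 = p at h2 ⊢
    rw [enc_int]
    obtain ⟨b, n⟩ := p
    cases b
    · have h3 : ¬ ((n : ℤ) < 0) := by omega
      simp [h3]
    · have : n ≠ 0 := by simpa using h2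
      have h3 : 0 < n := Nat.pos_of_ne_zero this
      simp [h3]
  · simp only [enc_int, d2]
    by_cases h : x < 0
    · have : x ≠ 0 := h.ne
      simp [h, this, abs_of_neg h]
    · simp [h, abs_of_nonneg (not_lt.1 h)]

/-- one step of the parser of serialized trees -/
def pstep (s : Bool × List Tr) (b : Bool) : Bool × List Tr :=
  bif b then (s.1 && !s.2.tail.isEmpty,
    Tr.node (s.2.headD Tr.nil) (s.2.tail.headD Tr.nil) :: s.2.tail.tail)
  else (s.1, Tr.nil :: s.2)

/-- the parser -/
def prun (s : List Bool) : Bool × List Tr := s.reverse.foldl pstep (true, [])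

theorem prun_cons (b : Bool) (s : List Bool) : prun (b :: s) = pstep (prun s) b := by
  simp [prun, List.foldl_append]

theorem pt_prun : PT prun := by
  refine PT.foldl' (f := fun _ s b => pstep s b) (by unfold pstep; fun_prop) (by fun_prop)
    (PT.const _) ⟨8, fun _ s b => ?_⟩
  obtain ⟨o, st⟩ := s
  have h1 := sz_pos o
  have h2 : ∀ a b : Tr, sz (Tr.node a b) = sz a + sz b + 1 := fun a b => Tr.size_node a b
  have h3 : sz Tr.nil = 1 := rfl
  have h4 := sz_bool o
  have h5 := sz_bool false
  cases b
  · simp [pstep, h3]; omega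
  · rcases st with _ | ⟨a, _ | ⟨b, r⟩⟩ <;> simp [pstep, h2, h3] <;> omega

theorem prun_ser (t : Tr) : ∀ r, prun (ser t ++ r) = ((prun r).1, t :: (prun r).2) := by
  induction t with
  | nil => intro r; exact prun_cons false r
  | node a b iha ihb =>
    intro r
    have e : ser (Tr.node a b) ++ r = true :: (ser a ++ (ser b ++ r)) := by simp [ser]
    rw [e, prun_cons, iha, ihb]
    simp [pstep]

theorem prun_ok (s : List Bool) (h : (prun s).1 = true) : s = (prun s).2.flatMap ser := by
  induction s with
  | nil => rfl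
  | cons b s ih =>
    rw [prun_cons] at h ⊢
    generalize prun s = p at h ih ⊢
    obtain ⟨o, st⟩ := p
    cases b
    · simp only [pstep, cond_false] at h ⊢
      rw [List.flatMap_cons, ← ih h]; rfl
    · rcases st with _ | ⟨a, _ | ⟨c, r⟩⟩
      · simp [pstep] at h
      · simp [pstep] at h
      · have ho : o = true := by simpa [pstep] using h
        rw [ih ho]
        simp [pstep, ser]

theorem exists_decoder {α : Type} [Enc α] (h : Dec α) : ∃ D : List Bool → Bool × α, PT D ∧
    (∀ s, (D s).1 = true → s = ser (enc (D s).2)) ∧ ∀ x, D (ser (enc x)) = (true, x) := by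
  obtain ⟨d, hd, d1, d2⟩ := h
  have hp := pt_prun
  refine ⟨fun s => ((prun s).1 && (!(prun s).2.isEmpty && ((prun s).2.tail.isEmpty &&
    (d ((prun s).2.headD Tr.nil)).1)), (d ((prun s).2.headD Tr.nil)).2), by fun_prop,
    fun s h => ?_, fun x => ?_⟩
  · simp only [Bool.and_eq_true] at h
    obtain ⟨h1, h2, h3, h4⟩ := h
    have h5 := prun_ok s h1
    rw [d1 _ h4]
    generalize (prun s).2 = st at h2 h3 h5 ⊢
    rcases st with _ | ⟨a, _ | ⟨c, r⟩⟩
    · simp at h2
    · simpa using h5
    · simp at h3
  · have e := prun_ser (enc x) []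
    rw [List.append_nil] at e
    simp only [e]
    simp [prun, d2]

end Decode

section Code

theorem ser_pair {α β α' β' : Type} [Enc α] [Enc β] {f : α' → List Bool} {g : β' → List Bool}
    {u : α → α'} {v : β → β'} (hf : ∀ a, ser (enc a) = f (u a)) (hg : ∀ b, ser (enc b) = g (v b))
    (p : α × β) : ser (enc p) = bPair f g (u p.1, v p.2) := by
  obtain ⟨a, b⟩ := p
  rw [enc_pair, ser, hf, hg]; rfl

theorem ser_list {α α' : Type} [Enc α] {f : α' → List Bool} {u : α → α'}
    (hf : ∀ a, ser (enc a) = f (u a)) (l : List α) : ser (enc l) = bList f (l.map u) := by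
  induction l with
  | nil => rfl
  | cons a l ih => rw [enc_cons, ser, hf, ih]; rfl

theorem ser_bool (b : Bool) : ser (enc b) = bBool b := by cases b <;> rfl

theorem ser_nat (n : ℕ) : ser (enc n) = bNat n := by
  rw [enc_nat, ser_list (u := id) ser_bool, List.map_id]; rfl

theorem ser_int (z : ℤ) : ser (enc z) = bInt z :=
  ser_pair (u := id) (v := id) ser_bool ser_nat _

theorem ser_unary (l : List Unit) : ser (enc l) = bUnary l.length := by
  induction l with
  | nil => rfl
  | cons a l ih => rw [enc_cons, ser, ih]; rfl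

/-- raw tokens to tokens -/
def toTok (t : ℕ × RPoly) : ℕ × Poly := (t.1, t.2.toPoly)

theorem ser_raw (l : List (ℕ × RPoly)) : ser (enc l) =
    bList (bPair bNat (bList (bPair bInt (bList bUnary)))) (l.map toTok) :=
  ser_list (ser_pair (u := id) (v := RPoly.toPoly) ser_nat (ser_list
    (u := fun m : ℤ × List (List Unit) => (m.1, m.2.map List.length))
    (ser_pair (u := id) (v := List.map List.length) ser_int (ser_list ser_unary)))) l

theorem toTok_surj (T : List (ℕ × Poly)) : ∃ l : List (ℕ × RPoly), l.map toTok = T := by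
  refine ⟨T.map fun t => (t.1, t.2.map fun m => (m.1, m.2.map fun n => List.replicate n ())), ?_⟩
  simp [toTok, RPoly.toPoly, Function.comp_def]

end Code

section Eval

/-- one step of the Boolean stack machine: symbol, emptiness of the polynomial, sign code -/
def estep (s : Bool × List Bool) (a : ℕ × Bool × ℕ) : Bool × List Bool :=
  bif eqb a.1 0 then (s.1, eqb a.2.2 0 :: s.2) else
  bif eqb a.1 1 then (s.1, eqb a.2.2 1 :: s.2) else
  bif eqb a.1 4 then (s.1 && (a.2.1 && !s.2.isEmpty), (!s.2.headD false) :: s.2.tail) else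
  (s.1 && (a.2.1 && (!s.2.tail.isEmpty && (eqb a.1 2 || eqb a.1 3))),
    (bif eqb a.1 2 then s.2.headD false && s.2.tail.headD false
      else s.2.headD false || s.2.tail.headD false) :: s.2.tail.tail)

/-- the Boolean stack machine -/
def erun (l : List (ℕ × Bool × ℕ)) : Bool × List Bool := l.reverse.foldl estep (true, [])

theorem erun_cons (a : ℕ × Bool × ℕ) (l : List (ℕ × Bool × ℕ)) :
    erun (a :: l) = estep (erun l) a := by
  simp [erun, List.foldl_append]

theorem pt_erun : PT erun := by
  refine PT.foldl' (f := fun _ s b => estep s b) (by unfold estep; fun_prop) (by fun_prop)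
    (PT.const _) ⟨8, fun _ s a => ?_⟩
  have key : ∀ (o b : Bool) (l : List Bool), sz l ≤ sz s.2 → sz (o, b :: l) ≤ sz s + 8 := by
    intro o b l hl
    have h1 := sz_bool o
    have h2 := sz_bool b
    have h3 := sz_prod s
    simp only [sz_pair, sz_cons]
    omega
  have t1 := sz_tail_le s.2
  have t2 := sz_tail_le s.2.tail
  simp only [Polynomial.eval_ofNat]
  unfold estep
  cases eqb a.1 0
  · cases eqb a.1 1
    · cases eqb a.1 4
      · exact key _ _ _ (t2.trans t1)
      · exact key _ _ _ t1
    · exact key _ _ _ le_rfl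
  · exact key _ _ _ le_rfl

/-- a token marked with the sign at `x` -/
noncomputable def ann (x : ℕ → ℝ) (t : ℕ × Poly) : ℕ × Bool × ℕ :=
  (t.1, t.2.isEmpty, sg (evalPoly t.2 x))

theorem sg_eq_zero (r : ℝ) : sg r = 0 ↔ r = 0 := by
  unfold sg; split_ifs <;> simp_all

theorem sg_eq_one (r : ℝ) : sg r = 1 ↔ 0 < r := by
  unfold sg; split_ifs <;> simp_all

theorem sg_lt (r : ℝ) : sg r < 3 := by
  unfold sg; split_ifs <;> omega

open Classical in
/-- the truth value -/
noncomputable def tv (x : ℕ → ℝ) (F : Formula) : Bool := decide (F.Holds x)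

theorem tv_iff (x : ℕ → ℝ) (F : Formula) : tv x F = true ↔ F.Holds x := by
  simp [tv]

theorem tv_eq (x : ℕ → ℝ) (p : Poly) : tv x (.eq p) = eqb (sg (evalPoly p x)) 0 := by
  rw [Bool.eq_iff_iff]; simp [tv_iff, Formula.Holds, sg_eq_zero]

theorem tv_pos (x : ℕ → ℝ) (p : Poly) : tv x (.pos p) = eqb (sg (evalPoly p x)) 1 := by
  rw [Bool.eq_iff_iff]; simp [tv_iff, Formula.Holds, sg_eq_one]

theorem tv_and (x : ℕ → ℝ) (a b : Formula) : tv x (.and a b) = (tv x a && tv x b) := by
  rw [Bool.eq_iff_iff]; simp [tv_iff, Formula.Holds]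

theorem tv_or (x : ℕ → ℝ) (a b : Formula) : tv x (.or a b) = (tv x a || tv x b) := by
  rw [Bool.eq_iff_iff]; simp [tv_iff, Formula.Holds]

theorem tv_not (x : ℕ → ℝ) (a : Formula) : tv x (.not a) = !tv x a := by
  rw [Bool.eq_iff_iff, tv_iff, Formula.Holds, ← tv_iff]; simp

theorem erun_tokens (x : ℕ → ℝ) (F : Formula) : ∀ r,
    erun (F.tokens.map (ann x) ++ r) = ((erun r).1, tv x F :: (erun r).2) := by
  induction F with
  | eq p => intro r; rw [tv_eq]; exact erun_cons _ r
  | pos p => intro r; rw [tv_pos]; exact erun_cons _ r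
  | and a b iha ihb =>
    intro r
    simp only [Formula.tokens, List.map_cons, List.map_append, List.cons_append,
      List.append_assoc, erun_cons, iha, ihb, tv_and]
    simp [estep, ann]
  | or a b iha ihb =>
    intro r
    simp only [Formula.tokens, List.map_cons, List.map_append, List.cons_append,
      List.append_assoc, erun_cons, iha, ihb, tv_or]
    simp [estep, ann]
  | not a iha =>
    intro r
    simp only [Formula.tokens, List.map_cons, List.cons_append, erun_cons, iha, tv_not]
    simp [estep, ann]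

theorem erun_ok (x : ℕ → ℝ) (T : List (ℕ × Poly)) (h : (erun (T.map (ann x))).1 = true) :
    ∃ Fs : List Formula, T = Fs.flatMap Formula.tokens ∧
      (erun (T.map (ann x))).2 = Fs.map (tv x) := by
  induction T with
  | nil => exact ⟨[], rfl, rfl⟩
  | cons t T ih =>
    rw [List.map_cons, erun_cons] at h ⊢
    obtain ⟨k, p⟩ := t
    generalize erun (T.map (ann x)) = s at h ih ⊢
    obtain ⟨o, st⟩ := s
    by_cases h0 : k = 0
    · subst h0
      obtain ⟨Fs, h1, h2⟩ := ih h
      exact ⟨.eq p :: Fs, by rw [h1]; rfl, by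
        rw [List.map_cons, tv_eq, ← h2]; rfl⟩
    by_cases h1 : k = 1
    · subst h1
      obtain ⟨Fs, h1, h2⟩ := ih h
      exact ⟨.pos p :: Fs, by rw [h1]; rfl, by
        rw [List.map_cons, tv_pos, ← h2]; rfl⟩
    by_cases h4 : k = 4
    · subst h4
      simp only [estep, ann, eqb_eq] at h ⊢
      simp at h
      obtain ⟨ho, rfl, hst⟩ := h
      obtain ⟨Fs, h1, h2⟩ := ih ho
      simp only at h2
      subst h2
      rcases Fs with _ | ⟨a, Fs⟩
      · simp at hst
      · exact ⟨.not a :: Fs, by rw [h1]; rfl, by simp [tv_not]⟩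
    simp only [estep, ann, eqb_eq, h0, h1, h4, decide_false, cond_false] at h ⊢
    simp only [Bool.and_eq_true, Bool.or_eq_true, decide_eq_true_eq, List.isEmpty_iff] at h
    obtain ⟨ho, rfl, hst, hk⟩ := h
    obtain ⟨Fs, h5, h2⟩ := ih ho
    simp only at h2
    subst h2
    rcases Fs with _ | ⟨a, _ | ⟨b, Fs⟩⟩
    · simp at hst
    · simp at hst
    · rcases hk with rfl | rfl
      · exact ⟨.and a b :: Fs, by rw [h5]; simp [Formula.tokens], by simp [tv_and]⟩
      · exact ⟨.or a b :: Fs, by rw [h5]; simp [Formula.tokens], by simp [tv_or]⟩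

/-- tokens marked with guessed digits -/
def annW (l : List (ℕ × RPoly)) (w : ℕ) : List (ℕ × Bool × ℕ) :=
  List.zipWith (fun t j => (t.1, t.2.isEmpty, dig 3 w j)) l (List.range l.length)

theorem annW_eq (l : List (ℕ × RPoly)) (w : ℕ) (x : ℕ → ℝ)
    (h : ∀ j < (l.map Prod.snd).length,
      sg (evalPoly (RPoly.toPoly ((l.map Prod.snd).getD j [])) x) = dig 3 w j) :
    annW l w = (l.map toTok).map (ann x) := by
  refine List.ext_getElem (by simp [annW]) fun j h1 h2 => ?_
  have hj : j < l.length := by simpa using h2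
  have h3 := h j (by simpa using hj)
  rw [List.getD_eq_getElem _ _ (by simpa using hj), List.getElem_map] at h3
  simp [annW, ann, toTok, ← h3, RPoly.toPoly]

end Eval

theorem exists_check : ∃ (toks : List Bool → List RPoly) (check : List Bool × ℕ → Bool),
    PT toks ∧ PT check ∧ ∀ s, s ∈ ETR ↔ ∃ w < 3 ^ (toks s).length, check (s, w) = true ∧
      ∃ x : ℕ → ℝ, ∀ j < (toks s).length,
        sg (evalPoly ((toks s).getD j []).toPoly x) = dig 3 w j := by
  obtain ⟨D, hD, D1, D2⟩ := exists_decoder (α := List (ℕ × RPoly))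
    (dec_list (dec_pair dec_nat (dec_list (dec_pair dec_int (dec_list (dec_list dec_unit))))))
  have hA : PT (fun p : List Bool × ℕ => annW (D p.1).2 p.2) :=
    PT.zipWith (f := fun (p : List Bool × ℕ) (t : ℕ × RPoly) j => (t.1, t.2.isEmpty, dig 3 p.2 j))
      (by fun_prop) (by fun_prop) (Un.range (Un.length (by fun_prop)))
  have hE : PT (fun p : List Bool × ℕ => erun (annW (D p.1).2 p.2)) := PT.comp pt_erun hA
  refine ⟨fun s => (D s).2.map Prod.snd, fun p => (D p.1).1 && ((erun (annW (D p.1).2 p.2)).1 &&
    ((erun (annW (D p.1).2 p.2)).2.headD false && (erun (annW (D p.1).2 p.2)).2.tail.isEmpty)),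
    PT.map (f := fun _ (t : ℕ × RPoly) => t.2) (by fun_prop) (by fun_prop),
    PT.and (by fun_prop) (PT.and hE.fst (PT.and (hE.snd.headD (PT.const _)) hE.snd.tail.isEmpty)),
    fun s => ⟨?_, ?_⟩⟩
  · rintro ⟨F, rfl, x, hx⟩
    obtain ⟨l, hl⟩ := toTok_surj F.tokens
    have e : F.code = ser (enc l) := by rw [ser_raw, hl]; rfl
    simp only [e, D2]
    obtain ⟨w, hw, hd⟩ := exists_dig (b := 3) (n := (l.map Prod.snd).length)
      (fun j => sg (evalPoly (RPoly.toPoly ((l.map Prod.snd).getD j [])) x)) fun _ _ => sg_lt _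
    refine ⟨w, hw, ?_, x, fun j hj => (hd j hj).symm⟩
    have h1 := erun_tokens x F []
    rw [List.append_nil] at h1
    rw [annW_eq l w x fun j hj => (hd j hj).symm, hl, h1]
    simp [erun, tv, hx]
  · rintro ⟨w, -, hc, x, hx⟩
    simp only [Bool.and_eq_true] at hc
    obtain ⟨h1, h2, h3, h4⟩ := hc
    rw [annW_eq _ w x hx] at h2 h3 h4
    obtain ⟨Fs, e1, e2⟩ := erun_ok x _ h2
    rw [e2] at h3 h4
    rcases Fs with _ | ⟨F, _ | ⟨G, Fs⟩⟩
    · simp at h3
    · refine ⟨F, ?_, x, by simpa [tv] using h3⟩
      rw [D1 s h1, ser_raw, e1]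
      simp [Formula.code]
    · simp at h4

end Vale.Agent.P337
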