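import Vale.Agent.P337.Core
import Vale.Agent.P337.Parse
import Vale.Agent.P337.Bridge

/-!
Sign conditions as one sum of squares; assembly.
-/

namespace Vale.Agent.P337

open Vale.Agent.Lib.H23 Enc MvPolynomial

open Finset

/-- a monomial as an integer polynomial -/
noncomputable def monZP (m : ℤ × List (List Unit)) : ZP :=
  C m.1 * ∏ i ∈ range m.2.length, X i ^ (m.2.getD i []).length

/-- a list of monomials as an integer polynomial -/
noncomputable def toZP (p : RPoly) : ZP := ∑ j ∈ range p.length, monZP (p.getD j (0, []))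

/-- the target value of a sign code -/
def eps (σ : ℕ) : ℤ := if σ = 0 then 0 else if σ = 1 then 1 else -1

/-- the sum of squares -/
noncomputable def SQ (z : List RPoly × ℕ) : ZP :=
  ∑ j ∈ range z.1.length, (toZP (z.1.getD j []) *
    (if dig 3 z.2 j = 0 then 1 else X (sz z + j) ^ 2) - C (eps (dig 3 z.2 j))) ^ 2

theorem sum_getD {β M : Type} [AddCommMonoid M] (l : List β) (d : β) (f : β → M) :
    ∑ j ∈ range l.length, f (l.getD j d) = (l.map f).sum := by
  induction l with
  | nil => simp
  | cons a l ih => rw [List.length_cons, sum_range_succ']; simp [← ih, add_comm]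

theorem aeval_toZP (p : RPoly) (x : ℕ → ℝ) : aeval x (toZP p) = evalPoly p.toPoly x := by
  rw [toZP, map_sum, sum_getD p (0, []) (fun m => aeval x (monZP m)), evalPoly, RPoly.toPoly,
    List.map_map]
  congr 2
  funext m
  simp only [monZP, map_mul, map_prod, map_pow, aeval_X, Function.comp, aeval_C]
  congr 1
  rw [Fin.prod_univ_eq_prod_range (fun i => x i ^ (m.2.getD i []).length) m.2.length |>.symm]
  exact Fintype.prod_equiv (finCongr (List.length_map _).symm) _ _ (fun i => by simp)

theorem sz_getD_le {β : Type} [Enc β] (l : List β) (j : ℕ) (d : β) (hj : j < l.length) :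
    sz (l.getD j d) < sz l := by
  rw [List.getD_eq_getElem _ _ hj]
  exact sz_lt_of_mem (List.getElem_mem hj)

theorem sum_length_le (l : List (List Unit)) : (l.map List.length).sum ≤ sz l := by
  induction l with
  | nil => simp
  | cons a l ih =>
    have := length_lt_sz a
    simp only [List.map_cons, List.sum_cons, sz_cons]; omega

theorem totalDegree_monZP (m : ℤ × List (List Unit)) : (monZP m).totalDegree ≤ sz m := by
  refine (totalDegree_mul _ _).trans ?_
  rw [totalDegree_C, zero_add]
  refine (totalDegree_finsetProd _ _).trans ?_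
  simp only [totalDegree_X_pow]
  rw [sum_getD m.2 [] List.length, sz_prod]
  have := sum_length_le m.2
  omega

theorem totalDegree_toZP (p : RPoly) : (toZP p).totalDegree ≤ sz p := by
  refine (totalDegree_finsetSum _ _).trans (Finset.sup_le fun j hj => ?_)
  exact (totalDegree_monZP _).trans (sz_getD_le p j _ (mem_range.1 hj)).le

theorem aeval_toZP_congr (p : RPoly) (x y : ℕ → ℝ) (h : ∀ i < sz p, x i = y i) :
    aeval x (toZP p) = aeval y (toZP p) := by
  rw [toZP, map_sum, map_sum]
  refine sum_congr rfl fun j hj => ?_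
  have h1 := sz_getD_le p j (0, []) (mem_range.1 hj)
  generalize p.getD j (0, []) = m at h1
  simp only [monZP, map_mul, map_prod, map_pow, aeval_X, aeval_C]
  congr 1
  refine prod_congr rfl fun i hi => ?_
  have h2 := length_lt_sz m.2
  have h3 := sz_prod m
  rw [h i (by have := mem_range.1 hi; omega)]

theorem nice_toZP {α : Type} [Enc α] {p : α → RPoly} (hp : PT p) : Nice (fun x => toZP (p x)) :=
  Nice.sumC ((Nice.int (by fun_prop)).mul (Nice.prodC ((Nice.var (by fun_prop)).pow (by fun_prop))
    (by fun_prop))) (by fun_prop)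

theorem pt_eps {α : Type} [Enc α] {σ : α → ℕ} (h : PT σ) : PT (fun x => eps (σ x)) := by
  have : PT (fun x => cond (eqb (σ x) 0) (0 : ℤ) (cond (eqb (σ x) 1) 1 (-1))) := by fun_prop
  refine this.congr fun x => ?_
  by_cases h0 : σ x = 0 <;> by_cases h1 : σ x = 1 <;> simp [eps, h0, h1]

theorem nice_SQ : Nice SQ :=
  Nice.sumC ((((nice_toZP (by fun_prop)).mul (Nice.iteEq (by fun_prop) (by fun_prop) Nice.one
    ((Nice.var (by fun_prop)).pow (PT.const 2)))).sub' (Nice.int (pt_eps (by fun_prop)))).pow
    (PT.const 2)) (by fun_prop)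

theorem totalDegree_SQ (z : List RPoly × ℕ) : (SQ z).totalDegree ≤ 2 * (sz z + 2) := by
  refine (totalDegree_finsetSum _ _).trans (Finset.sup_le fun j hj => ?_)
  refine (totalDegree_pow _ _).trans (Nat.mul_le_mul_left _ ?_)
  refine (totalDegree_sub _ _).trans (max_le ?_ (by rw [totalDegree_C]; exact Nat.zero_le _))
  refine (totalDegree_mul _ _).trans (add_le_add ?_ ?_)
  · have h1 := totalDegree_toZP (z.1.getD j [])
    have h2 := sz_getD_le z.1 j [] (mem_range.1 hj)
    have h3 := sz_prod z
    omega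
  · split_ifs
    · simp
    · rw [totalDegree_X_pow]

theorem aeval_SQ (z : List RPoly × ℕ) (x : ℕ → ℝ) : aeval x (SQ z) =
    ∑ j ∈ range z.1.length, (evalPoly (z.1.getD j []).toPoly x *
      (if dig 3 z.2 j = 0 then 1 else x (sz z + j) ^ 2) - eps (dig 3 z.2 j)) ^ 2 := by
  rw [SQ, map_sum]
  refine sum_congr rfl fun j _ => ?_
  rw [map_pow, map_sub, map_mul, aeval_toZP]
  split_ifs <;> simp

theorem sg_of_eq {r y : ℝ} {σ : ℕ} (hσ : σ < 3)
    (h : r * (if σ = 0 then 1 else y ^ 2) - eps σ = 0) : sg r = σ := by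
  interval_cases σ
  · simp [eps] at h; simp [sg, h]
  · simp [eps] at h
    have h1 : 0 < r := by nlinarith [sq_nonneg y]
    simp [sg, h1, h1.ne']
  · simp [eps] at h
    have h1 : r < 0 := by nlinarith [sq_nonneg y]
    simp [sg, h1.ne, h1.not_gt]

theorem eq_of_sg (r : ℝ) :
    r * (if sg r = 0 then 1 else (√|r|)⁻¹ ^ 2) - eps (sg r) = 0 := by
  rw [inv_pow, Real.sq_sqrt (abs_nonneg r)]
  rcases lt_trichotomy r 0 with h | h | h
  · simp [sg, h.ne, h.not_gt, eps, abs_of_neg h]
  · simp [sg, h, eps]
  · simp [sg, h.ne', h, eps, abs_of_pos h]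

theorem CH_signs : CH (fun z : List RPoly × ℕ => ∃ x : ℕ → ℝ, ∀ j < z.1.length,
    sg (evalPoly (z.1.getD j []).toPoly x) = dig 3 z.2 j) := by
  have h := CH_zero (n := fun z : List RPoly × ℕ => 2 * sz z) (D := fun z => 2 * (sz z + 2))
    ((Un.const 2).mul (Un.sz PT.id)) ((Un.const 2).mul ((Un.sz PT.id).add (Un.const 2))) nice_SQ
    totalDegree_SQ (fun z y => by rw [aeval_SQ]; exact sum_nonneg fun j _ => sq_nonneg _)
  refine h.congr fun z => ⟨?_, ?_⟩
  · rintro ⟨x, hx⟩
    refine ⟨fun i => if (i : ℕ) < sz z then x i else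
      (√|evalPoly (z.1.getD (i - sz z) []).toPoly x|)⁻¹, ?_⟩
    rw [aeval_SQ]
    refine sum_eq_zero fun j hj => ?_
    have h1 := mem_range.1 hj
    have h2 := sz_getD_le z.1 j [] h1
    have h3 := sz_prod z
    have h4 := length_lt_sz z.1
    rw [← aeval_toZP, aeval_toZP_congr _ _ x (fun i hi => by
      simp [app, show i < 2 * sz z by omega, show i < sz z by omega]), aeval_toZP, ← hx j h1]
    have := eq_of_sg (evalPoly (z.1.getD j []).toPoly x)
    simp only [app, show sz z + j < 2 * sz z by omega, dif_pos, show ¬ sz z + j < sz z by omega,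
      if_false, Nat.add_sub_cancel_left, this]
    simp
  · rintro ⟨y, hy⟩
    refine ⟨app _ y fun _ => 0, fun j hj => ?_⟩
    rw [aeval_SQ, sum_eq_zero_iff_of_nonneg (fun j _ => sq_nonneg _)] at hy
    exact sg_of_eq (dig_lt (by norm_num) _ _) (pow_eq_zero_iff two_ne_zero |>.1
      (hy j (mem_range.2 hj)))

theorem etr_mem : ∃ j, ETR ∈ Level j := by
  obtain ⟨toks, check, h1, h2, h3⟩ := exists_check
  have h4 : CH (fun z : List Bool × ℕ => check z = true ∧ ∃ x : ℕ → ℝ, ∀ j < (toks z.1).length,
      sg (evalPoly ((toks z.1).getD j []).toPoly x) = dig 3 z.2 j) :=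
    (CH.of_pt h2).and (CH_signs.comp (g := fun z : List Bool × ℕ => (toks z.1, z.2))
      (PT.pair (PT.comp h1 (by fun_prop)) (by fun_prop)))
  have h5 := (h4.ex ((Un.length h1).pow (PT.const 3))).congr h3
  exact level_of_CH h5

end Vale.Agent.P337
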