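import Mathlib

/-!
TASK Newton. The product of `d` numbers from their power sums, by a truncated exponential.

Plan. With `ℓ = L / d!` the truncated logarithm, both `A = ∏ (1 + b j X)` and
`W = ∑ j ≤ d, ℓ ^ j / j!` have constant coefficient `1` and satisfy `Y' ≡ ℓ' Y` modulo `X ^ d`
(`(1 + b X) * ∑ k < d, (-1) ^ k b ^ (k+1) X ^ k ≡ b`, `X ^ d ∣ ℓ ^ d`); such a congruence determines the
coefficients up to degree `d` by strong induction.
-/

namespace Vale.Agent.P337

open Polynomial Finset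

/-- `d!` times the truncated logarithm -/
noncomputable def logP {R : Type} [CommRing R] (d : ℕ) (p : ℕ → R) : R[X] :=
  ∑ k ∈ range d, (-1) ^ k * (∏ m ∈ range d, if m = k then 1 else ((m + 1 : ℕ) : R[X])) *
    C (p (k + 1)) * X ^ (k + 1)

/-- `d! ^ (d+1)` times the truncated exponential -/
noncomputable def expP {R : Type} [CommRing R] (d : ℕ) (L : R[X]) : R[X] :=
  ∑ j ∈ range (d + 1), (∏ m ∈ range d, ((m + 1 : ℕ) : R[X])) ^ (d - j) *
    (∏ m ∈ range d, if m < j then 1 else ((m + 1 : ℕ) : R[X])) * L ^ j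

theorem Newton.ode {d : ℕ} {Z g : ℂ[X]} (h0 : Z.coeff 0 = 0)
    (h : X ^ d ∣ derivative Z - g * Z) : X ^ (d + 1) ∣ Z := by
  have key : ∀ k ≤ d + 1, X ^ k ∣ Z := by
    intro k
    induction k with
    | zero => intro _; simp
    | succ k ih =>
      intro hk
      have h1 := ih (by omega)
      rw [X_pow_dvd_iff]
      intro j hj
      rcases Nat.lt_succ_iff_lt_or_eq.1 hj with hj | rfl
      · exact X_pow_dvd_iff.1 h1 j hj
      · rcases j with _ | j
        · exact h0
        · have h2 := X_pow_dvd_iff.1 h j (by omega)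
          rw [coeff_sub, X_pow_dvd_iff.1 (h1.mul_left g) j (by omega), sub_zero,
            coeff_derivative] at h2
          exact (mul_eq_zero.1 h2).resolve_right (by exact_mod_cast Nat.succ_ne_zero j)
  exact key _ le_rfl

theorem Newton.prod_ode {ι : Type} (d : ℕ) (b : ι → ℂ) (s : Finset ι) :
    X ^ d ∣ derivative (∏ j ∈ s, (1 + C (b j) * X)) -
      (∑ j ∈ s, C (b j) * ∑ k ∈ range d, (-(C (b j) * X)) ^ k) * ∏ j ∈ s, (1 + C (b j) * X) := by
  classical
  induction s using Finset.induction_on with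
  | empty => simp
  | insert a s ha ih =>
    rw [prod_insert ha, sum_insert ha, derivative_mul]
    have h1 := geom_sum_mul_neg (-(C (b a) * X)) d
    have h2 : derivative (1 + C (b a) * X) = C (b a) := by simp
    rw [h2]
    set A := ∏ j ∈ s, (1 + C (b j) * X)
    set G := ∑ j ∈ s, C (b j) * ∑ k ∈ range d, (-(C (b j) * X)) ^ k
    set S := ∑ k ∈ range d, (-(C (b a) * X)) ^ k
    have h3 : C (b a) * A + (1 + C (b a) * X) * derivative A -
        (C (b a) * S + G) * ((1 + C (b a) * X) * A) =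
        (-(C (b a) * X)) ^ d * (C (b a) * A) + (1 + C (b a) * X) * (derivative A - G * A) := by
      linear_combination (-(C (b a) * A)) * h1
    rw [h3]
    refine dvd_add (Dvd.dvd.mul_right ?_ _) (ih.mul_left _)
    exact pow_dvd_pow_of_dvd (Dvd.intro_left _ (neg_mul _ _)) _

theorem Newton.exp_ode (d : ℕ) (l : ℂ[X]) :
    derivative (∑ j ∈ range (d + 1), C ((j.factorial : ℂ)⁻¹) * l ^ j) -
      derivative l * ∑ j ∈ range (d + 1), C ((j.factorial : ℂ)⁻¹) * l ^ j =
      -(derivative l * C ((d.factorial : ℂ)⁻¹) * l ^ d) := by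
  induction d with
  | zero => simp
  | succ d ih =>
    rw [sum_range_succ, derivative_add, mul_add, derivative_C_mul, derivative_pow_succ]
    have h1 : (C ((d + 1).factorial : ℂ)⁻¹ : ℂ[X]) * C ((d : ℂ) + 1) = C ((d.factorial : ℂ)⁻¹) := by
      rw [← C_mul, Nat.factorial_succ]
      congr 1
      have : (d.factorial : ℂ) ≠ 0 := by exact_mod_cast d.factorial_ne_zero
      have : (d : ℂ) + 1 ≠ 0 := by exact_mod_cast d.succ_ne_zero
      push_cast
      field_simp
    linear_combination ih + (l ^ d * derivative l) * h1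

theorem Newton.prod_fact (d : ℕ) :
    ∏ m ∈ range d, ((m + 1 : ℕ) : ℂ[X]) = C (d.factorial : ℂ) := by
  rw [← Nat.cast_prod, prod_range_add_one_eq_factorial, map_natCast]

theorem Newton.prod_eq {d k : ℕ} (hk : k < d) :
    (∏ m ∈ range d, if m = k then 1 else ((m + 1 : ℕ) : ℂ[X])) =
      C ((d.factorial : ℂ) * ((k : ℂ) + 1)⁻¹) := by
  have h1 : (∏ m ∈ range d, if m = k then 1 else ((m + 1 : ℕ) : ℂ[X])) * C ((k : ℂ) + 1) =
      C (d.factorial : ℂ) := by
    rw [← Newton.prod_fact, ← mul_prod_erase _ _ (mem_range.2 hk),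
      ← mul_prod_erase _ (fun m => ((m + 1 : ℕ) : ℂ[X])) (mem_range.2 hk), if_pos rfl, one_mul,
      mul_comm]
    congr 1
    · simp
    · exact prod_congr rfl fun m hm => if_neg (ne_of_mem_erase hm)
  have : (k : ℂ) + 1 ≠ 0 := by exact_mod_cast k.succ_ne_zero
  rw [C_mul, ← h1, mul_assoc, ← C_mul, mul_inv_cancel₀ this, C_1, mul_one]

theorem Newton.prod_lt {d j : ℕ} (hj : j ≤ d) :
    (∏ m ∈ range d, if m < j then 1 else ((m + 1 : ℕ) : ℂ[X])) =
      C ((d.factorial : ℂ) * (j.factorial : ℂ)⁻¹) := by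
  induction d, hj using Nat.le_induction with
  | base =>
    rw [mul_inv_cancel₀ (by exact_mod_cast j.factorial_ne_zero), C_1]
    exact prod_eq_one fun m hm => if_pos (mem_range.1 hm)
  | succ d hd ih =>
    rw [prod_range_succ, ih, if_neg (by omega), ← C_eq_natCast, ← C_mul, Nat.factorial_succ]
    congr 1
    push_cast
    ring

theorem newton {d : ℕ} (b : Fin d → ℂ) (p : ℕ → ℂ)
    (hp : ∀ k, 1 ≤ k → k ≤ d → p k = ∑ j, b j ^ k) :
    (expP d (logP d p)).coeff d = (d.factorial : ℂ) ^ (d + 1) * ∏ j, b j := by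
  let l : ℂ[X] := ∑ k ∈ range d, C ((-1) ^ k * ((k : ℂ) + 1)⁻¹ * p (k + 1)) * X ^ (k + 1)
  have hl : logP d p = C (d.factorial : ℂ) * l := by
    rw [logP, mul_sum]
    refine sum_congr rfl fun k hk => ?_
    rw [Newton.prod_eq (mem_range.1 hk)]
    simp only [C_mul, C_pow, C_neg, C_1]
    ring
  have hW : expP d (logP d p) = C ((d.factorial : ℂ) ^ (d + 1)) *
      ∑ j ∈ range (d + 1), C ((j.factorial : ℂ)⁻¹) * l ^ j := by
    rw [expP, mul_sum]
    refine sum_congr rfl fun j hj => ?_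
    have hj' : j ≤ d := Nat.lt_succ_iff.1 (mem_range.1 hj)
    obtain ⟨e, rfl⟩ := Nat.exists_eq_add_of_le hj'
    rw [Newton.prod_lt hj', Newton.prod_fact, hl, Nat.add_sub_cancel_left]
    simp only [C_mul, C_pow]
    ring
  have hX : X ∣ l := dvd_sum fun k _ => Dvd.dvd.mul_left (dvd_pow_self _ (Nat.succ_ne_zero k)) _
  have hd : derivative l = ∑ j, C (b j) * ∑ k ∈ range d, (-(C (b j) * X)) ^ k := by
    simp only [l, derivative_sum, mul_sum]
    rw [sum_comm]
    refine sum_congr rfl fun k hk => ?_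
    rw [derivative_C_mul, derivative_X_pow_succ, ← mul_assoc, ← C_mul,
      hp (k + 1) (by omega) (mem_range.1 hk)]
    have : (k : ℂ) + 1 ≠ 0 := by exact_mod_cast k.succ_ne_zero
    rw [show (-1) ^ k * ((k : ℂ) + 1)⁻¹ * (∑ j, b j ^ (k + 1)) * ((k : ℂ) + 1) =
      ∑ j, (-1) ^ k * b j ^ (k + 1) by rw [← mul_sum]; field_simp, map_sum, sum_mul]
    refine sum_congr rfl fun j _ => ?_
    simp only [C_mul, C_pow, C_neg, C_1]
    rw [neg_pow (C (b j) * X)]
    ring
  have h1 := Newton.prod_ode d b univ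
  rw [← hd] at h1
  have h2 : X ^ d ∣ derivative (∑ j ∈ range (d + 1), C ((j.factorial : ℂ)⁻¹) * l ^ j) -
      derivative l * ∑ j ∈ range (d + 1), C ((j.factorial : ℂ)⁻¹) * l ^ j := by
    rw [Newton.exp_ode]
    exact ((pow_dvd_pow_of_dvd hX d).mul_left _).neg_right
  have h3 := Newton.ode (d := d) (g := derivative l)
    (Z := ∑ j ∈ range (d + 1), C ((j.factorial : ℂ)⁻¹) * l ^ j - ∏ j, (1 + C (b j) * X))
    (by
      rw [coeff_sub, sum_range_succ', coeff_add, X_dvd_iff.1 (dvd_sum fun j _ =>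
        (dvd_pow hX (Nat.succ_ne_zero j)).mul_left _), coeff_zero_prod]
      simp)
    (by
      have := dvd_sub h2 h1
      rw [derivative_sub]
      convert this using 1
      ring)
  have h4 := X_pow_dvd_iff.1 h3 d (Nat.lt_succ_self d)
  rw [coeff_sub, sub_eq_zero] at h4
  rw [hW, coeff_C_mul, h4]
  congr 1
  have h5 := coeff_prod_of_natDegree_le (s := univ) (fun j => 1 + C (b j) * X) 1 (fun j _ => by
    rw [add_comm, ← C_1]; exact natDegree_linear_le)
  simpa [coeff_one] using h5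

end Vale.Agent.P337
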