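import Mathlib

/-!
TASK Poly. Integer polynomials in the variables `X 0, X 1, ...`: norm, substitution, extraction.
-/

namespace Vale.Agent.P337

open MvPolynomial

/-- integer polynomials -/
abbrev ZP : Type := MvPolynomial ℕ ℤ

/-- sum of the absolute values of the coefficients -/
noncomputable def nrm (F : ZP) : ℕ := ∑ m ∈ F.support, (coeff m F).natAbs

/-- concatenation of a finite and an infinite assignment -/
def app {K : Type} (n : ℕ) (z : Fin n → K) (φ : ℕ → K) : ℕ → K :=
  fun i => if h : i < n then z ⟨i, h⟩ else φ (i - n)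

/-- one new value in front -/
def cons {K : Type} (z : K) (φ : ℕ → K) : ℕ → K :=
  fun i => if i = 0 then z else φ (i - 1)

/-- keep the first `n` variables, evaluate the other ones -/
noncomputable def spec {K : Type} [CommRing K] (n : ℕ) (φ : ℕ → K) :
    ZP →ₐ[ℤ] MvPolynomial (Fin n) K :=
  aeval (app n (fun i => X i) (fun j => C (φ j)))

/-- keep the first variable, evaluate the other ones -/
noncomputable def spec1 {K : Type} [CommRing K] (φ : ℕ → K) : ZP →ₐ[ℤ] Polynomial K :=
  aeval (cons Polynomial.X (fun j => Polynomial.C (φ j)))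

/-- exponent vector -/
noncomputable def fs (n : ℕ) (β : ℕ → ℕ) : Fin n →₀ ℕ :=
  Finsupp.equivFunOnFinite.symm (fun i => β i)

/-- coefficient of `x ^ β` in the first `n` variables; the other variables are shifted down -/
noncomputable def ext (n : ℕ) (β : ℕ → ℕ) (F : ZP) : ZP := coeff (fs n β) (spec n X F)

/-- coefficient of `X 0 ^ k` -/
noncomputable def ext1 (k : ℕ) (F : ZP) : ZP := ext 1 (fun _ => k) F

/-- substitute `G i` for the first `m` variables, `X (m + j) ↦ X (j + k)` -/
noncomputable def sub (m k : ℕ) (G : ℕ → ZP) : ZP →ₐ[ℤ] ZP :=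
  aeval (fun i => if i < m then G i else X (i - m + k))

/-- substitute `G i` for the first `m` variables and `0` for the other ones -/
noncomputable def sub0 (m : ℕ) (G : ℕ → ZP) : ZP →ₐ[ℤ] ZP :=
  aeval (fun i => if i < m then G i else 0)

/-- shift all variables up -/
noncomputable def sh (k : ℕ) : ZP →ₐ[ℤ] ZP := sub 0 k (fun _ => 0)

theorem nrm_zero : nrm 0 = 0 := by simp [nrm]

theorem nrm_eq_of_subset (F : ZP) {s : Finset (ℕ →₀ ℕ)} (h : F.support ⊆ s) :
    nrm F = ∑ m ∈ s, (coeff m F).natAbs := by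
  refine Finset.sum_subset h fun m _ hm => ?_
  rw [notMem_support_iff.1 hm]; rfl

theorem nrm_monomial (m : ℕ →₀ ℕ) (c : ℤ) : nrm (monomial m c) = c.natAbs := by
  rw [nrm_eq_of_subset _ support_monomial_subset]
  simp

theorem nrm_C (c : ℤ) : nrm (C c) = c.natAbs := nrm_monomial 0 c

theorem nrm_X (i : ℕ) : nrm (X i) = 1 := nrm_monomial _ 1

theorem nrm_one : nrm 1 = 1 := nrm_C 1

theorem nrm_neg (F : ZP) : nrm (-F) = nrm F := by
  simp [nrm]

theorem nrm_add (F G : ZP) : nrm (F + G) ≤ nrm F + nrm G := by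
  classical
  rw [nrm_eq_of_subset _ support_add, nrm_eq_of_subset F (Finset.subset_union_left (s₂ := G.support)),
    nrm_eq_of_subset G (Finset.subset_union_right (s₁ := F.support)), ← Finset.sum_add_distrib]
  refine Finset.sum_le_sum fun m _ => ?_
  rw [coeff_add]
  exact Int.natAbs_add_le _ _

theorem nrm_sum {ι : Type} (s : Finset ι) (F : ι → ZP) :
    nrm (∑ i ∈ s, F i) ≤ ∑ i ∈ s, nrm (F i) :=
  Finset.le_sum_of_subadditive nrm nrm_zero.le nrm_add s F

theorem nrm_mul (F G : ZP) : nrm (F * G) ≤ nrm F * nrm G := by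
  conv_lhs => rw [F.as_sum, G.as_sum, Finset.sum_mul_sum]
  rw [nrm.eq_1 F, nrm.eq_1 G, Finset.sum_mul_sum]
  refine (nrm_sum _ _).trans (Finset.sum_le_sum fun a _ => ?_)
  refine (nrm_sum _ _).trans (Finset.sum_le_sum fun b _ => ?_)
  rw [monomial_mul, nrm_monomial, Int.natAbs_mul]

theorem nrm_prod {ι : Type} (s : Finset ι) (F : ι → ZP) :
    nrm (∏ i ∈ s, F i) ≤ ∏ i ∈ s, nrm (F i) := by
  classical
  induction s using Finset.induction_on with
  | empty => simp [nrm_one]
  | insert a s ha ih =>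
    rw [Finset.prod_insert ha, Finset.prod_insert ha]
    exact (nrm_mul _ _).trans (Nat.mul_le_mul_left _ ih)

theorem nrm_pow (F : ZP) (k : ℕ) : nrm (F ^ k) ≤ nrm F ^ k := by
  induction k with
  | zero => simp [nrm_one]
  | succ k ih =>
    rw [pow_succ, pow_succ]
    exact (nrm_mul _ _).trans (Nat.mul_le_mul_right _ ih)

theorem nrm_aeval (g : ℕ → ZP) (F : ZP) {B : ℕ} (hB : 1 ≤ B) (hg : ∀ i, nrm (g i) ≤ B) :
    nrm (aeval g F) ≤ nrm F * B ^ F.totalDegree := by
  conv_lhs => rw [F.as_sum, map_sum]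
  rw [nrm.eq_1 F, Finset.sum_mul]
  refine (nrm_sum _ _).trans (Finset.sum_le_sum fun m hm => ?_)
  rw [aeval_monomial]
  refine (nrm_mul _ _).trans (Nat.mul_le_mul (nrm_C _).le ?_)
  refine (nrm_prod _ _).trans ?_
  refine (Finset.prod_le_prod' fun i _ =>
    (nrm_pow _ _).trans (Nat.pow_le_pow_left (hg i) _)).trans ?_
  rw [Finset.prod_pow_eq_pow_sum]
  exact Nat.pow_le_pow_right hB (le_totalDegree hm)

theorem totalDegree_aeval {σ K : Type} [CommRing K] (g : ℕ → MvPolynomial σ K) (F : ZP) {D : ℕ}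
    (hg : ∀ i, (g i).totalDegree ≤ D) : (aeval g F).totalDegree ≤ F.totalDegree * D := by
  conv_lhs => rw [F.as_sum, map_sum]
  refine totalDegree_finsetSum_le fun m hm => ?_
  rw [aeval_monomial]
  refine (totalDegree_mul _ _).trans ?_
  rw [show algebraMap ℤ (MvPolynomial σ K) (coeff m F) = C ((coeff m F : ℤ) : K) by simp,
    totalDegree_C, zero_add]
  refine (totalDegree_finsetProd _ _).trans ?_
  refine (Finset.sum_le_sum fun i _ =>
    (totalDegree_pow _ _).trans (Nat.mul_le_mul_left _ (hg i))).trans ?_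
  rw [← Finset.sum_mul]
  exact Nat.mul_le_mul_right _ (le_totalDegree hm)

theorem totalDegree_spec {K : Type} [CommRing K] (n : ℕ) (φ : ℕ → K) (F : ZP) :
    (spec n φ F).totalDegree ≤ F.totalDegree := by
  refine (totalDegree_aeval _ F (D := 1) fun i => ?_).trans (mul_one _).le
  unfold app
  split_ifs
  · exact (isHomogeneous_X _ _).totalDegree_le
  · rw [totalDegree_C]; exact zero_le_one

theorem natDegree_spec1 {K : Type} [CommRing K] (φ : ℕ → K) (F : ZP) :
    (spec1 φ F).natDegree ≤ F.totalDegree := by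
  rw [Polynomial.natDegree_le_iff_coeff_eq_zero]
  intro k hk
  have : (MvPolynomial.uniqueAlgEquiv K (Fin 1)).toRingEquiv.toRingHom.comp (spec 1 φ).toRingHom =
      (spec1 φ).toRingHom := by
    refine MvPolynomial.ringHom_ext' (RingHom.ext_int _ _) fun i => ?_
    by_cases h : i = 0
    · subst h
      simp [spec, spec1, app, cons]
    · simp [spec, spec1, app, cons, h]
  have h2 : MvPolynomial.uniqueAlgEquiv K (Fin 1) (spec 1 φ F) = spec1 φ F :=
    RingHom.congr_fun this F
  rw [← h2, coeff_uniqueAlgEquiv]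
  refine coeff_eq_zero_of_totalDegree_lt ?_
  have h3 := totalDegree_spec 1 φ F
  have h4 : ∑ i ∈ (Finsupp.single (default : Fin 1) k).support,
      (Finsupp.single (default : Fin 1) k) i = k := Finsupp.degree_single _ _
  omega

theorem spec_monomial (n : ℕ) (m : ℕ →₀ ℕ) (c : ℤ) :
    ∃ m', m'.degree ≤ m.degree ∧
      spec n X (monomial m c) = monomial (fs n m) (monomial m' c : ZP) := by
  induction m using Finsupp.induction_linear generalizing c with
  | zero =>
    refine ⟨0, le_rfl, ?_⟩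
    have : fs n (0 : ℕ →₀ ℕ) = 0 := by ext i; simp [fs]
    rw [this]
    simp [spec]
  | add a b ha hb =>
    obtain ⟨a', ha1, ha2⟩ := ha c
    obtain ⟨b', hb1, hb2⟩ := hb 1
    refine ⟨a' + b', by rw [map_add, map_add]; omega, ?_⟩
    have : fs n (a + b : ℕ →₀ ℕ) = fs n a + fs n b := by ext i; simp [fs]
    rw [this, ← mul_one c, ← monomial_mul, map_mul, ha2, hb2, monomial_mul, monomial_mul, mul_one]
  | single i k =>
    rw [← C_mul_X_pow_eq_monomial, map_mul, map_pow]
    by_cases h : i < n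
    · refine ⟨0, by simp, ?_⟩
      have : fs n (Finsupp.single i k : ℕ →₀ ℕ) = Finsupp.single ⟨i, h⟩ k := by
        ext j
        simp [fs, Finsupp.single_apply, Fin.ext_iff]
      rw [this, ← C_mul_X_pow_eq_monomial]
      simp [spec, app, h]
    · refine ⟨Finsupp.single (i - n) k, by simp, ?_⟩
      have : fs n (Finsupp.single i k : ℕ →₀ ℕ) = 0 := by
        ext j
        have : i ≠ j := by have := j.2; omega
        simp [fs, this]
      rw [this, ← C_mul_X_pow_eq_monomial]
      simp [spec, app, h]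

theorem ext_sum {ι : Type} (n : ℕ) (β : ℕ → ℕ) (s : Finset ι) (F : ι → ZP) :
    ext n β (∑ i ∈ s, F i) = ∑ i ∈ s, ext n β (F i) := by
  simp only [ext, map_sum, coeff_sum]

theorem nrm_ext (n : ℕ) (β : ℕ → ℕ) (F : ZP) : nrm (ext n β F) ≤ nrm F := by
  classical
  conv_lhs => rw [F.as_sum, ext_sum]
  rw [nrm.eq_1 F]
  refine (nrm_sum _ _).trans (Finset.sum_le_sum fun m _ => ?_)
  obtain ⟨m', -, h⟩ := spec_monomial n m (coeff m F)
  rw [ext, h, coeff_monomial]
  split_ifs
  · exact (nrm_monomial _ _).le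
  · rw [nrm_zero]; exact Nat.zero_le _

theorem totalDegree_ext (n : ℕ) (β : ℕ → ℕ) (F : ZP) :
    (ext n β F).totalDegree ≤ F.totalDegree := by
  classical
  conv_lhs => rw [F.as_sum, ext_sum]
  refine totalDegree_finsetSum_le fun m hm => ?_
  obtain ⟨m', h1, h⟩ := spec_monomial n m (coeff m F)
  rw [ext, h, coeff_monomial]
  split_ifs
  · exact (totalDegree_monomial_le _ _).trans (h1.trans (le_totalDegree hm))
  · rw [totalDegree_zero]; exact Nat.zero_le _

theorem natAbs_constantCoeff (F : ZP) : (constantCoeff F).natAbs ≤ nrm F := by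
  classical
  rw [nrm_eq_of_subset F (Finset.subset_insert 0 _)]
  exact Finset.single_le_sum (f := fun m => (coeff m F).natAbs) (fun _ _ => Nat.zero_le _)
    (Finset.mem_insert_self _ _)

section
variable {K : Type} [CommRing K]

theorem aeval_ext (n : ℕ) (β : ℕ → ℕ) (φ : ℕ → K) (F : ZP) :
    aeval φ (ext n β F) = coeff (fs n β) (spec n φ F) := by
  have : (MvPolynomial.map (aeval φ : ZP →ₐ[ℤ] K).toRingHom).comp (spec n X).toRingHom =
      (spec n φ).toRingHom := by
    refine MvPolynomial.ringHom_ext' (RingHom.ext_int _ _) fun i => ?_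
    by_cases h : i < n <;> simp [spec, app, h]
  have h2 := RingHom.congr_fun this F
  simp only [AlgHom.toRingHom_eq_coe, RingHom.coe_comp, RingHom.coe_coe, Function.comp_apply] at h2
  rw [← h2, coeff_map]
  rfl

theorem aeval_ext1 (k : ℕ) (φ : ℕ → K) (F : ZP) :
    aeval φ (ext1 k F) = (spec1 φ F).coeff k := by
  have : (MvPolynomial.uniqueAlgEquiv K (Fin 1)).toRingEquiv.toRingHom.comp (spec 1 φ).toRingHom =
      (spec1 φ).toRingHom := by
    refine MvPolynomial.ringHom_ext' (RingHom.ext_int _ _) fun i => ?_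
    by_cases h : i = 0
    · subst h
      simp [spec, spec1, app, cons]
    · simp [spec, spec1, app, cons, h]
  have h2 : MvPolynomial.uniqueAlgEquiv K (Fin 1) (spec 1 φ F) = spec1 φ F :=
    RingHom.congr_fun this F
  rw [ext1, aeval_ext, ← h2, coeff_uniqueAlgEquiv]
  congr 1
  ext
  simp [fs]

theorem eval_spec (n : ℕ) (z : Fin n → K) (φ : ℕ → K) (F : ZP) :
    eval z (spec n φ F) = aeval (app n z φ) F := by
  have : (eval z).comp (spec n φ).toRingHom = (aeval (app n z φ) : ZP →ₐ[ℤ] K).toRingHom := by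
    refine MvPolynomial.ringHom_ext' (RingHom.ext_int _ _) fun i => ?_
    by_cases h : i < n <;> simp [spec, app, h]
  exact RingHom.congr_fun this F

theorem eval_spec1 (z : K) (φ : ℕ → K) (F : ZP) :
    (spec1 φ F).eval z = aeval (cons z φ) F := by
  have : (Polynomial.evalRingHom z).comp (spec1 φ).toRingHom =
      (aeval (cons z φ) : ZP →ₐ[ℤ] K).toRingHom := by
    refine MvPolynomial.ringHom_ext' (RingHom.ext_int _ _) fun i => ?_
    by_cases h : i = 0 <;> simp [spec1, cons, h]
  exact RingHom.congr_fun this F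

theorem aeval_sub (m k : ℕ) (G : ℕ → ZP) (φ : ℕ → K) (F : ZP) :
    aeval φ (sub m k G F) = aeval (fun i => if i < m then aeval φ (G i) else φ (i - m + k)) F := by
  rw [sub, ← AlgHom.comp_apply, comp_aeval]
  congr 2
  funext i
  split_ifs <;> simp

theorem aeval_sub0 (m : ℕ) (G : ℕ → ZP) (φ : ℕ → K) (F : ZP) :
    aeval φ (sub0 m G F) = aeval (fun i => if i < m then aeval φ (G i) else 0) F := by
  rw [sub0, ← AlgHom.comp_apply, comp_aeval]
  congr 2
  funext i
  split_ifs <;> simp

theorem aeval_sh (k : ℕ) (φ : ℕ → K) (F : ZP) :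
    aeval φ (sh k F) = aeval (fun i => φ (i + k)) F := by
  rw [sh, aeval_sub]
  simp

theorem spec1_sh (φ : ℕ → K) (F : ZP) : spec1 φ (sh 1 F) = Polynomial.C (aeval φ F) := by
  have h0 := aeval_sh 1 (cons Polynomial.X (fun j => Polynomial.C (φ j))) F
  refine h0.trans ?_
  have : (aeval (fun i => cons Polynomial.X (fun j => Polynomial.C (φ j)) (i + 1)) :
      ZP →ₐ[ℤ] Polynomial K).toRingHom =
      Polynomial.C.comp (aeval φ : ZP →ₐ[ℤ] K).toRingHom := by
    refine MvPolynomial.ringHom_ext' (RingHom.ext_int _ _) fun i => ?_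
    simp [cons]
  exact RingHom.congr_fun this F

theorem spec1_X (φ : ℕ → K) : spec1 φ (X 0) = Polynomial.X := by
  simp [spec1, cons]

theorem aeval_zero_eq (F : ZP) : aeval (fun _ => (0 : K)) F = ((constantCoeff F : ℤ) : K) := by
  rw [aeval_zero']
  simp

end

theorem sum_range_pow_zmod {p : ℕ} [Fact p.Prime] {a b : ℕ} (ha : a + 1 < p) (hb : b + 1 < p) :
    ∑ x ∈ Finset.range p, (x : ZMod p) ^ a * (-(x : ZMod p) ^ (p - 1 - b)) =
      if a = b then 1 else 0 := by
  have h1 : ∀ g : ZMod p → ZMod p, ∑ x ∈ Finset.range p, g (x : ZMod p) = ∑ x, g x := by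
    intro g
    refine Finset.sum_bij (fun x _ => (x : ZMod p)) (fun _ _ => Finset.mem_univ _) ?_ ?_
      (fun _ _ => rfl)
    · intro x hx y hy h
      have := congrArg ZMod.val h
      rwa [ZMod.val_cast_of_lt (Finset.mem_range.1 hx),
        ZMod.val_cast_of_lt (Finset.mem_range.1 hy)] at this
    · intro y _
      exact ⟨y.val, Finset.mem_range.2 (ZMod.val_lt y), ZMod.natCast_zmod_val y⟩
  rw [h1 (fun x => x ^ a * (-x ^ (p - 1 - b)))]
  simp only [mul_neg, ← pow_add, Finset.sum_neg_distrib]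
  have h2 : ∑ x : ZMod p, x ^ (a + (p - 1 - b)) =
      ∑ x : (ZMod p)ˣ, (x : ZMod p) ^ (a + (p - 1 - b)) := by
    rw [← Finset.sum_erase (a := 0) _ (zero_pow (by omega))]
    symm
    refine Finset.sum_bij (fun x _ => (x : ZMod p)) (fun x _ => by simp) ?_ ?_ (fun _ _ => rfl)
    · intro x _ y _ h
      exact Units.ext h
    · intro y hy
      exact ⟨Units.mk0 y (Finset.ne_of_mem_erase hy), Finset.mem_univ _, rfl⟩
  have h3 := FiniteField.sum_pow_units (ZMod p) (a + (p - 1 - b))
  rw [ZMod.card] at h3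
  rw [h2, h3]
  by_cases hab : a = b
  · rw [if_pos hab, if_pos, neg_neg]
    exact ⟨1, by omega⟩
  · rw [if_neg hab, if_neg, neg_zero]
    rintro ⟨c, hc⟩
    rcases c with _ | _ | c
    · omega
    · omega
    · have : (p - 1) * (c + 1 + 1) = (p - 1) * c + 2 * (p - 1) := by ring
      omega

/-- coefficient extraction modulo a prime -/
theorem coeff_mod_prime {p n : ℕ} [Fact p.Prime] (G : MvPolynomial (Fin n) (ZMod p))
    (β : Fin n →₀ ℕ) (hG : G.totalDegree + 1 < p) (hβ : ∀ i, β i + 1 < p) :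
    coeff β G = ∑ a ∈ Fintype.piFinset (fun _ : Fin n => Finset.range p),
      eval (fun i => (a i : ZMod p)) G * ∏ i, (-(a i : ZMod p) ^ (p - 1 - β i)) := by
  classical
  simp only [eval_eq', Finset.sum_mul]
  rw [Finset.sum_comm]
  have h1 : ∀ d ∈ G.support, ∑ a ∈ Fintype.piFinset (fun _ : Fin n => Finset.range p),
      (coeff d G * ∏ i, (a i : ZMod p) ^ d i) * ∏ i, (-(a i : ZMod p) ^ (p - 1 - β i)) =
      if d = β then coeff d G else 0 := by
    intro d hd
    have hd' : ∀ i, d i + 1 < p := by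
      intro i
      have h2 := (monomial_le_degreeOf i hd).trans (degreeOf_le_totalDegree G i)
      omega
    simp only [mul_assoc, ← Finset.mul_sum, ← Finset.prod_mul_distrib]
    rw [← Finset.prod_univ_sum (fun _ : Fin n => Finset.range p)
      (fun i x => (x : ZMod p) ^ d i * (-(x : ZMod p) ^ (p - 1 - β i)))]
    simp only [sum_range_pow_zmod (hd' _) (hβ _), Finset.prod_boole, Finset.mem_univ, true_imp_iff,
      mul_ite, mul_one, mul_zero, Finsupp.ext_iff]
  rw [Finset.sum_congr rfl h1, Finset.sum_ite_eq']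
  split_ifs with h
  · rfl
  · exact notMem_support_iff.1 h

end Vale.Agent.P337
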