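import Vale.Agent.P337.Sign
import Vale.Agent.P337.Poly

/-!
TASK Nice. Families of integer polynomials of exponential degree and doubly exponential norm whose
values modulo large primes are computable in the counting hierarchy.

Hints. `sum`/`prod`: `exists_bound` gives a uniform `e`; `CF.sum` followed by `% p`, `CF.prodMod`.
`sub`/`sub0`: `CF.bindList`, the new assignment list is `values ++ a.drop k` (resp. `values`).
`ext`: `aeval_ext`, `coeff_mod_prime`, `sum_dig`, `eval_spec`; the new assignment list is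
`(List.range n).map (dig p w) ++ a`; the product `∏ i < n, -(a i) ^ (p - 1 - β i)` is
`CF.prodMod` of `(p - 1) * powMod ..`; the threshold must exceed `e + 1` and all `β i + 1`.
-/

namespace Vale.Agent.P337

open Vale.Agent.Lib.H23 Enc MvPolynomial

variable {α β : Type} [Enc α] [Enc β]

/-- the class of nice families -/
def Nice (F : α → ZP) : Prop :=
  ∃ e : α → ℕ, PT e ∧ (∀ x, (F x).totalDegree ≤ e x ∧ nrm (F x) ≤ 2 ^ e x) ∧
    ∃ G : α × List ℕ × ℕ → ℕ, CF G ∧ ∀ x a p, p.Prime → e x < p →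
      (G (x, a, p) : ZMod p) = aeval (fun i => ((a.getD i 0 : ℕ) : ZMod p)) (F x)

theorem Nice.bound {F : α → ZP} (h : Nice F) :
    ∃ e : α → ℕ, PT e ∧ ∀ x, (F x).totalDegree ≤ e x ∧ nrm (F x) ≤ 2 ^ e x := by
  obtain ⟨e, h1, h2, -⟩ := h
  exact ⟨e, h1, h2⟩

theorem Nice.congr {F G : α → ZP} (h : Nice F) (e : ∀ x, G x = F x) : Nice G := by
  have : G = F := funext e
  rwa [this]

theorem Nice.mk' {F : α → ZP} {d n t : α → ℕ} {G : α × List ℕ × ℕ → ℕ} (hd : PT d) (hn : PT n)
    (ht : PT t) (hG : CF G) (h1 : ∀ x, (F x).totalDegree ≤ d x) (h2 : ∀ x, nrm (F x) ≤ 2 ^ n x)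
    (h3 : ∀ x a p, p.Prime → t x < p →
      (G (x, a, p) : ZMod p) = aeval (fun i => ((a.getD i 0 : ℕ) : ZMod p)) (F x)) : Nice F :=
  ⟨fun x => d x + n x + t x, by fun_prop, fun x => ⟨(h1 x).trans (by dsimp only; omega),
    (h2 x).trans (Nat.pow_le_pow_right (by omega) (by dsimp only; omega))⟩, G, hG,
    fun x a p hp hlt => h3 x a p hp (by dsimp only at hlt; omega)⟩

theorem CF.mul {F G : α → ℕ} (hF : CF F) (hG : CF G) : CF (fun x => F x * G x) :=
  CF.bind₂ (G := fun z : α × ℕ × ℕ => z.2.1 * z.2.2) hF hG (CF.of_pt (by fun_prop))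

theorem cast_pred {p : ℕ} (hp : p.Prime) : ((p - 1 : ℕ) : ZMod p) = -1 := by
  rw [Nat.cast_pred hp.pos]
  simp

theorem getD_map_append (m : ℕ) (f : ℕ → ℕ) (l : List ℕ) (i : ℕ) :
    ((List.range m).map f ++ l).getD i 0 = if i < m then f i else l.getD (i - m) 0 := by
  split_ifs with h
  · rw [List.getD_append _ _ _ _ (by simpa using h), List.getD_eq_getElem _ _ (by simpa using h)]
    simp
  · rw [List.getD_append_right _ _ _ _ (by simpa using h)]
    simp

theorem Nice.comp {F : β → ZP} {g : α → β} (h : Nice F) (hg : PT g) :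
    Nice (fun x => F (g x)) := by
  obtain ⟨e, he, h1, G, hG, h2⟩ := h
  exact ⟨fun x => e (g x), he.comp hg, fun x => h1 (g x),
    fun z => G (g z.1, z.2.1, z.2.2), hG.comp (by fun_prop), fun x a p => h2 (g x) a p⟩

theorem Nice.int {c : α → ℤ} (hc : PT c) : Nice (fun x => (C (c x) : ZP)) := by
  refine Nice.mk' (d := fun _ => 0) (n := fun x => (c x).natAbs) (t := fun _ => 0)
    (G := fun z => bif isNeg (c z.1) then (z.2.2 - 1) * (c z.1).natAbs else (c z.1).natAbs)
    (by fun_prop) (by fun_prop) (by fun_prop) (CF.of_pt (by fun_prop)) (fun x => (totalDegree_C _).le)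
    (fun x => by rw [nrm_C]; exact Nat.lt_two_pow_self.le) fun x a p hp _ => ?_
  rw [aeval_C, eq_intCast]
  by_cases h : c x < 0
  · have e : isNeg (c x) = true := by simp [isNeg, h]
    simp only [e, cond_true]
    rw [Nat.cast_mul, cast_pred hp, ← Int.cast_natCast (c x).natAbs, Int.natCast_natAbs,
      abs_of_neg h]
    simp
  · have e : isNeg (c x) = false := by simp [isNeg, h]
    simp only [e, cond_false]
    rw [← Int.cast_natCast (c x).natAbs, Int.natCast_natAbs, abs_of_nonneg (not_lt.mp h)]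

theorem Nice.nat {c : α → ℕ} (hc : PT c) : Nice (fun x => ((c x : ℕ) : ZP)) :=
  (Nice.int hc.natCast).congr fun x => by simp

theorem Nice.var {i : α → ℕ} (hi : PT i) : Nice (fun x => (X (i x) : ZP)) :=
  Nice.mk' (d := fun _ => 1) (n := fun _ => 0) (t := fun _ => 0)
    (G := fun z => z.2.1.getD (i z.1) 0)
    (by fun_prop) (by fun_prop) (by fun_prop) (CF.of_pt (by fun_prop)) (fun x => by simp)
    (fun x => by rw [nrm_X]; simp) fun x a p _ _ => by rw [aeval_X]

theorem Nice.cond {b : α → Bool} {F G : α → ZP} (hb : PT b) (hF : Nice F) (hG : Nice G) :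
    Nice (fun x => cond (b x) (F x) (G x)) := by
  obtain ⟨e, he, h1, H, hH, h2⟩ := hF
  obtain ⟨e', he', h1', H', hH', h2'⟩ := hG
  have hb' : PT (fun z : α × List ℕ × ℕ => b z.1) := by fun_prop
  refine Nice.mk' (d := fun x => e x + e' x) (n := fun x => e x + e' x) (t := fun x => e x + e' x)
    (by fun_prop) (by fun_prop) (by fun_prop) (CF.ite (CH.of_pt hb') hH hH') (fun x => ?_)
    (fun x => ?_) fun x a p hp hlt => ?_
  · cases b x
    · exact (h1' x).1.trans (by omega)
    · exact (h1 x).1.trans (by omega)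
  · cases b x
    · exact (h1' x).2.trans (Nat.pow_le_pow_right (by omega) (by omega))
    · exact (h1 x).2.trans (Nat.pow_le_pow_right (by omega) (by omega))
  · cases hx : b x
    · rw [if_neg (by simp)]
      exact h2' x a p hp (by omega)
    · rw [if_pos (by simp)]
      exact h2 x a p hp (by omega)

theorem Nice.sum {F : α × ℕ → ZP} {B : α → ℕ} (hF : Nice F) (hB : PT B) :
    Nice (fun x => ∑ y ∈ Finset.range (B x), F (x, y)) := by
  obtain ⟨e, he, h1, H, hH, h2⟩ := hF
  obtain ⟨D, hD, hlt⟩ := exists_bound he hB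
  have hH' : CF (fun z : (α × List ℕ × ℕ) × ℕ => H ((z.1.1, z.2), z.1.2.1, z.1.2.2)) :=
    hH.comp (by fun_prop)
  refine Nice.mk' (d := D) (n := fun x => B x + D x) (t := D) hD (by fun_prop) hD
    (CF.sum (B := fun z => B z.1) hH' (by fun_prop)) (fun x => ?_) (fun x => ?_)
    fun x a p hp hp' => ?_
  · exact totalDegree_finsetSum_le fun y hy =>
      (h1 (x, y)).1.trans (hlt x y (Finset.mem_range.1 hy)).le
  · refine (nrm_sum _ _).trans ((Finset.sum_le_card_nsmul _ _ (2 ^ D x) fun y hy =>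
      (h1 (x, y)).2.trans (Nat.pow_le_pow_right (by omega)
        (hlt x y (Finset.mem_range.1 hy)).le)).trans ?_)
    rw [Finset.card_range, smul_eq_mul, pow_add]
    exact Nat.mul_le_mul_right _ Nat.lt_two_pow_self.le
  · rw [map_sum, Nat.cast_sum]
    exact Finset.sum_congr rfl fun y hy =>
      h2 (x, y) a p hp ((hlt x y (Finset.mem_range.1 hy)).trans hp')

theorem Nice.prod {F : α × ℕ → ZP} {B : α → ℕ} (hF : Nice F) (hB : PT B) :
    Nice (fun x => ∏ y ∈ Finset.range (B x), F (x, y)) := by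
  obtain ⟨e, he, h1, H, hH, h2⟩ := hF
  obtain ⟨D, hD, hlt⟩ := exists_bound he hB
  have hH' : CF (fun z : (α × List ℕ × ℕ) × ℕ => H ((z.1.1, z.2), z.1.2.1, z.1.2.2)) :=
    hH.comp (by fun_prop)
  obtain ⟨G, hG, h3⟩ := CF.prodMod (B := fun z => B z.1) (p := fun z => z.2.2) hH' (by fun_prop)
    (by fun_prop)
  refine Nice.mk' (d := fun x => B x * D x) (n := fun x => D x * B x) (t := D) (by fun_prop)
    (by fun_prop) hD hG (fun x => ?_) (fun x => ?_) fun x a p hp hp' => ?_
  · refine (totalDegree_finsetProd _ _).trans ((Finset.sum_le_card_nsmul _ _ (D x) fun y hy =>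
      (h1 (x, y)).1.trans (hlt x y (Finset.mem_range.1 hy)).le).trans ?_)
    rw [Finset.card_range, smul_eq_mul]
  · refine (nrm_prod _ _).trans ((Finset.prod_le_pow_card _ _ (2 ^ D x) fun y hy =>
      (h1 (x, y)).2.trans (Nat.pow_le_pow_right (by omega)
        (hlt x y (Finset.mem_range.1 hy)).le)).trans ?_)
    rw [Finset.card_range, pow_mul]
  · rw [map_prod]
    refine (h3 (x, a, p) hp).trans ?_
    exact Finset.prod_congr rfl fun y hy =>
      h2 (x, y) a p hp ((hlt x y (Finset.mem_range.1 hy)).trans hp')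

theorem Nice.add {F G : α → ZP} (hF : Nice F) (hG : Nice G) : Nice (fun x => F x + G x) :=
  (Nice.sum (B := fun _ => 2) (Nice.cond (b := fun z : α × ℕ => eqb z.2 0) (by fun_prop)
    (hF.comp (g := fun z : α × ℕ => z.1) (by fun_prop))
    (hG.comp (g := fun z : α × ℕ => z.1) (by fun_prop))) (by fun_prop)).congr fun x => by
      simp [Finset.sum_range_succ, eqb]

theorem Nice.mul {F G : α → ZP} (hF : Nice F) (hG : Nice G) : Nice (fun x => F x * G x) :=
  (Nice.prod (B := fun _ => 2) (Nice.cond (b := fun z : α × ℕ => eqb z.2 0) (by fun_prop)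
    (hF.comp (g := fun z : α × ℕ => z.1) (by fun_prop))
    (hG.comp (g := fun z : α × ℕ => z.1) (by fun_prop))) (by fun_prop)).congr fun x => by
      simp [Finset.prod_range_succ, eqb]

theorem Nice.neg {F : α → ZP} (hF : Nice F) : Nice (fun x => - F x) :=
  ((Nice.int (c := fun _ => -1) (by fun_prop)).mul hF).congr fun x => by simp

theorem Nice.sub' {F G : α → ZP} (hF : Nice F) (hG : Nice G) : Nice (fun x => F x - G x) :=
  (hF.add hG.neg).congr fun _ => sub_eq_add_neg _ _

theorem Nice.pow {F : α → ZP} {k : α → ℕ} (hF : Nice F) (hk : PT k) :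
    Nice (fun x => F x ^ k x) :=
  (Nice.prod (hF.comp (g := fun z : α × ℕ => z.1) (by fun_prop)) hk).congr fun x => by simp

theorem Nice.sub {F : α → ZP} {G : α × ℕ → ZP} {m k : α → ℕ} (hF : Nice F) (hG : Nice G)
    (hm : Un m) (hk : PT k) : Nice (fun x => sub (m x) (k x) (fun i => G (x, i)) (F x)) := by
  obtain ⟨e, he, h1, H, hH, h2⟩ := hF
  obtain ⟨e', he', h1', H', hH', h2'⟩ := hG
  obtain ⟨D, hD, hlt⟩ := exists_bound he' hm.pt
  have k1 : CF (fun z : (α × List ℕ × ℕ) × ℕ => H' ((z.1.1, z.2), z.1.2.1, z.1.2.2)) :=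
    hH'.comp (by fun_prop)
  have k2 : CF (fun z : (α × List ℕ × ℕ) × List ℕ =>
      H (z.1.1, z.2 ++ z.1.2.1.drop (k z.1.1), z.1.2.2)) := hH.comp (by fun_prop)
  refine Nice.mk' (d := fun x => e x * (D x + 1)) (n := fun x => e x + D x * e x)
    (t := fun x => e x + D x) (by fun_prop) (by fun_prop) (by fun_prop)
    (CF.bindList (hm.comp (g := fun z : α × List ℕ × ℕ => z.1) (by fun_prop)) k1 k2)
    (fun x => ?_) (fun x => ?_)
    fun x a p hp hp' => ?_
  · refine (totalDegree_aeval (D := D x + 1) _ (F x) fun i => ?_).trans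
      (Nat.mul_le_mul_right _ (h1 x).1)
    split_ifs with hi
    · exact (h1' (x, i)).1.trans (by have := hlt x i hi; omega)
    · simp
  · refine (nrm_aeval (B := 2 ^ D x) _ (F x) Nat.one_le_two_pow fun i => ?_).trans ?_
    · split_ifs with hi
      · exact (h1' (x, i)).2.trans (Nat.pow_le_pow_right (by omega) (hlt x i hi).le)
      · rw [nrm_X]; exact Nat.one_le_two_pow
    · rw [pow_add, pow_mul]
      exact Nat.mul_le_mul (h1 x).2 (Nat.pow_le_pow_right (by positivity) (h1 x).1)
  · rw [aeval_sub]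
    refine (h2 x _ p hp (by omega)).trans ?_
    congr 2
    funext i
    rw [getD_map_append]
    split_ifs with hi
    · exact h2' (x, i) a p hp (by have := hlt x i hi; omega)
    · simp [List.getD_eq_getElem?_getD, add_comm]

theorem Nice.sub0 {F : α → ZP} {G : α × ℕ → ZP} {m : α → ℕ} (hF : Nice F) (hG : Nice G)
    (hm : Un m) : Nice (fun x => sub0 (m x) (fun i => G (x, i)) (F x)) := by
  obtain ⟨e, he, h1, H, hH, h2⟩ := hF
  obtain ⟨e', he', h1', H', hH', h2'⟩ := hG
  obtain ⟨D, hD, hlt⟩ := exists_bound he' hm.pt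
  have k1 : CF (fun z : (α × List ℕ × ℕ) × ℕ => H' ((z.1.1, z.2), z.1.2.1, z.1.2.2)) :=
    hH'.comp (by fun_prop)
  have k2 : CF (fun z : (α × List ℕ × ℕ) × List ℕ => H (z.1.1, z.2 ++ [], z.1.2.2)) :=
    hH.comp (by fun_prop)
  refine Nice.mk' (d := fun x => e x * D x) (n := fun x => e x + D x * e x)
    (t := fun x => e x + D x) (by fun_prop) (by fun_prop) (by fun_prop)
    (CF.bindList (hm.comp (g := fun z : α × List ℕ × ℕ => z.1) (by fun_prop)) k1 k2)
    (fun x => ?_) (fun x => ?_)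
    fun x a p hp hp' => ?_
  · refine (totalDegree_aeval (D := D x) _ (F x) fun i => ?_).trans
      (Nat.mul_le_mul_right _ (h1 x).1)
    split_ifs with hi
    · exact (h1' (x, i)).1.trans (hlt x i hi).le
    · simp
  · refine (nrm_aeval (B := 2 ^ D x) _ (F x) Nat.one_le_two_pow fun i => ?_).trans ?_
    · split_ifs with hi
      · exact (h1' (x, i)).2.trans (Nat.pow_le_pow_right (by omega) (hlt x i hi).le)
      · rw [nrm_zero]; exact Nat.zero_le _
    · rw [pow_add, pow_mul]
      exact Nat.mul_le_mul (h1 x).2 (Nat.pow_le_pow_right (by positivity) (h1 x).1)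
  · rw [aeval_sub0]
    refine (h2 x _ p hp (by omega)).trans ?_
    congr 2
    funext i
    rw [getD_map_append]
    split_ifs with hi
    · exact h2' (x, i) a p hp (by have := hlt x i hi; omega)
    · simp

theorem Nice.sh {F : α → ZP} {k : α → ℕ} (hF : Nice F) (hk : PT k) :
    Nice (fun x => sh (k x) (F x)) :=
  Nice.sub (G := fun _ => 0) hF ((Nice.nat (PT.const 0)).congr fun _ => by simp) (Un.const 0) hk

theorem Nice.ext {F : α → ZP} {n : α → ℕ} {b : α × ℕ → ℕ} (hF : Nice F) (hn : Un n)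
    (hb : PT b) : Nice (fun x => ext (n x) (fun i => b (x, i)) (F x)) := by
  obtain ⟨e, he, h1, H, hH, h2⟩ := hF
  obtain ⟨D, hD, hlt⟩ := exists_bound hb hn.pt
  have hr : PT (fun z : (α × List ℕ × ℕ) × ℕ => List.range (n z.1.1)) :=
    (hn.comp (g := fun z : (α × List ℕ × ℕ) × ℕ => z.1.1) (by fun_prop)).range
  have k1 : CF (fun z : (α × List ℕ × ℕ) × ℕ =>
      H (z.1.1, (List.range (n z.1.1)).map (fun i => dig z.1.2.2 z.2 i) ++ z.1.2.1, z.1.2.2)) :=
    hH.comp (PT.pair (by fun_prop) (PT.pair (PT.append (PT.map (by fun_prop) hr) (by fun_prop))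
      (by fun_prop)))
  have hb' : PT (fun z : ((α × List ℕ × ℕ) × ℕ) × ℕ => b (z.1.1.1, z.2)) := hb.comp (by fun_prop)
  have hn' : PT (fun z : (α × List ℕ × ℕ) × ℕ => n z.1.1) := hn.pt.comp (by fun_prop)
  have k2 : CF (fun z : ((α × List ℕ × ℕ) × ℕ) × ℕ => (z.1.1.2.2 - 1) *
      powMod (dig z.1.1.2.2 z.1.2 z.2) (z.1.1.2.2 - 1 - b (z.1.1.1, z.2)) z.1.1.2.2) :=
    CF.of_pt (PT.mul (by fun_prop) (pt_powMod (by fun_prop) (PT.sub (by fun_prop) hb')
      (by fun_prop)))
  obtain ⟨G, hG, h3⟩ := CF.prodMod (B := fun z => n z.1.1) (p := fun z => z.1.2.2) k2 hn'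
    (by fun_prop)
  have hB : PT (fun z : α × List ℕ × ℕ => z.2.2 ^ n z.1) :=
    (hn.comp (g := fun z : α × List ℕ × ℕ => z.1) (by fun_prop)).pow (by fun_prop)
  refine Nice.mk' (d := e) (n := e) (t := fun x => e x + 1 + D x) he he (by fun_prop)
    (CF.sum (k1.mul hG) hB) (fun x => (totalDegree_ext _ _ _).trans (h1 x).1)
    (fun x => (nrm_ext _ _ _).trans (h1 x).2) fun x a p hp hp' => ?_
  have : Fact p.Prime := ⟨hp⟩
  rw [aeval_ext, coeff_mod_prime _ _ (by
      have := (totalDegree_spec (n x) (fun i => ((a.getD i 0 : ℕ) : ZMod p)) (F x)).trans (h1 x).1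
      omega) (fun i => by
      have := hlt x i i.2
      simp only [fs, Finsupp.equivFunOnFinite_symm_apply_apply]
      omega), ← sum_dig, Nat.cast_sum]
  refine Finset.sum_congr rfl fun w _ => ?_
  rw [Nat.cast_mul, eval_spec]
  congr 1
  · refine (h2 x _ p hp (by omega)).trans ?_
    congr 2
    funext i
    rw [getD_map_append, app]
    split_ifs with hi <;> rfl
  · refine (h3 ((x, a, p), w) hp).trans ?_
    rw [Finset.prod_range]
    refine Finset.prod_congr rfl fun i _ => ?_
    simp only [fs, Finsupp.equivFunOnFinite_symm_apply_apply]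
    rw [Nat.cast_mul, cast_pred hp, powMod_eq hp.ne_zero, ZMod.natCast_mod, Nat.cast_pow]
    simp

theorem Nice.ext1 {F : α → ZP} {k : α → ℕ} (hF : Nice F) (hk : PT k) :
    Nice (fun x => ext1 (k x) (F x)) :=
  Nice.ext (b := fun z => k z.1) hF (Un.const 1) (PT.comp hk (by fun_prop))

theorem Nice.sign {F : α → ZP} (hF : Nice F) : CH (fun x => 0 < constantCoeff (F x)) := by
  obtain ⟨e, he, h1, H, hH, h2⟩ := hF
  refine CH.sign (G := fun z => H (z.1, [], z.2)) he (hH.comp (by fun_prop))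
    (fun x => (natAbs_constantCoeff _).trans (h1 x).2) fun x p hp hp' => ?_
  rw [← aeval_zero_eq]
  refine (h2 x [] p hp hp').trans ?_
  simp

end Vale.Agent.P337
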