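import Vale.Agent.P337.Nice

/-! Curried forms of the closure lemmas. -/

namespace Vale.Agent.P337

open Vale.Agent.Lib.H23 Enc MvPolynomial

variable {α β : Type} [Enc α] [Enc β]

theorem Nice.sumC {F : α → ℕ → ZP} {B : α → ℕ} (hF : Nice (fun z : α × ℕ => F z.1 z.2))
    (hB : PT B) : Nice (fun x => ∑ y ∈ Finset.range (B x), F x y) := hF.sum hB

theorem Nice.prodC {F : α → ℕ → ZP} {B : α → ℕ} (hF : Nice (fun z : α × ℕ => F z.1 z.2))
    (hB : PT B) : Nice (fun x => ∏ y ∈ Finset.range (B x), F x y) := hF.prod hB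

theorem Nice.subC {F : α → ZP} {G : α → ℕ → ZP} {m k : α → ℕ} (hF : Nice F)
    (hG : Nice (fun z : α × ℕ => G z.1 z.2)) (hm : Un m) (hk : PT k) :
    Nice (fun x => P337.sub (m x) (k x) (G x) (F x)) := by
  have := hF.sub hG hm hk
  exact this

theorem Nice.sub0C {F : α → ZP} {G : α → ℕ → ZP} {m : α → ℕ} (hF : Nice F)
    (hG : Nice (fun z : α × ℕ => G z.1 z.2)) (hm : Un m) :
    Nice (fun x => P337.sub0 (m x) (G x) (F x)) := by
  have := hF.sub0 hG hm
  exact this

theorem Nice.extC {F : α → ZP} {n : α → ℕ} {b : α → ℕ → ℕ} (hF : Nice F) (hn : Un n)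
    (hb : PT (fun z : α × ℕ => b z.1 z.2)) : Nice (fun x => P337.ext (n x) (b x) (F x)) := by
  have := hF.ext hn hb
  exact this

theorem Nice.fst {F : α → ZP} (hF : Nice F) : Nice (fun z : α × β => F z.1) :=
  hF.comp (by fun_prop)

theorem Nice.ofNat (c : ℕ) : Nice (fun _ : α => ((c : ℕ) : ZP)) := Nice.nat (PT.const c)

theorem Nice.zero : Nice (fun _ : α => (0 : ZP)) := (Nice.ofNat 0).congr fun _ => by simp

theorem Nice.one : Nice (fun _ : α => (1 : ZP)) := (Nice.ofNat 1).congr fun _ => by simp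

theorem Nice.two : Nice (fun _ : α => (2 : ZP)) := (Nice.ofNat 2).congr fun _ => by simp

theorem Nice.X (i : ℕ) : Nice (fun _ : α => (X i : ZP)) := Nice.var (PT.const i)

theorem Nice.iteEq {f g : α → ℕ} {F G : α → ZP} (hf : PT f) (hg : PT g) (hF : Nice F)
    (hG : Nice G) : Nice (fun x => if f x = g x then F x else G x) :=
  (Nice.cond (PT.eqb hf hg) hF hG).congr fun x => by by_cases h : f x = g x <;> simp [h]

theorem Nice.iteLt {f g : α → ℕ} {F G : α → ZP} (hf : PT f) (hg : PT g) (hF : Nice F)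
    (hG : Nice G) : Nice (fun x => if f x < g x then F x else G x) :=
  (Nice.cond (PT.ltb hf hg) hF hG).congr fun x => by by_cases h : f x < g x <;> simp [h]

theorem Un.fst {k : α → ℕ} (hk : Un k) : Un (fun z : α × β => k z.1) := hk.comp (by fun_prop)

end Vale.Agent.P337
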