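import Vale.Agent.P337.PTx
import Vale.Agent.P337.Poly

/-!
TASK Trace. An explicit trace formula for the system `X i ^ M + q i = 0`, `deg (q i) < M`.

Plan. `d = M ^ n`. For `deg g ≤ L` the value `cf M L q a g` does not depend on `L` (the term of
`k` vanishes when `∑ k > deg g`), it is linear, and it kills the ideal `I = (X i ^ M + q i)`
(reindex `k ↦ k + e i`; the terms with `k i = 0` vanish as `dig M a i < M`). The matrix
`E a b = cf a (mon b)` is `1 - N` with `N a b ≠ 0 → deg (mon a) < deg (mon b)`, so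
`N ^ (n M + 1) = 0` and `E⁻¹ = ∑ j ≤ n M, N ^ j`, `path d N j = N ^ j`. Every polynomial is congruent
mod `I` to a combination of the `mon b` (induction on the degree). So `π = E⁻¹ c : S → ℂ ^ d` has
kernel `I` and `π (mon b) = e b`; `ρ h = π ∘ (h * ·) ∘ ι` is an algebra map `S → End (ℂ ^ d)` with
trace `tr`. Apply `exists_points`.
-/

namespace Vale.Agent.P337

open MvPolynomial Finset

section
variable {R : Type} [CommRing R] {n : ℕ}

/-- coefficient functionals killing the ideal -/
noncomputable def cf (M L : ℕ) (q : Fin n → MvPolynomial (Fin n) R) (a : ℕ)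
    (g : MvPolynomial (Fin n) R) : R :=
  ∑ w ∈ range ((L + 1) ^ n), coeff (fs n fun i => dig M a i + M * dig (L + 1) w i)
    (g * ∏ i : Fin n, (- q i) ^ dig (L + 1) w i)

/-- reduced monomials -/
noncomputable def mon (R : Type) [CommRing R] (n M a : ℕ) : MvPolynomial (Fin n) R :=
  ∏ i : Fin n, X i ^ dig M a i

/-- vertices of the path with code `w` starting at `a` -/
def vert (d a w : ℕ) : ℕ → ℕ := fun i => if i = 0 then a else dig d w (i - 1)

/-- entries of a matrix power as a sum over paths -/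
def path (d : ℕ) (A : ℕ → ℕ → R) (j a b : ℕ) : R :=
  ∑ w ∈ range (d ^ j), if vert d a w j = b then
    ∏ i ∈ range j, A (vert d a w i) (vert d a w (i + 1)) else 0

/-- the nilpotent part -/
noncomputable def nmat (M L : ℕ) (q : Fin n → MvPolynomial (Fin n) R) (a b : ℕ) : R :=
  (if a = b then 1 else 0) - cf M L q a (mon R n M b)

/-- the trace formula -/
noncomputable def tr (M L : ℕ) (q : Fin n → MvPolynomial (Fin n) R)
    (h : MvPolynomial (Fin n) R) : R :=
  ∑ a ∈ range (M ^ n), ∑ b ∈ range (M ^ n),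
    (∑ j ∈ range (n * M + 1), path (M ^ n) (nmat M L q) j a b) * cf M L q b (h * mon R n M a)

end

theorem sub_eval_mem {n : ℕ} (J : Ideal (MvPolynomial (Fin n) ℂ)) (χ : Fin n → ℂ)
    (hJ : ∀ i, X i - C (χ i) ∈ J) (h : MvPolynomial (Fin n) ℂ) : h - C (eval χ h) ∈ J := by
  induction h using MvPolynomial.induction_on with
  | C a => simp
  | add p q hp hq =>
    have := J.add_mem hp hq
    convert this using 1
    simp only [map_add]; ring
  | mul_X p i hp =>
    have := J.add_mem (J.mul_mem_right (X i) hp) (J.mul_mem_left (C (eval χ p)) (hJ i))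
    convert this using 1
    simp only [map_mul, eval_X]; ring

theorem gen_nilp {n : ℕ} {V : Type} [AddCommGroup V] [Module ℂ V]
    (ρ : MvPolynomial (Fin n) ℂ →ₐ[ℂ] Module.End ℂ V) (χ : Fin n → ℂ) (v : V)
    (hv : v ∈ ⨅ i, (ρ (X i)).maxGenEigenspace (χ i)) (h : MvPolynomial (Fin n) ℂ) :
    ∃ k : ℕ, ((ρ h - eval χ h • (1 : Module.End ℂ V)) ^ k) v = 0 := by
  let J : Ideal (MvPolynomial (Fin n) ℂ) :=
    { carrier := {p | ρ p v = 0}
      add_mem' := fun {a b} ha hb => by
        simp only [Set.mem_ofPred_eq, map_add, LinearMap.add_apply] at *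
        rw [ha, hb, add_zero]
      zero_mem' := by simp
      smul_mem' := fun c x hx => by
        simp only [Set.mem_ofPred_eq, smul_eq_mul, map_mul, Module.End.mul_apply] at *
        rw [hx, map_zero] }
  have key : ∀ (p : MvPolynomial (Fin n) ℂ) (c : ℂ) (k : ℕ),
      ρ ((p - C c) ^ k) = (ρ p - c • (1 : Module.End ℂ V)) ^ k := by
    intro p c k
    rw [map_pow, map_sub, ← algebraMap_eq, AlgHom.commutes, Algebra.algebraMap_eq_smul_one]
  rw [Module.End.mem_iInf_maxGenEigenspace_iff] at hv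
  obtain ⟨k, hk⟩ := sub_eval_mem J.radical χ (fun i => by
    obtain ⟨k, hk⟩ := hv i
    exact ⟨k, show ρ _ v = 0 by rw [key]; exact hk⟩) h
  exact ⟨k, by rw [← key]; exact hk⟩

/-- simultaneous triangularisation -/
theorem exists_points {n d : ℕ} {V : Type} [AddCommGroup V] [Module ℂ V] [Module.Finite ℂ V]
    (hd : Module.finrank ℂ V = d) (ρ : MvPolynomial (Fin n) ℂ →ₐ[ℂ] Module.End ℂ V) :
    ∃ z : Fin d → Fin n → ℂ, (∀ h, LinearMap.trace ℂ V (ρ h) = ∑ j, eval (z j) h) ∧
      ∀ h, (∀ j, eval (z j) h = 0) → IsNilpotent (ρ h) := by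
  classical
  let N : (Fin n → ℂ) → Submodule ℂ V := fun χ => ⨅ i, (ρ (X i)).maxGenEigenspace (χ i)
  have hcomm : ∀ p q, Commute (ρ p) (ρ q) := fun p q => (Commute.all p q).map ρ
  have hmap0 : ∀ h j φ, Set.MapsTo (ρ h) ((ρ (X j)).maxGenEigenspace φ)
      ((ρ (X j)).maxGenEigenspace φ) :=
    fun h j φ => Module.End.mapsTo_maxGenEigenspace_of_comm (hcomm _ _) φ
  have hmap : ∀ h χ, Set.MapsTo (ρ h) (N χ) (N χ) := by
    intro h χ v hv
    simp only [N, SetLike.mem_coe, Submodule.mem_iInf] at hv ⊢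
    exact fun i => hmap0 h i _ (hv i)
  have hind : iSupIndep N :=
    Module.End.independent_iInf_maxGenEigenspace_of_forall_mapsTo (fun i => ρ (X i))
      (fun i j φ => hmap0 _ j φ)
  have htop : ⨆ χ, N χ = ⊤ :=
    Module.End.iSup_iInf_maxGenEigenspace_eq_top_of_forall_mapsTo (fun i => ρ (X i))
      (fun i j φ => hmap0 _ j φ) (fun i => Module.End.iSup_maxGenEigenspace_eq_top _)
  have hds := DirectSum.isInternal_submodule_of_iSupIndep_of_iSup_eq_top hind htop
  have hfin : {χ | N χ ≠ ⊥}.Finite := WellFoundedGT.finite_ne_bot_of_iSupIndep hind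
  have htr : ∀ h, LinearMap.trace ℂ V (ρ h) =
      ∑ χ ∈ hfin.toFinset, (Module.finrank ℂ (N χ) : ℂ) * eval χ h := by
    intro h
    rw [LinearMap.trace_eq_sum_trace_restrict' hds hfin (hmap h)]
    refine sum_congr rfl fun χ _ => ?_
    have hnil : IsNilpotent ((ρ h).restrict (hmap h χ) - eval χ h • (1 : Module.End ℂ (N χ))) := by
      rw [Module.End.isNilpotent_iff_of_finite]
      intro v
      obtain ⟨k, hk⟩ := gen_nilp ρ χ v v.2 h
      refine ⟨k, Subtype.ext ?_⟩
      have : ∀ (k : ℕ) (v : N χ), (((((ρ h).restrict (hmap h χ) -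
          eval χ h • (1 : Module.End ℂ (N χ))) ^ k) v : N χ) : V) =
          ((ρ h - eval χ h • (1 : Module.End ℂ V)) ^ k) v := by
        intro k
        induction k with
        | zero => intro v; rfl
        | succ k ih => intro v; rw [pow_succ, pow_succ, Module.End.mul_apply, ih]; rfl
      rw [this, hk]; rfl
    have h0 := (LinearMap.isNilpotent_trace_of_isNilpotent hnil).eq_zero
    rw [map_sub, map_smul, LinearMap.trace_one, sub_eq_zero] at h0
    rw [h0, smul_eq_mul, mul_comm]
  have hcard : Fintype.card (Σ χ : hfin.toFinset, Fin (Module.finrank ℂ (N χ))) = d := by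
    have h1 := htr 1
    rw [map_one, LinearMap.trace_one, hd] at h1
    simp only [map_one, mul_one] at h1
    rw [Fintype.card_sigma]
    simp only [Fintype.card_fin]
    rw [sum_coe_sort hfin.toFinset (fun χ => Module.finrank ℂ (N χ))]
    exact_mod_cast h1.symm
  let e := (Fintype.equivFinOfCardEq hcard).symm
  refine ⟨fun j => (e j).1.1, fun h => ?_, fun h hh => ?_⟩
  · rw [htr, e.sum_comp (fun p => eval p.1.1 h), Fintype.sum_sigma,
      ← sum_coe_sort hfin.toFinset]
    simp
  · rw [Module.End.isNilpotent_iff_of_finite]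
    have : (⊤ : Submodule ℂ V) ≤ (ρ h).maxGenEigenspace 0 := by
      rw [← htop]
      refine iSup_le fun χ => ?_
      by_cases hχ : N χ = ⊥
      · rw [hχ]; exact bot_le
      · have hpos : 0 < Module.finrank ℂ (N χ) := by
          rw [Nat.pos_iff_ne_zero, Ne, Submodule.finrank_eq_zero]; exact hχ
        have h0 := hh (e.symm ⟨⟨χ, by simpa using hχ⟩, ⟨0, hpos⟩⟩)
        simp only [Equiv.apply_symm_apply] at h0
        intro v hv
        obtain ⟨k, hk⟩ := gen_nilp ρ χ v hv h
        rw [Module.End.mem_maxGenEigenspace]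
        exact ⟨k, by rwa [h0] at hk⟩
    intro v
    have hv := this (Submodule.mem_top (x := v))
    rw [Module.End.mem_maxGenEigenspace] at hv
    simpa using hv

/-- `z` lists the solutions with multiplicity, in the sense of the trace formula -/
def RootSys {n : ℕ} (M : ℕ) (q : Fin n → MvPolynomial (Fin n) ℂ) (z : Fin (M ^ n) → Fin n → ℂ) :
    Prop :=
  ∀ h L, h.totalDegree + n * M ≤ L → tr M L q h = ∑ j, eval (z j) h

section Roots
variable {n : ℕ}

/-- exponent vector of a function on `Fin n` -/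
noncomputable def fv (f : Fin n → ℕ) : Fin n →₀ ℕ := Finsupp.equivFunOnFinite.symm f

@[simp] theorem fv_apply (f : Fin n → ℕ) (i : Fin n) : fv f i = f i := rfl

/-- one term of `cf` -/
noncomputable def tterm (M : ℕ) (q : Fin n → MvPolynomial (Fin n) ℂ) (α k : Fin n → ℕ)
    (g : MvPolynomial (Fin n) ℂ) : ℂ :=
  coeff (fv fun i => α i + M * k i) (g * ∏ i : Fin n, (- q i) ^ k i)

theorem cf_eq_sum (M L : ℕ) (q : Fin n → MvPolynomial (Fin n) ℂ) (a : ℕ)
    (g : MvPolynomial (Fin n) ℂ) :
    cf M L q a g = ∑ k ∈ Fintype.piFinset (fun _ : Fin n => range (L + 1)),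
      tterm M q (fun i => dig M a i) k g := by
  rw [← sum_dig]
  rfl

theorem tterm_ne_zero {M : ℕ} {q : Fin n → MvPolynomial (Fin n) ℂ}
    (hq : ∀ i, (q i).totalDegree < M) {α k : Fin n → ℕ} {g : MvPolynomial (Fin n) ℂ}
    (h : tterm M q α k g ≠ 0) : ∑ i, α i + ∑ i, k i ≤ g.totalDegree := by
  have h1 := le_totalDegree (mem_support_iff.2 h)
  rw [Finsupp.sum_fintype _ _ (fun _ => rfl)] at h1
  simp only [fv_apply, sum_add_distrib] at h1
  have h2 : (g * ∏ i : Fin n, (- q i) ^ k i).totalDegree ≤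
      g.totalDegree + ∑ i, k i * (q i).totalDegree := by
    refine (totalDegree_mul _ _).trans (Nat.add_le_add_left ?_ _)
    refine (totalDegree_finsetProd _ _).trans (sum_le_sum fun i _ => ?_)
    refine (totalDegree_pow _ _).trans ?_
    rw [totalDegree_neg]
  have h3 : ∑ i, k i * (q i).totalDegree + ∑ i, k i ≤ ∑ i, M * k i := by
    rw [← sum_add_distrib]
    refine sum_le_sum fun i _ => ?_
    have := hq i
    nlinarith
  omega

theorem tterm_eq_zero {M L : ℕ} {q : Fin n → MvPolynomial (Fin n) ℂ}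
    (hq : ∀ i, (q i).totalDegree < M) (α : Fin n → ℕ) {k : Fin n → ℕ} {g : MvPolynomial (Fin n) ℂ}
    (hg : g.totalDegree ≤ L) (hk : k ∉ Fintype.piFinset (fun _ : Fin n => range (L + 1))) :
    tterm M q α k g = 0 := by
  by_contra h
  apply hk
  have h1 := tterm_ne_zero hq h
  rw [Fintype.mem_piFinset]
  intro i
  have := single_le_sum (f := k) (fun _ _ => Nat.zero_le _) (mem_univ i)
  rw [mem_range]; omega

theorem sum_eq_of_support {ι : Type} {A B : Finset ι} {f : ι → ℂ} (hA : ∀ k ∉ A, f k = 0)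
    (hB : ∀ k ∉ B, f k = 0) : ∑ k ∈ A, f k = ∑ k ∈ B, f k := by
  classical
  rw [sum_subset (subset_union_left (s₁ := A) (s₂ := B)) (fun x _ hx => hA x hx),
    sum_subset (subset_union_right (s₁ := A) (s₂ := B)) (fun x _ hx => hB x hx)]

theorem cf_indep {M L L' : ℕ} {q : Fin n → MvPolynomial (Fin n) ℂ}
    (hq : ∀ i, (q i).totalDegree < M) (a : ℕ) {g : MvPolynomial (Fin n) ℂ}
    (hL : g.totalDegree ≤ L) (hL' : g.totalDegree ≤ L') : cf M L q a g = cf M L' q a g := by
  rw [cf_eq_sum, cf_eq_sum]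
  exact sum_eq_of_support (fun k hk => tterm_eq_zero hq _ hL hk) (fun k hk => tterm_eq_zero hq _ hL' hk)

theorem cf_add (M L : ℕ) (q : Fin n → MvPolynomial (Fin n) ℂ) (a : ℕ)
    (g g' : MvPolynomial (Fin n) ℂ) : cf M L q a (g + g') = cf M L q a g + cf M L q a g' := by
  simp [cf, add_mul, sum_add_distrib]

theorem cf_smul (M L : ℕ) (q : Fin n → MvPolynomial (Fin n) ℂ) (a : ℕ) (c : ℂ)
    (g : MvPolynomial (Fin n) ℂ) : cf M L q a (c • g) = c * cf M L q a g := by
  simp [cf, mul_sum]

/-- the functional `cf` as a linear map -/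
noncomputable def cl {M : ℕ} {q : Fin n → MvPolynomial (Fin n) ℂ}
    (hq : ∀ i, (q i).totalDegree < M) (a : ℕ) : MvPolynomial (Fin n) ℂ →ₗ[ℂ] ℂ where
  toFun g := cf M g.totalDegree q a g
  map_add' g g' := by
    rw [cf_indep hq a le_rfl (totalDegree_add g g'), cf_add,
      cf_indep hq a (le_max_left _ _) le_rfl, cf_indep hq a (le_max_right _ _) le_rfl]
  map_smul' c g := by
    rw [cf_indep hq a le_rfl (totalDegree_smul_le c g), cf_smul]
    rfl

theorem cl_eq {M L : ℕ} {q : Fin n → MvPolynomial (Fin n) ℂ}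
    (hq : ∀ i, (q i).totalDegree < M) (a : ℕ) {g : MvPolynomial (Fin n) ℂ}
    (hL : g.totalDegree ≤ L) : cl hq a g = cf M L q a g := cf_indep hq a le_rfl hL

theorem cl_gen {M : ℕ} (hM : 0 < M) {q : Fin n → MvPolynomial (Fin n) ℂ}
    (hq : ∀ i, (q i).totalDegree < M) (a : ℕ) (g : MvPolynomial (Fin n) ℂ) (i : Fin n) :
    cl hq a (g * (X i ^ M + q i)) = 0 := by
  classical
  set L := max (g * X i ^ M).totalDegree (g * q i).totalDegree with hL
  have hX : ∀ k : Fin n → ℕ, g * X i ^ M * ∏ j : Fin n, (- q j) ^ k j =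
      (g * ∏ j : Fin n, (- q j) ^ k j) * monomial (Finsupp.single i M) 1 := by
    intro k
    rw [← X_pow_eq_monomial]; ring
  have h1 : ∀ k : Fin n → ℕ, k i = 0 → tterm M q (fun j => dig M a j) k (g * X i ^ M) = 0 := by
    intro k hk
    rw [tterm, hX, coeff_mul_monomial', if_neg]
    rw [Finsupp.single_le_iff, fv_apply, hk]
    have := dig_lt hM a i
    omega
  have h2 : ∀ k : Fin n → ℕ, tterm M q (fun j => dig M a j) (k + Pi.single i 1) (g * X i ^ M) =
      - tterm M q (fun j => dig M a j) k (g * q i) := by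
    intro k
    have e1 : (fv fun j => dig M a j + M * (k + Pi.single i 1 : Fin n → ℕ) j) =
        (fv fun j => dig M a j + M * k j) + Finsupp.single i M := by
      ext j
      by_cases hj : j = i
      · subst hj; simp; ring
      · simp [hj]
    have e2 : (∏ j : Fin n, (- q j) ^ (k + Pi.single i 1 : Fin n → ℕ) j) =
        (∏ j : Fin n, (- q j) ^ k j) * (- q i) := by
      simp only [Pi.add_apply, pow_add, prod_mul_distrib]
      congr 1
      rw [prod_eq_single i] <;> simp +contextual
    rw [tterm, hX, e1, coeff_mul_monomial, e2, tterm, mul_one, ← coeff_neg]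
    congr 1
    ring
  rw [mul_add, map_add, cl_eq hq a (le_max_left _ _ : _ ≤ L), cl_eq hq a (le_max_right _ _ : _ ≤ L),
    cf_eq_sum, cf_eq_sum]
  rw [sum_eq_of_support (B := (Fintype.piFinset (fun _ : Fin n => range (L + 1))).image
    (fun k => k + Pi.single i 1)) (fun k hk => tterm_eq_zero hq _ (le_max_left _ _) hk)]
  · rw [sum_image (fun x _ y _ h => add_right_cancel h), ← sum_add_distrib]
    exact sum_eq_zero fun k _ => by rw [h2]; ring
  · intro k hk
    by_cases hki : k i = 0
    · exact h1 k hki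
    · have e : k = (k - Pi.single i 1) + Pi.single i 1 := by
        ext j
        by_cases hj : j = i
        · subst hj; simp; omega
        · simp [hj]
      rw [e, h2, tterm_eq_zero hq _ (le_max_right _ _ : _ ≤ L), neg_zero]
      intro hmem
      exact hk (mem_image.2 ⟨_, hmem, e.symm⟩)

theorem cl_ideal {M : ℕ} (hM : 0 < M) {q : Fin n → MvPolynomial (Fin n) ℂ}
    (hq : ∀ i, (q i).totalDegree < M) (a : ℕ) {g : MvPolynomial (Fin n) ℂ}
    (hg : g ∈ Ideal.span (Set.range fun i => X i ^ M + q i)) : cl hq a g = 0 := by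
  obtain ⟨c, rfl⟩ := Ideal.mem_span_range_iff_exists_fun.1 hg
  rw [map_sum]
  exact sum_eq_zero fun i _ => cl_gen hM hq a _ i

theorem mon_eq (M a : ℕ) : mon ℂ n M a = monomial (fv fun i : Fin n => dig M a i) 1 := by
  rw [mon, monomial_eq, C_1, one_mul, Finsupp.prod_fintype _ _ (fun _ => pow_zero _)]
  rfl

theorem totalDegree_mon (M a : ℕ) : (mon ℂ n M a).totalDegree = ∑ i : Fin n, dig M a i := by
  rw [mon_eq, totalDegree_monomial _ one_ne_zero, Finsupp.sum_fintype _ _ (fun _ => rfl)]
  rfl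

theorem sum_dig_le {M : ℕ} (hM : 0 < M) (a : ℕ) : ∑ i : Fin n, dig M a i ≤ n * M := by
  calc ∑ i : Fin n, dig M a i ≤ ∑ _i : Fin n, M := sum_le_sum fun i _ => (dig_lt hM a i).le
    _ = n * M := by simp

theorem nmat_ne_zero {M : ℕ} {q : Fin n → MvPolynomial (Fin n) ℂ}
    (hq : ∀ i, (q i).totalDegree < M) {a b : ℕ} (ha : a < M ^ n) (hb : b < M ^ n)
    (h : (if a = b then 1 else 0) - cl hq a (mon ℂ n M b) ≠ 0) :
    ∑ i : Fin n, dig M a i < ∑ i : Fin n, dig M b i := by
  classical
  by_contra hlt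
  apply h
  rw [cl_eq hq a le_rfl, cf_eq_sum, sum_eq_single (0 : Fin n → ℕ)]
  · rw [tterm, mon_eq]
    simp only [Pi.zero_apply, mul_zero, add_zero, pow_zero, prod_const_one, mul_one,
      coeff_monomial]
    have : ((fv fun i : Fin n => dig M b i) = fv fun i : Fin n => dig M a i) ↔ a = b := by
      constructor
      · intro h
        refine dig_inj ha hb fun i hi => ?_
        exact (congrArg (fun f => f ⟨i, hi⟩) h).symm
      · rintro rfl; rfl
    simp [this]
  · intro k _ hk
    by_contra h0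
    have h1 := tterm_ne_zero hq h0
    rw [totalDegree_mon] at h1
    apply hk
    ext i
    have := single_le_sum (f := k) (fun _ _ => Nat.zero_le _) (mem_univ i)
    simp only [Pi.zero_apply]
    omega
  · intro h0
    exfalso
    apply h0
    simp [Fintype.mem_piFinset]

theorem sum_range_mul' {A : Type} [AddCommMonoid A] (f : ℕ → A) (m k : ℕ) :
    ∑ w ∈ range (k * m), f w = ∑ x ∈ range m, ∑ y ∈ range k, f (y + k * x) := by
  induction m with
  | zero => simp
  | succ m ih =>
    rw [mul_add, mul_one, sum_range_add, ih, sum_range_succ]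
    simp [add_comm]

theorem path_succ (d : ℕ) (A : ℕ → ℕ → ℂ) (j a b : ℕ) :
    path d A (j + 1) a b = ∑ c ∈ range d, A a c * path d A j c b := by
  rw [path, pow_succ', sum_range_mul', sum_comm]
  refine sum_congr rfl fun c hc => ?_
  rw [path, mul_sum]
  refine sum_congr rfl fun w _ => ?_
  rw [mem_range] at hc
  have hv : ∀ i, vert d a (c + d * w) (i + 1) = vert d c w i := by
    intro i
    rcases i with _ | i
    · simp [vert, dig, Nat.mod_eq_of_lt hc]
    · simp only [vert, dig, Nat.add_eq_zero_iff, one_ne_zero, and_false, if_false,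
        Nat.add_sub_cancel]
      rw [pow_succ', ← Nat.div_div_eq_div_mul, Nat.add_mul_div_left _ _ (by omega),
        Nat.div_eq_of_lt hc, zero_add]
  rw [prod_range_succ']
  simp only [hv]
  have h0 : vert d a (c + d * w) 0 = a := by simp [vert]
  have h1 : vert d c w 0 = c := by simp [vert]
  rw [h0, h1]
  split_ifs
  · ring
  · simp

theorem path_eq_pow (d : ℕ) (A : ℕ → ℕ → ℂ) (j : ℕ) (a b : Fin d) :
    path d A j a b = ((Matrix.of fun x y : Fin d => A x y) ^ j) a b := by
  induction j generalizing a with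
  | zero => simp [path, vert, Matrix.one_apply, Fin.ext_iff]
  | succ j ih =>
    rw [path_succ, pow_succ', Matrix.mul_apply,
      ← Fin.sum_univ_eq_sum_range (fun c => A a c * path d A j c b)]
    simp [ih]

theorem exists_reduce {M : ℕ} {q : Fin n → MvPolynomial (Fin n) ℂ}
    (hq : ∀ i, (q i).totalDegree < M) (g : MvPolynomial (Fin n) ℂ) :
    g ∈ Submodule.span ℂ (Set.range fun b : Fin (M ^ n) => mon ℂ n M b) ⊔
      (Ideal.span (Set.range fun i => X i ^ M + q i)).restrictScalars ℂ := by
  classical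
  suffices H : ∀ D (g : MvPolynomial (Fin n) ℂ), g.totalDegree < D →
      g ∈ Submodule.span ℂ (Set.range fun b : Fin (M ^ n) => mon ℂ n M b) ⊔
      (Ideal.span (Set.range fun i => X i ^ M + q i)).restrictScalars ℂ from
    H _ g (Nat.lt_succ_self _)
  intro D
  induction D with
  | zero => intro g hg; omega
  | succ D ih =>
    intro g hg
    rw [g.as_sum]
    refine Submodule.sum_mem _ fun m hm => ?_
    have hmD : (m.sum fun _ e => e) ≤ D := by have := le_totalDegree hm; omega
    rw [show (monomial m (coeff m g) : MvPolynomial (Fin n) ℂ) = coeff m g • monomial m 1 by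
      rw [smul_monomial, smul_eq_mul, mul_one]]
    refine Submodule.smul_mem _ _ ?_
    by_cases hlt : ∀ i, m i < M
    · obtain ⟨w, hw, hw'⟩ := exists_dig (b := M) (n := n)
        (fun i => if h : i < n then m ⟨i, h⟩ else 0) (fun i hi => by simpa [hi] using hlt _)
      refine Submodule.mem_sup_left (Submodule.subset_span ⟨⟨w, hw⟩, ?_⟩)
      simp only [mon_eq]
      congr 2
      ext i
      simp [hw' i i.2]
    · push Not at hlt
      obtain ⟨i, hi⟩ := hlt
      have e : m = (m - Finsupp.single i M) + Finsupp.single i M :=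
        (tsub_add_cancel_of_le (Finsupp.single_le_iff.2 hi)).symm
      generalize m - Finsupp.single i M = m' at e
      subst e
      have e2 : (monomial (m' + Finsupp.single i M) 1 : MvPolynomial (Fin n) ℂ) =
          monomial m' 1 * (X i ^ M + q i) - monomial m' 1 * q i := by
        rw [mul_add, add_sub_cancel_right, X_pow_eq_monomial, monomial_mul, mul_one]
      rw [e2]
      refine Submodule.sub_mem _ (Submodule.mem_sup_right ?_) (ih _ ?_)
      · exact Ideal.mul_mem_left _ _ (Ideal.subset_span ⟨i, rfl⟩)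
      · rw [Finsupp.sum_add_index' (fun _ => rfl) (fun _ _ _ => rfl),
          Finsupp.sum_single_index rfl] at hmD
        have h1 := totalDegree_mul (monomial m' (1 : ℂ)) (q i)
        rw [totalDegree_monomial _ one_ne_zero] at h1
        have := hq i
        omega

end Roots

theorem roots_exist {n M : ℕ} (hM : 0 < M) (q : Fin n → MvPolynomial (Fin n) ℂ)
    (hq : ∀ i, (q i).totalDegree < M) :
    ∃ z, RootSys M q z ∧ ∀ y : Fin n → ℂ, (∀ i, y i ^ M + eval y (q i) = 0) → ∃ j, z j = y := by
  classical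
  set I : Ideal (MvPolynomial (Fin n) ℂ) := Ideal.span (Set.range fun i => X i ^ M + q i) with hI
  let N : Matrix (Fin (M ^ n)) (Fin (M ^ n)) ℂ :=
    Matrix.of fun a b => (if a.val = b.val then 1 else 0) - cl hq a (mon ℂ n M b)
  have hNpow : ∀ (j : ℕ) (a b : Fin (M ^ n)), (N ^ j) a b ≠ 0 →
      ∑ i : Fin n, dig M a i + j ≤ ∑ i : Fin n, dig M b i := by
    intro j
    induction j with
    | zero =>
      intro a b h
      by_cases hab : a = b
      · simp [hab]
      · simp [hab] at h
    | succ j ih =>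
      intro a b h
      rw [pow_succ', Matrix.mul_apply] at h
      obtain ⟨c, _, hc⟩ := exists_ne_zero_of_sum_ne_zero h
      have h1 := nmat_ne_zero hq a.2 c.2 (left_ne_zero_of_mul hc)
      have h2 := ih c b (right_ne_zero_of_mul hc)
      omega
  have hN0 : N ^ (n * M + 1) = 0 := by
    ext a b
    by_contra h
    have h1 := hNpow _ a b h
    have h2 := sum_dig_le (n := n) hM b
    omega
  let Ei : Matrix (Fin (M ^ n)) (Fin (M ^ n)) ℂ := ∑ j ∈ range (n * M + 1), N ^ j
  have hEi : Ei * (1 - N) = 1 := by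
    simp only [Ei]
    rw [geom_sum_mul_neg, hN0, sub_zero]
  let cv : MvPolynomial (Fin n) ℂ →ₗ[ℂ] (Fin (M ^ n) → ℂ) := LinearMap.pi fun a => cl hq a
  let π : MvPolynomial (Fin n) ℂ →ₗ[ℂ] (Fin (M ^ n) → ℂ) := Ei.mulVecLin ∘ₗ cv
  let ι : (Fin (M ^ n) → ℂ) →ₗ[ℂ] MvPolynomial (Fin n) ℂ :=
    Fintype.linearCombination ℂ (fun b : Fin (M ^ n) => mon ℂ n M b)
  have hπι : ∀ c, π (ι c) = c := by
    intro c
    have : cv (ι c) = (1 - N).mulVec c := by
      ext a
      simp [cv, ι, Fintype.linearCombination_apply, Matrix.mulVec, dotProduct, N,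
        Matrix.one_apply, Fin.ext_iff, mul_comm]
    simp only [π, LinearMap.comp_apply, this, Matrix.mulVecLin_apply, Matrix.mulVec_mulVec, hEi,
      Matrix.one_mulVec]
  have hπI : ∀ g ∈ I, π g = 0 := by
    intro g hg
    have : cv g = 0 := by
      ext a
      exact cl_ideal hM hq a hg
    simp only [π, LinearMap.comp_apply, this, map_zero]
  have hred : ∀ g, g - ι (π g) ∈ I := by
    intro g
    obtain ⟨x, hx, y, hy, rfl⟩ := Submodule.mem_sup.1 (exists_reduce hq g)
    rw [← Fintype.range_linearCombination] at hx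
    obtain ⟨c, rfl⟩ := hx
    rw [map_add, hπι, hπI y hy, add_zero, add_sub_cancel_left]
    exact hy
  have hmul : ∀ h g, π (h * ι (π g)) = π (h * g) := by
    intro h g
    have := hπI _ (I.mul_mem_left h (hred g))
    rw [mul_sub, map_sub, sub_eq_zero] at this
    exact this.symm
  let ρ0 : MvPolynomial (Fin n) ℂ →ₗ[ℂ] Module.End ℂ (Fin (M ^ n) → ℂ) :=
    { toFun := fun h => π ∘ₗ LinearMap.mulLeft ℂ h ∘ₗ ι
      map_add' := fun h h' => by
        refine LinearMap.ext fun c => ?_
        simp [add_mul]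
      map_smul' := fun r h => by
        refine LinearMap.ext fun c => ?_
        simp }
  have hρ0 : ∀ h c, ρ0 h c = π (h * ι c) := fun _ _ => rfl
  let ρ : MvPolynomial (Fin n) ℂ →ₐ[ℂ] Module.End ℂ (Fin (M ^ n) → ℂ) :=
    AlgHom.ofLinearMap ρ0
      (LinearMap.ext fun c => by rw [hρ0, one_mul, hπι]; rfl)
      (fun h h' => LinearMap.ext fun c => by
        rw [Module.End.mul_apply, hρ0, hρ0, hρ0, hmul, mul_assoc])
  have hρ : ∀ h c, ρ h c = π (h * ι c) := fun _ _ => rfl
  obtain ⟨z, hz1, hz2⟩ := exists_points (d := M ^ n) (by simp) ρ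
  refine ⟨z, fun h L hL => ?_, fun y hy => ?_⟩
  · rw [← hz1, LinearMap.trace_eq_matrix_trace ℂ (Pi.basisFun ℂ _), Matrix.trace, tr,
      ← Fin.sum_univ_eq_sum_range (fun a => ∑ b ∈ range (M ^ n),
        (∑ j ∈ range (n * M + 1), path (M ^ n) (nmat M L q) j a b) *
          cf M L q b (h * mon ℂ n M a))]
    refine sum_congr rfl fun a _ => ?_
    have hmon : ∀ b, (mon ℂ n M b).totalDegree ≤ n * M := fun b => by
      rw [totalDegree_mon]; exact sum_dig_le hM b
    have hNN : (Matrix.of fun x y : Fin (M ^ n) => nmat M L q x y) = N := by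
      ext x y
      simp only [Matrix.of_apply, nmat, N]
      rw [cl_eq hq (L := L) _ ((hmon y).trans (by omega))]
    rw [← Fin.sum_univ_eq_sum_range (fun b =>
        (∑ j ∈ range (n * M + 1), path (M ^ n) (nmat M L q) j a b) *
          cf M L q b (h * mon ℂ n M a))]
    have hι : ι (Pi.single a 1) = mon ℂ n M a := by
      simp [ι, Fintype.linearCombination_apply, Pi.single_apply]
    rw [Matrix.diag_apply, LinearMap.toMatrix_apply, Pi.basisFun_repr, Pi.basisFun_apply, hρ, hι]
    simp only [π, LinearMap.comp_apply, Matrix.mulVecLin_apply, Matrix.mulVec, dotProduct]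
    refine sum_congr rfl fun b _ => ?_
    congr 1
    · simp only [path_eq_pow, hNN, Ei, Matrix.sum_apply]
    · refine (cl_eq hq _ ((totalDegree_mul _ _).trans ?_)).symm
      have := hmon a
      omega
  · by_contra hne
    push Not at hne
    have hne' : ∀ j, ∃ i, z j i ≠ y i := fun j => Function.ne_iff.1 (hne j)
    choose i hi using hne'
    obtain ⟨k, hk⟩ := hz2 (∏ j, (X (i j) - C (z j (i j)))) (fun j => by
      rw [map_prod]
      exact prod_eq_zero (mem_univ j) (by simp))
    rw [← map_pow] at hk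
    have h1 : π ((∏ j, (X (i j) - C (z j (i j)))) ^ k) = 0 := by
      have := hρ ((∏ j, (X (i j) - C (z j (i j)))) ^ k) (π 1)
      rw [hk, hmul, mul_one] at this
      exact this.symm
    have h2 := hred ((∏ j, (X (i j) - C (z j (i j)))) ^ k)
    rw [h1, map_zero, sub_zero] at h2
    have h3 : I ≤ RingHom.ker (eval y) := by
      rw [hI, Ideal.span_le]
      rintro _ ⟨j, rfl⟩
      simpa using hy j
    have h4 := h3 h2
    rw [RingHom.mem_ker, map_pow, map_prod] at h4
    obtain ⟨j, _, hj⟩ := prod_eq_zero_iff.1 (eq_zero_of_pow_eq_zero h4)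
    simp only [map_sub, eval_X, eval_C, sub_eq_zero] at hj
    exact hi j hj.symm

end Vale.Agent.P337
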