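import Vale.Agent.P337.NiceC
import Vale.Agent.P337.Trace
import Vale.Agent.P337.Newton

/-!
Products and weighted sums over the roots are nice.

Plan. `exists_norm`: define syntactic versions `cfS`, `trS` on `ZP` (with `ext n` instead of `coeff`,
products over `range n`), prove `aeval φ (trS ..) = tr M L (spec n φ ∘ Q) (spec n φ H)` and niceness
by the closure lemmas (`if a = b` is `cond (eqb a b)`); with `e` a degree bound for `B`,
`d = M ^ n`, `L = e * d + n * M`, take `ext1 d (expS d (logS d fun k => trS (B ^ k)))` where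
`logS`, `expS` use `X 0` and `sh 1`; use `aeval_ext1`, `spec1_sh`, `newton`.
`HasNorm.wsum`: apply the norm to `B(U; φ) + s A(U; φ)` with a new parameter `s` (variable `1`,
use `sub 1 2`), take the coefficient of `s` (`Polynomial.funext`, `eval_spec1`).
-/

namespace Vale.Agent.P337

open Vale.Agent.Lib.H23 Enc MvPolynomial

variable {α : Type} [Enc α]

open Finset

noncomputable def cfS (n M L : ℕ) (Q : ℕ → ZP) (a : ℕ) (G : ZP) : ZP :=
  ∑ w ∈ range ((L + 1) ^ n), ext n (fun i => dig M a i + M * dig (L + 1) w i)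
    (G * ∏ i ∈ range n, (- Q i) ^ dig (L + 1) w i)

noncomputable def monS (n M a : ℕ) : ZP := ∏ i ∈ range n, X i ^ dig M a i

noncomputable def nmatS (n M L : ℕ) (Q : ℕ → ZP) (a b : ℕ) : ZP :=
  (if a = b then 1 else 0) - cfS n M L Q a (monS n M b)

noncomputable def trS (n M L : ℕ) (Q : ℕ → ZP) (H : ZP) : ZP :=
  ∑ a ∈ range (M ^ n), ∑ b ∈ range (M ^ n),
    (∑ j ∈ range (n * M + 1), path (M ^ n) (nmatS n M L Q) j a b) * cfS n M L Q b (H * monS n M a)

noncomputable def logS (d : ℕ) (p : ℕ → ZP) : ZP :=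
  ∑ k ∈ range d, (-1) ^ k * (∏ m ∈ range d, if m = k then 1 else ((m + 1 : ℕ) : ZP)) *
    sh 1 (p (k + 1)) * X 0 ^ (k + 1)

noncomputable def expS (d : ℕ) (L : ZP) : ZP :=
  ∑ j ∈ range (d + 1), (∏ m ∈ range d, ((m + 1 : ℕ) : ZP)) ^ (d - j) *
    (∏ m ∈ range d, if m < j then 1 else ((m + 1 : ℕ) : ZP)) * L ^ j

section semantics

variable {K : Type} [CommRing K]

theorem spec_X_lt {n : ℕ} (φ : ℕ → K) (i : Fin n) : spec n φ (X (i : ℕ)) = X i := by
  simp [spec, app]

theorem spec_monS (n M a : ℕ) (φ : ℕ → K) : spec n φ (monS n M a) = mon K n M a := by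
  rw [monS, mon, ← Fin.prod_univ_eq_prod_range (fun i => (X i : ZP) ^ dig M a i), map_prod]
  simp only [map_pow, spec_X_lt]

theorem aeval_cfS (n M L : ℕ) (Q : ℕ → ZP) (a : ℕ) (G : ZP) (φ : ℕ → K) :
    aeval φ (cfS n M L Q a G) = cf M L (fun i : Fin n => spec n φ (Q i)) a (spec n φ G) := by
  rw [cfS, cf, map_sum]
  refine sum_congr rfl fun w _ => ?_
  rw [aeval_ext, map_mul,
    ← Fin.prod_univ_eq_prod_range (fun i => (- Q i) ^ dig (L + 1) w i), map_prod]
  simp only [map_pow, map_neg]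

theorem map_path {R S : Type} [CommRing R] [CommRing S] (f : R →+* S) (d : ℕ) (A : ℕ → ℕ → R)
    (j a b : ℕ) : f (path d A j a b) = path d (fun a b => f (A a b)) j a b := by
  rw [path, path, map_sum]
  refine sum_congr rfl fun w _ => ?_
  split_ifs
  · rw [map_prod]
  · rw [map_zero]

theorem aeval_nmatS (n M L : ℕ) (Q : ℕ → ZP) (a b : ℕ) (φ : ℕ → K) :
    aeval φ (nmatS n M L Q a b) = nmat M L (fun i : Fin n => spec n φ (Q i)) a b := by
  rw [nmatS, nmat, map_sub, aeval_cfS, spec_monS]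
  split_ifs <;> simp

theorem aeval_trS (n M L : ℕ) (Q : ℕ → ZP) (H : ZP) (φ : ℕ → K) :
    aeval φ (trS n M L Q H) = tr M L (fun i : Fin n => spec n φ (Q i)) (spec n φ H) := by
  rw [trS, tr, map_sum]
  refine sum_congr rfl fun a _ => ?_
  rw [map_sum]
  refine sum_congr rfl fun b _ => ?_
  rw [map_mul, aeval_cfS, map_mul, spec_monS, map_sum]
  congr 1
  refine sum_congr rfl fun j _ => ?_
  have := map_path (aeval φ : ZP →ₐ[ℤ] K).toRingHom (M ^ n) (nmatS n M L Q) j a b
  refine this.trans ?_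
  congr 1
  funext a b
  exact aeval_nmatS n M L Q a b φ

theorem spec1_logS (d : ℕ) (p : ℕ → ZP) (φ : ℕ → K) :
    spec1 φ (logS d p) = logP d (fun k => aeval φ (p k)) := by
  rw [logS, logP, map_sum]
  refine sum_congr rfl fun k _ => ?_
  rw [map_mul, map_mul, map_mul, spec1_sh, map_pow, map_pow, spec1_X, map_prod, map_neg, map_one]
  congr 3
  refine prod_congr rfl fun m _ => ?_
  split_ifs
  · rw [map_one]
  · rw [map_natCast]

theorem spec1_expS (d : ℕ) (L : ZP) (φ : ℕ → K) :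
    spec1 φ (expS d L) = expP d (spec1 φ L) := by
  rw [expS, expP, map_sum]
  refine sum_congr rfl fun k _ => ?_
  rw [map_mul, map_mul, map_pow, map_pow, map_prod, map_prod]
  congr 2
  · congr 1
    exact prod_congr rfl fun m _ => map_natCast _ _
  · refine prod_congr rfl fun m _ => ?_
    split_ifs
    · rw [map_one]
    · rw [map_natCast]

end semantics

theorem nice_cfS {n M L a : α → ℕ} {Q : α → ℕ → ZP} {G : α → ZP} (hn : Un n) (hM : PT M)
    (hL : PT L) (ha : PT a) (hQ : Nice (fun z : α × ℕ => Q z.1 z.2)) (hG : Nice G) :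
    Nice (fun x => cfS (n x) (M x) (L x) (Q x) (a x) (G x)) := by
  have hn' := hn.pt
  refine Nice.sumC ?_ (hn.pow (by fun_prop))
  refine Nice.extC (hG.fst.mul (Nice.prodC ?_ (by fun_prop))) hn.fst (by fun_prop)
  exact (hQ.comp (g := fun z : (α × ℕ) × ℕ => (z.1.1, z.2)) (by fun_prop)).neg.pow (by fun_prop)

theorem nice_monS {n M a : α → ℕ} (hn : PT n) (hM : PT M) (ha : PT a) :
    Nice (fun x => monS (n x) (M x) (a x)) :=
  Nice.prodC ((Nice.var (by fun_prop)).pow (by fun_prop)) hn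

@[fun_prop] theorem pt_vert {d a w i : α → ℕ} (hd : PT d) (ha : PT a) (hw : PT w) (hi : PT i) :
    PT (fun x => vert (d x) (a x) (w x) (i x)) := by
  have : PT (fun x => cond (eqb (i x) 0) (a x) (dig (d x) (w x) (i x - 1))) := by fun_prop
  refine this.congr fun x => ?_
  by_cases h : i x = 0 <;> simp [vert, h]

theorem nice_path {d j a b : α → ℕ} {A : α → ℕ → ℕ → ZP} (hd : PT d) (hj : Un j) (ha : PT a)
    (hb : PT b) (hA : Nice (fun z : α × ℕ × ℕ => A z.1 z.2.1 z.2.2)) :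
    Nice (fun x => path (d x) (A x) (j x) (a x) (b x)) := by
  have hj' := hj.pt
  refine Nice.sumC ?_ (hj.pow hd)
  refine Nice.iteEq (by fun_prop) (by fun_prop) (Nice.prodC ?_ (by fun_prop)) Nice.zero
  exact hA.comp (g := fun z : (α × ℕ) × ℕ => (z.1.1, vert (d z.1.1) (a z.1.1) z.1.2 z.2,
    vert (d z.1.1) (a z.1.1) z.1.2 (z.2 + 1))) (by fun_prop)

theorem nice_trS {n M L : α → ℕ} {Q : α → ℕ → ZP} {H : α → ZP} (hn : Un n) (hM : Un M)
    (hL : PT L) (hQ : Nice (fun z : α × ℕ => Q z.1 z.2)) (hH : Nice H) :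
    Nice (fun x => trS (n x) (M x) (L x) (Q x) (H x)) := by
  have hn' := hn.pt
  have hM' := hM.pt
  have hd : PT (fun x => M x ^ n x) := hn.pow hM'
  have hJ : Un (fun x => n x * M x + 1) := (hn.mul hM).add (Un.const 1)
  have hN : Nice (fun z : α × ℕ × ℕ => nmatS (n z.1) (M z.1) (L z.1) (Q z.1) z.2.1 z.2.2) := by
    refine Nice.sub' (Nice.iteEq (by fun_prop) (by fun_prop) Nice.one Nice.zero) ?_
    exact nice_cfS hn.fst (by fun_prop) (by fun_prop) (by fun_prop)
      (hQ.comp (g := fun z : (α × ℕ × ℕ) × ℕ => (z.1.1, z.2)) (by fun_prop))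
      (nice_monS (by fun_prop) (by fun_prop) (by fun_prop))
  refine Nice.sumC (Nice.sumC (Nice.mul ?_ ?_) (PT.comp hd (by fun_prop))) hd
  · have h1 : Nice (fun z : ((α × ℕ) × ℕ) × ℕ => path (M z.1.1.1 ^ n z.1.1.1)
        (nmatS (n z.1.1.1) (M z.1.1.1) (L z.1.1.1) (Q z.1.1.1))
        (min z.2 (n z.1.1.1 * M z.1.1.1 + 1)) z.1.1.2 z.1.2) :=
      nice_path (PT.comp hd (by fun_prop)) (Un.min (by fun_prop) hJ.fst.fst.fst) (by fun_prop)
        (by fun_prop) (hN.comp (g := fun z : (((α × ℕ) × ℕ) × ℕ) × ℕ × ℕ => (z.1.1.1.1, z.2))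
          (by fun_prop))
    refine (h1.sum hJ.fst.fst.pt).congr fun z => sum_congr rfl fun j hj => ?_
    rw [min_eq_left (mem_range.1 hj).le]
  · exact nice_cfS hn.fst.fst (by fun_prop) (by fun_prop) (by fun_prop)
      (hQ.comp (g := fun z : ((α × ℕ) × ℕ) × ℕ => (z.1.1.1, z.2)) (by fun_prop))
      (hH.fst.fst.mul (nice_monS (by fun_prop) (by fun_prop) (by fun_prop)))

theorem nice_logS {d : α → ℕ} {p : α → ℕ → ZP} (hd : PT d)
    (hp : Nice (fun z : α × ℕ => p z.1 z.2)) : Nice (fun x => logS (d x) (p x)) := by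
  refine Nice.sumC (((((Nice.one.neg).pow (by fun_prop)).mul (Nice.prodC ?_ (by fun_prop))).mul
    ?_).mul ((Nice.X 0).pow (by fun_prop))) hd
  · exact Nice.iteEq (by fun_prop) (by fun_prop) Nice.one (Nice.nat (by fun_prop))
  · exact (hp.comp (g := fun z : α × ℕ => (z.1, z.2 + 1)) (by fun_prop)).sh (PT.const 1)

theorem nice_expS {d : α → ℕ} {L : α → ZP} (hd : PT d) (hL : Nice L) :
    Nice (fun x => expS (d x) (L x)) := by
  refine Nice.sumC ((((Nice.prodC ?_ (by fun_prop)).pow (by fun_prop)).mul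
    (Nice.prodC ?_ (by fun_prop))).mul (hL.fst.pow (by fun_prop))) (by fun_prop)
  · exact Nice.nat (by fun_prop)
  · exact Nice.iteLt (by fun_prop) (by fun_prop) Nice.one (Nice.nat (by fun_prop))

theorem exists_norm {n M : α → ℕ} {Q : α × ℕ → ZP} {B : α → ZP} (hn : Un n) (hM : Un M)
    (hQ : Nice Q) (hB : Nice B) :
    ∃ Nb : α → ZP, Nice Nb ∧ ∀ x (φ : ℕ → ℂ) (z : Fin (M x ^ n x) → Fin (n x) → ℂ),
      RootSys (M x) (fun i => spec (n x) φ (Q (x, i))) z →
      aeval φ (Nb x) = (((M x ^ n x).factorial : ℂ)) ^ (M x ^ n x + 1) *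
        ∏ j, aeval (app (n x) (z j) φ) (B x) := by
  obtain ⟨e, he, hb⟩ := hB.bound
  have hn' := hn.pt
  have hM' := hM.pt
  have hd : PT (fun x => M x ^ n x) := hn.pow hM'
  refine ⟨fun x => ext1 (M x ^ n x) (expS (M x ^ n x) (logS (M x ^ n x) fun k =>
    trS (n x) (M x) (e x * M x ^ n x + n x * M x) (fun i => Q (x, i)) (B x ^ k))), ?_, ?_⟩
  · refine (nice_expS hd (nice_logS hd ?_)).ext1 hd
    have hd' : PT (fun z : α × ℕ => M z.1 ^ n z.1) := PT.comp hd (by fun_prop)
    exact nice_trS hn.fst hM.fst (PT.add (PT.mul (by fun_prop) hd') (by fun_prop))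
      (hQ.comp (g := fun z : (α × ℕ) × ℕ => (z.1.1, z.2)) (by fun_prop))
      (hB.fst.pow (by fun_prop))
  · intro x φ z hz
    rw [aeval_ext1, spec1_expS, spec1_logS]
    refine newton _ _ fun k _ hk => ?_
    rw [aeval_trS, hz]
    · refine sum_congr rfl fun j _ => ?_
      rw [eval_spec, map_pow]
    · have h1 := totalDegree_spec (n x) φ (B x ^ k)
      have h2 := totalDegree_pow (B x) k
      have h3 : k * (B x).totalDegree ≤ e x * M x ^ n x := by
        rw [mul_comm]; exact Nat.mul_le_mul (hb x).1 hk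
      omega

/-- products over the family of complex numbers `u x j` are nice, up to the factor `c x` -/
def HasNorm (d : α → ℕ) (c : α → ℂ) (u : ∀ x, Fin (d x) → ℂ) : Prop :=
  ∀ B : α → ZP, Nice B → ∃ Nb : α → ZP, Nice Nb ∧
    ∀ x (φ : ℕ → ℂ), aeval φ (Nb x) = c x * ∏ j, aeval (cons (u x j) φ) (B x)

theorem coeff_one_prod {ι : Type} (s : Finset ι) (a b : ι → ℂ) (hb : ∀ j ∈ s, b j ≠ 0) :
    (∏ j ∈ s, (Polynomial.C (b j) + Polynomial.X * Polynomial.C (a j))).coeff 1
      = (∏ j ∈ s, b j) * ∑ j ∈ s, a j / b j := by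
  classical
  have h0 : ∀ s : Finset ι,
      (∏ j ∈ s, (Polynomial.C (b j) + Polynomial.X * Polynomial.C (a j))).coeff 0
      = ∏ j ∈ s, b j := by
    intro s
    rw [Polynomial.coeff_zero_eq_eval_zero, Polynomial.eval_prod]
    simp
  induction s using Finset.induction_on with
  | empty => simp [Polynomial.coeff_one]
  | insert i s hi ih =>
    rw [prod_insert hi, prod_insert hi, sum_insert hi, add_mul, Polynomial.coeff_add,
      Polynomial.coeff_C_mul, mul_assoc, Polynomial.coeff_X_mul, Polynomial.coeff_C_mul, h0,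
      ih (fun j hj => hb j (mem_insert_of_mem hj))]
    have := hb i (mem_insert_self _ _)
    field_simp
    ring

theorem HasNorm.wsum {d : α → ℕ} {c : α → ℂ} {u : ∀ x, Fin (d x) → ℂ} (h : HasNorm d c u)
    {A B : α → ZP} (hA : Nice A) (hB : Nice B) :
    ∃ S : α → ZP, Nice S ∧ ∀ x (φ : ℕ → ℂ), (∀ j, aeval (cons (u x j) φ) (B x) ≠ 0) →
      aeval φ (S x) = c x * (∏ j, aeval (cons (u x j) φ) (B x)) *
        ∑ j, aeval (cons (u x j) φ) (A x) / aeval (cons (u x j) φ) (B x) := by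
  have hA' : Nice (fun x => P337.sub 1 2 (fun _ => X 0) (A x)) :=
    hA.subC (Nice.X 0) (Un.const 1) (PT.const 2)
  have hB' : Nice (fun x => P337.sub 1 2 (fun _ => X 0) (B x)) :=
    hB.subC (Nice.X 0) (Un.const 1) (PT.const 2)
  obtain ⟨Nb, h1, h2⟩ := h _ (hB'.add ((Nice.X 1).mul hA'))
  refine ⟨fun x => ext1 1 (Nb x), h1.ext1 (PT.const 1), fun x φ hne => ?_⟩
  have e1 : ∀ (v s : ℂ) (F : ZP), aeval (cons v (cons s φ)) (P337.sub 1 2 (fun _ => X 0) F)
      = aeval (cons v φ) F := by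
    intro v s F
    rw [aeval_sub]
    congr 2
    funext i
    rcases i with _ | i <;> simp [cons]
  have e2 : spec1 φ (Nb x) = Polynomial.C (c x) * ∏ j, (Polynomial.C (aeval (cons (u x j) φ) (B x))
      + Polynomial.X * Polynomial.C (aeval (cons (u x j) φ) (A x))) := by
    apply Polynomial.funext
    intro s
    rw [eval_spec1, h2, Polynomial.eval_mul, Polynomial.eval_C, Polynomial.eval_prod]
    congr 1
    refine prod_congr rfl fun j _ => ?_
    rw [map_add, map_mul, e1, e1, aeval_X, Polynomial.eval_add, Polynomial.eval_mul,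
      Polynomial.eval_C, Polynomial.eval_C, Polynomial.eval_X]
    rfl
  rw [aeval_ext1, e2, Polynomial.coeff_C_mul, coeff_one_prod _ _ _ (fun j _ => hne j), mul_assoc]

end Vale.Agent.P337
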