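import Vale.Agent.P337.CH

/-!
TASK Sign. Iterated products modulo a prime, and the sign of an integer from its residues.

`CF.prodMod`: `g = least g < p` generating (`∀ a < p, a ≠ 0 → ∃ e < p, powMod g e p = a`; exists as
`(ZMod p)ˣ` is cyclic), `lg a = least e < p` with `powMod g e p = a % p`,
`G = if ∃ y < B, F y % p = 0 then 0 else powMod g (∑ y < B, lg (F y)) p`.

`CH.sign`: choose PT `Y` with at least `e + 3` primes in `(e, Y]` (`4 ^ n < n * centralBinom n`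
and `centralBinom n ≤ (2 n) ^ π (2 n)`; take `Y = 2 ^ s`, `2 ^ s ≥ (2 e + 5) ^ 2`, `s ≥ 4`) and
`W = 8 Y ^ 2 + 8`. For `k ≤ Y` let `P k` be the product of the primes in `(e, k]`, `c k p < p` with
`c k p * (P k / p) ≡ v (mod p)`, `S k = ∑ p, W * c k p / p` (floor). By CRT
`v / P k = ∑ c k p / p - ρ`, so `S k = W ρ + τ` with `τ = W v / P k - err`, `0 ≤ err ≤ Y`.
`Small k := S k % W ≤ Y ∨ W ≤ S k % W + 2 Y`, `Pos k := Y < S k % W ∧ 2 * (S k % W) < W`.
If `|v / P k| < 1/4` then `Small k → |v / P (k-1)| < 1/4`, `Pos k → 0 < v`, and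
`¬ Small k → 0 < v → Pos k`. Hence `0 < v ↔ ∃ k ≤ Y, Pos k ∧ ∀ k' ≤ Y, k < k' → Small k'`.
-/

namespace Vale.Agent.P337

open Vale.Agent.Lib.H23 Enc

variable {α : Type} [Enc α]

/-- least generator of the units modulo `p` -/
noncomputable def sgGen (p : ℕ) : ℕ :=
  sInf {g | g < p ∧ ∀ a < p, a ≠ 0 → ∃ e < p, powMod g e p = a}

/-- discrete logarithm -/
noncomputable def sgLog (p g a : ℕ) : ℕ := sInf {e | e < p ∧ powMod g e p = a % p}

theorem cf_sgGen : CF sgGen := by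
  have h1 : CH (fun w : (ℕ × ℕ) × ℕ => ∃ e < w.1.1, powMod w.1.2 e w.1.1 = w.2) :=
    CH.ex (q := fun u : ((ℕ × ℕ) × ℕ) × ℕ => powMod u.1.1.2 u.2 u.1.1.1 = u.1.2)
      (B := fun w => w.1.1) (CH.eq (by fun_prop) (by fun_prop)) (by fun_prop)
  have h2 : CH (fun w : (ℕ × ℕ) × ℕ => w.2 ≠ 0) :=
    (CH.eq (f := fun w : (ℕ × ℕ) × ℕ => w.2) (g := fun _ => 0) (by fun_prop) (by fun_prop)).not
  have h3 : CH (fun z : ℕ × ℕ => ∀ a < z.1, a ≠ 0 → ∃ e < z.1, powMod z.2 e z.1 = a) :=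
    CH.all (q := fun w : (ℕ × ℕ) × ℕ => w.2 ≠ 0 → ∃ e < w.1.1, powMod w.1.2 e w.1.1 = w.2)
      (B := fun z => z.1) (h2.imp h1) (by fun_prop)
  exact CF.least (B := fun p : ℕ => p) h3 PT.id

theorem cf_sgLog : CF (fun z : ℕ × ℕ × ℕ => sgLog z.1 z.2.1 z.2.2) :=
  CF.least (q := fun u : (ℕ × ℕ × ℕ) × ℕ => powMod u.1.2.1 u.2 u.1.1 = u.1.2.2 % u.1.1)
    (B := fun z => z.1) (CH.eq (by fun_prop) (by fun_prop)) (by fun_prop)

theorem cast_powMod {p : ℕ} (hp : p ≠ 0) (g e : ℕ) : (powMod g e p : ZMod p) = (g : ZMod p) ^ e := by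
  rw [powMod_eq hp, ZMod.natCast_mod, Nat.cast_pow]

theorem sgGen_spec {p : ℕ} (hp : p.Prime) :
    ∀ a < p, a ≠ 0 → ∃ e < p, powMod (sgGen p) e p = a := by
  have := Fact.mk hp
  have hne : {g | g < p ∧ ∀ a < p, a ≠ 0 → ∃ e < p, powMod g e p = a}.Nonempty := by
    obtain ⟨g, hg⟩ := IsCyclic.exists_generator (α := (ZMod p)ˣ)
    refine ⟨(g : ZMod p).val, ZMod.val_lt _, fun a ha ha0 => ?_⟩
    have h0 : (a : ZMod p) ≠ 0 := by
      rw [Ne, ZMod.natCast_eq_zero_iff]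
      exact fun h => absurd (Nat.le_of_dvd (Nat.pos_of_ne_zero ha0) h) (by omega)
    have hmem := hg (Units.mk0 _ h0)
    rw [mem_zpowers_iff_mem_range_orderOf, Finset.mem_image] at hmem
    obtain ⟨e, he, he'⟩ := hmem
    have h1 : orderOf g ≤ p - 1 := by
      have := orderOf_le_card_univ (x := g)
      rwa [ZMod.card_units] at this
    refine ⟨e, by rw [Finset.mem_range] at he; omega, ?_⟩
    have h2 : (powMod (g : ZMod p).val e p : ZMod p) = (a : ZMod p) := by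
      rw [cast_powMod hp.ne_zero, ZMod.natCast_zmod_val, ← Units.val_pow_eq_pow_val, he']
      rfl
    rw [ZMod.natCast_eq_natCast_iff', powMod_eq hp.ne_zero, Nat.mod_mod, Nat.mod_eq_of_lt ha] at h2
    rw [powMod_eq hp.ne_zero, h2]
  exact (Nat.sInf_mem hne).2

theorem sgLog_spec {p : ℕ} (hp : p.Prime) {a : ℕ} (ha : a % p ≠ 0) :
    (sgGen p : ZMod p) ^ sgLog p (sgGen p) a = (a : ZMod p) := by
  have hne : {e | e < p ∧ powMod (sgGen p) e p = a % p}.Nonempty :=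
    sgGen_spec hp (a % p) (Nat.mod_lt _ hp.pos) ha
  have := (Nat.sInf_mem hne).2
  rw [← cast_powMod hp.ne_zero, sgLog, this, ZMod.natCast_mod]

theorem CF.prodMod {F : α × ℕ → ℕ} {B p : α → ℕ} (hF : CF F) (hB : PT B) (hp : PT p) :
    ∃ G : α → ℕ, CF G ∧ ∀ x, (p x).Prime →
      (G x : ZMod (p x)) = ∏ y ∈ Finset.range (B x), (F (x, y) : ZMod (p x)) := by
  classical
  have h1 : CF (fun x => sgGen (p x)) := cf_sgGen.comp hp
  have h2 : CF (fun z : α × ℕ => sgLog (p z.1) (sgGen (p z.1)) (F z)) :=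
    CF.bind₂ (G := fun w : (α × ℕ) × ℕ × ℕ => sgLog (p w.1.1) w.2.1 w.2.2)
      (h1.comp (g := fun z : α × ℕ => z.1) (by fun_prop)) hF
      (cf_sgLog.comp (g := fun w : (α × ℕ) × ℕ × ℕ => (p w.1.1, w.2.1, w.2.2)) (by fun_prop))
  have h3 := CF.sum h2 hB
  have h4 : CF (fun x => powMod (sgGen (p x))
      (∑ y ∈ Finset.range (B x), sgLog (p x) (sgGen (p x)) (F (x, y))) (p x)) :=
    CF.bind₂ (G := fun w : α × ℕ × ℕ => powMod w.2.1 w.2.2 (p w.1)) h1 h3 (CF.of_pt (by fun_prop))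
  have h5 : CH (fun x => ∃ y < B x, F (x, y) % p x = 0) :=
    CH.ex (q := fun z : α × ℕ => F z % p z.1 = 0)
      (CF.pred (q := fun u : (α × ℕ) × ℕ => u.2 % p u.1.1 = 0) hF
        (CH.eq (by fun_prop) (by fun_prop))) hB
  refine ⟨_, CF.ite h5 (CF.of_pt (PT.const 0)) h4, fun x hx => ?_⟩
  split_ifs with h
  · obtain ⟨y, hy, hy'⟩ := h
    rw [Finset.prod_eq_zero (Finset.mem_range.2 hy), Nat.cast_zero]
    rw [ZMod.natCast_eq_zero_iff]
    exact Nat.dvd_of_mod_eq_zero hy'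
  · push Not at h
    rw [cast_powMod hx.ne_zero, ← Finset.prod_pow_eq_pow_sum]
    exact Finset.prod_congr rfl fun y hy => sgLog_spec hx (h y (Finset.mem_range.1 hy))

/-- the primes in `(e, k]` -/
def sgA (e k : ℕ) : Finset ℕ := (Finset.range (k + 1)).filter fun p => p.Prime ∧ e < p

theorem sg_crt (A : Finset ℕ) (hA : ∀ p ∈ A, p.Prime) (c : ℕ → ℕ) (v : ℤ) (W : ℕ)
    (hc : ∀ p ∈ A, ((c p * ∏ q ∈ A.erase p, q : ℕ) : ZMod p) = (v : ZMod p)) :
    ∃ ρ : ℤ, (((∑ p ∈ A, W * c p / p : ℕ) : ℤ) - W * ρ) * (∏ q ∈ A, q : ℕ) ≤ W * v ∧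
      W * v ≤ (((∑ p ∈ A, W * c p / p : ℕ) : ℤ) - W * ρ + A.card) * (∏ q ∈ A, q : ℕ) := by
  set T : ℕ := ∑ p ∈ A, c p * ∏ q ∈ A.erase p, q with hT
  have hdvd : ((∏ q ∈ A, q : ℕ) : ℤ) ∣ (T : ℤ) - v := by
    rw [Nat.cast_prod]
    refine Finset.prod_dvd_of_coprime (fun p hp q hq hne => ?_) fun p hp => ?_
    · exact Nat.isCoprime_iff_coprime.2 ((Nat.coprime_primes (hA p hp) (hA q hq)).2 hne)
    · rw [← ZMod.intCast_zmod_eq_zero_iff_dvd, Int.cast_sub, Int.cast_natCast, sub_eq_zero,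
        ← hc p hp, hT, Nat.cast_sum, Finset.sum_eq_single p]
      · intro q _ hne
        rw [ZMod.natCast_eq_zero_iff]
        exact Dvd.dvd.mul_left (Finset.dvd_prod_of_mem _ (Finset.mem_erase.2 ⟨hne.symm, hp⟩)) _
      · intro h; exact absurd hp h
  obtain ⟨ρ, hρ⟩ := hdvd
  have h1 : (∑ p ∈ A, W * c p / p) * (∏ q ∈ A, q) ≤ W * T := by
    rw [hT, Finset.sum_mul, Finset.mul_sum]
    refine Finset.sum_le_sum fun p hp => ?_
    rw [← Finset.mul_prod_erase A (fun q => q) hp, ← mul_assoc, ← mul_assoc]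
    exact Nat.mul_le_mul_right _ (Nat.div_mul_le_self _ _)
  have h2 : W * T ≤ (∑ p ∈ A, W * c p / p + A.card) * (∏ q ∈ A, q) := by
    rw [hT, Finset.card_eq_sum_ones, ← Finset.sum_add_distrib, Finset.sum_mul, Finset.mul_sum]
    refine Finset.sum_le_sum fun p hp => ?_
    rw [← Finset.mul_prod_erase A (fun q => q) hp, ← mul_assoc, ← mul_assoc]
    refine Nat.mul_le_mul_right _ ?_
    rw [mul_comm _ p]
    exact (Nat.lt_mul_div_succ _ (hA p hp).pos).le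
  generalize (∑ p ∈ A, W * c p / p) = S at h1 h2 ⊢
  generalize (∏ q ∈ A, q) = P at h1 h2 hρ ⊢
  have h1' : (S : ℤ) * P ≤ W * T := by exact_mod_cast h1
  have h2' : (W : ℤ) * T ≤ (S + A.card) * P := by exact_mod_cast h2
  have hv : v = T - P * ρ := by linarith
  refine ⟨ρ, ?_, ?_⟩
  · rw [hv]; nlinarith
  · rw [hv]; nlinarith

theorem sg_step (S W Y P : ℕ) (ρ v : ℤ) (hW : W = 8 * Y ^ 2 + 8) (hv : 4 * |v| < P)
    (h1 : ((S : ℤ) - W * ρ) * P ≤ W * v) (h2 : W * v ≤ ((S : ℤ) - W * ρ + Y) * P) :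
    ((S % W ≤ Y ∨ W ≤ S % W + 2 * Y) → W * |v| ≤ 2 * Y * P) ∧
    ((Y < S % W ∧ 2 * (S % W) < W) → 0 < v) ∧
    (¬ (S % W ≤ Y ∨ W ≤ S % W + 2 * Y) → 0 < v → (Y < S % W ∧ 2 * (S % W) < W)) := by
  set τ : ℤ := S - W * ρ with hτ
  have hWY : 8 * Y < W := by rw [hW]; nlinarith
  have hWY' : (8 * Y : ℤ) < W := by exact_mod_cast hWY
  have hY : (0 : ℤ) ≤ Y := Nat.cast_nonneg _
  have hW0 : (0 : ℤ) < W := by linarith
  have hP : (0 : ℤ) < P := by have := abs_nonneg v; linarith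
  have hv1 := le_abs_self v
  have hv2 := neg_abs_le v
  have ha : 4 * τ < W := by
    by_contra h
    push Not at h
    nlinarith
  have hb : -W < 4 * (τ + Y) := by
    by_contra h
    push Not at h
    nlinarith
  have hs : ((S % W : ℕ) : ℤ) = if 0 ≤ τ then τ else W + τ := by
    have e : (S : ℤ) = τ + W * ρ := by rw [hτ]; ring
    rw [Int.natCast_mod, e, Int.add_mul_emod_self_left]
    split_ifs with h
    · exact Int.emod_eq_of_lt h (by linarith)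
    · rw [← Int.add_emod_left]
      exact Int.emod_eq_of_lt (by linarith) (by linarith)
  generalize S % W = s at hs ⊢
  refine ⟨fun h => ?_, fun h => ?_, fun h hv0 => ?_⟩
  · have h3 : -2 * Y ≤ τ ∧ τ ≤ Y := by split_ifs at hs <;> omega
    rcases abs_cases v with h4 | h4 <;> rw [h4.1] <;> nlinarith [h3.1, h3.2]
  · have h3 : 0 < τ := by split_ifs at hs <;> omega
    by_contra h4
    push Not at h4
    nlinarith
  · have h3 : -Y < τ := by
      by_contra h4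
      push Not at h4
      nlinarith
    split_ifs at hs <;> omega

theorem sg_many (e : ℕ) : 4 * 2 ^ e < ∏ q ∈ sgA e ((2 * e + 5) * (2 * e + 5)), q := by
  set t := 2 * e + 5 with ht
  have h1 : ∀ u, 5 ≤ u → u * u + 1 ≤ 2 ^ u := by
    intro u hu
    induction u, hu using Nat.le_induction with
    | base => norm_num
    | succ u hu ih => rw [pow_succ]; nlinarith
  have h2 := Chebyshev.two_pow_le_mul_lcmUpto (t * t)
  have h3 : Nat.lcmUpto (t * t) ≤ (t * t + 1) ^ (Nat.primesLE (t * t)).card := by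
    rw [Nat.lcmUpto_eq_prod_pow_log]
    refine Finset.prod_le_pow_card _ _ _ fun p _ => ?_
    exact (Nat.pow_log_le_self _ (by positivity)).trans (Nat.le_succ _)
  have h4 : 2 ^ (t * t) ≤ 2 ^ (t * ((Nat.primesLE (t * t)).card + 1)) := by
    calc 2 ^ (t * t) ≤ (t * t + 1) * (t * t + 1) ^ (Nat.primesLE (t * t)).card :=
          h2.trans (Nat.mul_le_mul_left _ h3)
      _ = (t * t + 1) ^ ((Nat.primesLE (t * t)).card + 1) := by ring
      _ ≤ (2 ^ t) ^ ((Nat.primesLE (t * t)).card + 1) :=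
          Nat.pow_le_pow_left (h1 t (by omega)) _
      _ = _ := by rw [← pow_mul]
  have h5 : t ≤ (Nat.primesLE (t * t)).card + 1 :=
    Nat.le_of_mul_le_mul_left ((Nat.pow_le_pow_iff_right (by norm_num)).1 h4) (by omega)
  have h6 : (Nat.primesLE (t * t)).card ≤ (sgA e (t * t)).card + (e + 1) := by
    have : Nat.primesLE (t * t) ⊆ sgA e (t * t) ∪ Finset.range (e + 1) := by
      intro p hp
      rw [Nat.mem_primesLE] at hp
      simp only [sgA, Finset.mem_union, Finset.mem_filter, Finset.mem_range, hp.2, true_and]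
      omega
    refine (Finset.card_le_card this).trans ((Finset.card_union_le _ _).trans ?_)
    rw [Finset.card_range]
  calc 4 * 2 ^ e < 2 ^ (e + 3) := by rw [pow_add]; have := Nat.two_pow_pos e; omega
    _ ≤ 2 ^ (sgA e (t * t)).card := Nat.pow_le_pow_right (by norm_num) (by omega)
    _ ≤ _ := Finset.pow_card_le_prod _ _ _ fun p hp => (Finset.mem_filter.1 hp).2.1.two_le

theorem sgA_card (e k : ℕ) : (sgA e k).card ≤ k := by
  have : sgA e k ⊆ Finset.Ioc 0 k := by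
    intro p hp
    simp only [sgA, Finset.mem_filter, Finset.mem_range] at hp
    rw [Finset.mem_Ioc]; omega
  simpa using Finset.card_le_card this

theorem sgA_succ (e k : ℕ) : ∏ q ∈ sgA e (k + 1), q ≤ (k + 1) * ∏ q ∈ sgA e k, q := by
  rw [sgA, Finset.range_add_one, Finset.filter_insert]
  split_ifs
  · rw [Finset.prod_insert (by simp)]
    rfl
  · exact Nat.le_mul_of_pos_left _ (Nat.succ_pos _)

theorem sg_main (e Y W : ℕ) (hW : W = 8 * Y ^ 2 + 8) (v : ℤ) (c : ℕ → ℕ → ℕ) (S : ℕ → ℕ)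
    (hY : 4 * |v| < (∏ q ∈ sgA e Y, q : ℕ))
    (hc : ∀ k, ∀ p ∈ sgA e k, ((c k p * ∏ q ∈ (sgA e k).erase p, q : ℕ) : ZMod p) = (v : ZMod p))
    (hS : ∀ k, S k = ∑ p ∈ sgA e k, W * c k p / p) :
    0 < v ↔ ∃ k < Y + 1, (Y < S k % W ∧ 2 * (S k % W) < W) ∧
      ∀ k' < Y + 1, k < k' → (S k' % W ≤ Y ∨ W ≤ S k' % W + 2 * Y) := by
  have key : ∀ k ≤ Y, 4 * |v| < (∏ q ∈ sgA e k, q : ℕ) →
      ((S k % W ≤ Y ∨ W ≤ S k % W + 2 * Y) → W * |v| ≤ 2 * Y * (∏ q ∈ sgA e k, q : ℕ)) ∧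
      ((Y < S k % W ∧ 2 * (S k % W) < W) → 0 < v) ∧
      (¬ (S k % W ≤ Y ∨ W ≤ S k % W + 2 * Y) → 0 < v → (Y < S k % W ∧ 2 * (S k % W) < W)) := by
    intro k hk hv
    obtain ⟨ρ, h1, h2⟩ := sg_crt (sgA e k) (fun p hp => (Finset.mem_filter.1 hp).2.1) (c k) v W (hc k)
    rw [← hS] at h1 h2
    refine sg_step (S k) W Y _ ρ v hW hv h1 (h2.trans ?_)
    have : ((sgA e k).card : ℤ) ≤ Y := by exact_mod_cast (sgA_card e k).trans hk
    gcongr
  have down : ∀ j k, k + j = Y → (∀ k' < Y + 1, k < k' → (S k' % W ≤ Y ∨ W ≤ S k' % W + 2 * Y)) →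
      4 * |v| < (∏ q ∈ sgA e k, q : ℕ) := by
    intro j
    induction j with
    | zero => intro k hk _; rw [add_zero] at hk; rw [hk]; exact hY
    | succ j ih =>
      intro k hk h
      have h1 := ih (k + 1) (by omega) (fun k' hk' hlt => h k' hk' (by omega))
      have h2 := (key (k + 1) (by omega) h1).1 (h (k + 1) (by omega) (by omega))
      have h3 : ((∏ q ∈ sgA e (k + 1), q : ℕ) : ℤ) ≤ Y * (∏ q ∈ sgA e k, q : ℕ) := by
        exact_mod_cast (sgA_succ e k).trans (Nat.mul_le_mul_right _ (by omega))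
      have h4 : (0 : ℤ) < (∏ q ∈ sgA e k, q : ℕ) := by
        have : 0 < ∏ q ∈ sgA e k, q :=
          Finset.prod_pos fun p hp => (Finset.mem_filter.1 hp).2.1.pos
        exact_mod_cast this
      generalize ((∏ q ∈ sgA e k, q : ℕ) : ℤ) = P at h3 h4 ⊢
      generalize ((∏ q ∈ sgA e (k + 1), q : ℕ) : ℤ) = P' at h2 h3
      have hW' : (W : ℤ) = 8 * Y ^ 2 + 8 := by exact_mod_cast hW
      have hY0 : (0 : ℤ) ≤ Y := Nat.cast_nonneg _
      have h5 : (W : ℤ) * |v| ≤ 2 * Y * (Y * P) := h2.trans (by gcongr)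
      rw [hW'] at h5
      by_contra h6
      push Not at h6
      nlinarith [mul_le_mul_of_nonneg_left h6 (sq_nonneg (Y : ℤ))]
  constructor
  · intro hv
    classical
    have hex : ∃ j, j ≤ Y ∧ ¬ (S (Y - j) % W ≤ Y ∨ W ≤ S (Y - j) % W + 2 * Y) := by
      by_contra h
      have h1 := down Y 0 (zero_add _) (fun k' hk' _ => by
        by_contra h2
        exact h ⟨Y - k', by omega, by rwa [Nat.sub_sub_self (by omega)]⟩)
      have : sgA e 0 = ∅ := by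
        rw [← Finset.card_eq_zero]; exact Nat.le_zero.1 (sgA_card e 0)
      rw [this, Finset.prod_empty, abs_of_pos hv] at h1
      push_cast at h1
      omega
    obtain ⟨hj1, hj2⟩ := Nat.find_spec hex
    have hall : ∀ k' < Y + 1, Y - Nat.find hex < k' → (S k' % W ≤ Y ∨ W ≤ S k' % W + 2 * Y) := by
      intro k' hk' hlt
      by_contra h2
      exact Nat.find_min hex (m := Y - k') (by omega)
        ⟨by omega, by rwa [Nat.sub_sub_self (by omega)]⟩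
    exact ⟨Y - Nat.find hex, by omega,
      (key _ (by omega) (down (Nat.find hex) _ (by omega) hall)).2.2 hj2 hv, hall⟩
  · rintro ⟨k, hk, h1, h2⟩
    exact (key k (by omega) (down (Y - k) k (by omega) h2)).2.1 h1

theorem CH.sign {v : α → ℤ} {e : α → ℕ} {G : α × ℕ → ℕ} (he : PT e) (hG : CF G)
    (hv : ∀ x, (v x).natAbs ≤ 2 ^ e x)
    (hr : ∀ x p, p.Prime → e x < p → (G (x, p) : ZMod p) = (v x : ZMod p)) :
    CH (fun x => 0 < v x) := by
  classical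
  obtain ⟨Y, hYdef⟩ : ∃ Y : α → ℕ, Y = fun x => (2 * e x + 5) * (2 * e x + 5) := ⟨_, rfl⟩
  have hY : PT Y := by rw [hYdef]; fun_prop
  obtain ⟨W, hWdef⟩ : ∃ W : α → ℕ, W = fun x => 8 * (Y x * Y x) + 8 := ⟨_, rfl⟩
  have hW : PT W := by rw [hWdef]; fun_prop
  have hF : CF (fun u : ((α × ℕ) × ℕ) × ℕ =>
      if (u.2.Prime ∧ e u.1.1.1 < u.2) ∧ ¬ u.2 = u.1.2 then u.2 else 1) := by
    have h1 : CH (fun u : ((α × ℕ) × ℕ) × ℕ => (u.2.Prime ∧ e u.1.1.1 < u.2) ∧ ¬ u.2 = u.1.2) :=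
      ((CH.prime (by fun_prop)).and (CH.lt (by fun_prop) (by fun_prop))).and
        (CH.eq (by fun_prop) (by fun_prop)).not
    have h2 : CF (fun u : ((α × ℕ) × ℕ) × ℕ => u.2) := CF.of_pt (by fun_prop)
    have h3 : CF (fun _ : ((α × ℕ) × ℕ) × ℕ => 1) := CF.of_pt (by fun_prop)
    exact (CF.ite h1 h2 h3).congr fun u => by congr
  obtain ⟨m, hm, hm'⟩ := CF.prodMod (B := fun w : (α × ℕ) × ℕ => w.1.2 + 1) (p := fun w => w.2)
    hF (by fun_prop) (by fun_prop)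
  have hc0 : CF (fun z : ((α × ℕ) × ℕ) × ℕ × ℕ =>
      sInf {c | c < z.1.2 ∧ (c * z.2.1) % z.1.2 = z.2.2 % z.1.2}) :=
    CF.least (q := fun u : (((α × ℕ) × ℕ) × ℕ × ℕ) × ℕ =>
      (u.2 * u.1.2.1) % u.1.1.2 = u.1.2.2 % u.1.1.2) (B := fun z => z.1.2)
      (CH.eq (by fun_prop) (by fun_prop)) (by fun_prop)
  obtain ⟨c, hcdef⟩ : ∃ c : (α × ℕ) × ℕ → ℕ, c = fun w =>
      sInf {c | c < w.2 ∧ (c * m w) % w.2 = G (w.1.1, w.2) % w.2} := ⟨_, rfl⟩
  have hc : CF c := by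
    rw [hcdef]
    exact CF.bind₂ hm (hG.comp (g := fun w : (α × ℕ) × ℕ => (w.1.1, w.2)) (by fun_prop)) hc0
  have hT : CF (fun w : (α × ℕ) × ℕ =>
      if w.2.Prime ∧ e w.1.1 < w.2 then W w.1.1 * c w / w.2 else 0) := by
    have h1 : CH (fun w : (α × ℕ) × ℕ => w.2.Prime ∧ e w.1.1 < w.2) :=
      (CH.prime (by fun_prop)).and (CH.lt (by fun_prop) (by fun_prop))
    have h2 : CF (fun w : (α × ℕ) × ℕ => W w.1.1 * c w / w.2) :=
      CF.bind (G := fun u : ((α × ℕ) × ℕ) × ℕ => W u.1.1.1 * u.2 / u.1.2) hc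
        (CF.of_pt (by fun_prop))
    have h3 : CF (fun _ : (α × ℕ) × ℕ => 0) := CF.of_pt (by fun_prop)
    exact (CF.ite h1 h2 h3).congr fun u => by congr
  obtain ⟨S, hSdef⟩ : ∃ S : α × ℕ → ℕ, S = fun z => ∑ p ∈ Finset.range (z.2 + 1),
      if p.Prime ∧ e z.1 < p then W z.1 * c (z, p) / p else 0 := ⟨_, rfl⟩
  have hS : CF S := by
    rw [hSdef]
    exact CF.sum (B := fun z : α × ℕ => z.2 + 1) hT (by fun_prop)
  have hPos : CH (fun z : α × ℕ => Y z.1 < S z % W z.1 ∧ 2 * (S z % W z.1) < W z.1) :=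
    CF.pred (q := fun u : (α × ℕ) × ℕ => Y u.1.1 < u.2 % W u.1.1 ∧ 2 * (u.2 % W u.1.1) < W u.1.1)
      hS ((CH.lt (by fun_prop) (by fun_prop)).and (CH.lt (by fun_prop) (by fun_prop)))
  have hSm : CH (fun z : α × ℕ => S z % W z.1 ≤ Y z.1 ∨ W z.1 ≤ S z % W z.1 + 2 * Y z.1) :=
    CF.pred (q := fun u : (α × ℕ) × ℕ =>
      u.2 % W u.1.1 ≤ Y u.1.1 ∨ W u.1.1 ≤ u.2 % W u.1.1 + 2 * Y u.1.1)
      hS ((CH.le (by fun_prop) (by fun_prop)).or (CH.le (by fun_prop) (by fun_prop)))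
  have hAll : CH (fun z : α × ℕ => ∀ k' < Y z.1 + 1, z.2 < k' →
      (S (z.1, k') % W z.1 ≤ Y z.1 ∨ W z.1 ≤ S (z.1, k') % W z.1 + 2 * Y z.1)) :=
    CH.all (q := fun u : (α × ℕ) × ℕ => u.1.2 < u.2 →
      (S (u.1.1, u.2) % W u.1.1 ≤ Y u.1.1 ∨ W u.1.1 ≤ S (u.1.1, u.2) % W u.1.1 + 2 * Y u.1.1))
      (B := fun z => Y z.1 + 1)
      ((CH.lt (by fun_prop) (by fun_prop)).imp
        (hSm.comp (g := fun u : (α × ℕ) × ℕ => (u.1.1, u.2)) (by fun_prop))) (by fun_prop)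
  refine (CH.ex (B := fun x => Y x + 1) (hPos.and hAll) (by fun_prop)).congr fun x => ?_
  refine sg_main (e x) (Y x) (W x) (by rw [hWdef, sq]) (v x) (fun k p => c ((x, k), p))
    (fun k => S (x, k)) ?_ ?_ ?_
  · have h1 := sg_many (e x)
    have h2 : |v x| ≤ 2 ^ e x := by
      rw [← Int.natCast_natAbs]; exact_mod_cast hv x
    have h3 : (4 * 2 ^ e x : ℤ) < (∏ q ∈ sgA (e x) (Y x), q : ℕ) := by
      rw [hYdef]; exact_mod_cast h1
    linarith
  · intro k p hp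
    obtain ⟨hp1, hp2, hp3⟩ := Finset.mem_filter.1 hp
    have := Fact.mk hp2
    have h1 : (m ((x, k), p) : ZMod p) = ((∏ q ∈ (sgA (e x) k).erase p, q : ℕ) : ZMod p) := by
      rw [hm' ((x, k), p) hp2, ← Nat.cast_prod, ← Finset.prod_filter]
      congr 2
      ext q
      simp only [sgA, Finset.mem_filter, Finset.mem_erase]
      tauto
    have h2 : (m ((x, k), p) : ZMod p) ≠ 0 := by
      rw [h1, Nat.cast_prod, Finset.prod_ne_zero_iff]
      intro q hq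
      obtain ⟨hq1, hq2⟩ := Finset.mem_erase.1 hq
      rw [Ne, ZMod.natCast_eq_zero_iff,
        Nat.prime_dvd_prime_iff_eq hp2 (Finset.mem_filter.1 hq2).2.1]
      exact fun h => hq1 h.symm
    have hne : {c | c < p ∧ (c * m ((x, k), p)) % p = G (x, p) % p}.Nonempty := by
      refine ⟨((G (x, p) : ZMod p) * (m ((x, k), p) : ZMod p)⁻¹).val, ZMod.val_lt _, ?_⟩
      rw [← ZMod.natCast_eq_natCast_iff', Nat.cast_mul, ZMod.natCast_zmod_val,
        inv_mul_cancel_right₀ h2]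
    have h3 := (Nat.sInf_mem hne).2
    rw [← ZMod.natCast_eq_natCast_iff', Nat.cast_mul, h1, hr x p hp2 hp3] at h3
    rw [Nat.cast_mul, hcdef]
    exact h3
  · intro k
    rw [hSdef, sgA, Finset.sum_filter]

end Vale.Agent.P337
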